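import Vale.Agent.P167.H945.MB

/-!
# P167, block START: [MB], assembly
-/

namespace Vale.Agent.P167.H945

set_option linter.unusedSectionVars false

open Finset MeasureTheory ProbabilityTheory
open Vale.Agent.P167.A (plane)
open Vale.Agent.P167.H685 (s_fin)
open Vale.Agent.P167.H199
open Vale.Agent.P167.H825
open Vale.Agent.P167.H662 (TAB GEO MB GeoAt TipD FlatD hsite tsite PF Ray bal FFD)
open Vale.Agent.P167.H166 (bxx mem_bxx)
open Vale.Agent.P167.E6 (IsPolygon Encloses dir)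

/-- The conclusion of `mbX` at the scale `n`. -/
def XAt (κ κ' R B ε C : ℝ) (m n : ℕ) : Prop :=
  ∀ (ι : Type) [Fintype ι] (W : WC ι), LAdm W (κ' * n) →
      (∀ i, ∀ k < (W.w i).L, (nm ((W.w i).pos k) : ℝ) ≤ R * n) →
      (∀ e, W.c e ≠ 0 → (nm (epos e) : ℝ) ≤ R * n ∧
        ∀ i, ∀ k < (W.w i).L, κ / 2 * n ≤ (nm (epos e - (W.w i).pos k) : ℝ)) →
      (∀ z, |H825.dv W.c z| ≤ B / n ^ 2) →
      (∀ ω e, e ∈ W.S → ¬ Lc W (κ' * n) e → Returns (nx ω) W.S e →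
        Small (κ' * n) (strand (nx ω) W.S e) →
        |2 * Real.cos (cang plane (Real.pi / 3) W.ph ω (strand (nx ω) W.S e))| ≤ √3) →
      ∀ (J : Type) [Fintype J], Fintype.card J ≤ m →
      ∀ (x : J → ℤ × ℤ) (Bf : J → Finset (ℤ × ℤ)), (∀ i j, i ≠ j → Disjoint (Bf i) (Bf j)) →
        (∀ i, ∀ v ∈ Bf i, (nm (v - x i) : ℝ) ≤ ε * n) → ∀ A : J → Set Cfg,
        (∀ i, ∀ ω ω' : Cfg, (∀ v ∈ Bf i, ω v = ω' v) → ω ∈ A i → ω' ∈ A i) →
        (∀ j, ∃ i, ∃ k < (W.w i).L, (nm (x j - (W.w i).pos k) : ℝ) ≤ κ / 2 / 8 * n) →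
        (∀ ω j, ω ∉ A j → Xc W.S W.ph ω = 0) →
        ∀ (F : Finset (ℤ × ℤ)) (G : Set Cfg), (∀ j, Disjoint F (Bf j)) →
          (∀ ω ω' : Cfg, (∀ v ∈ F, ω v = ω' v) → ω ∈ G → ω' ∈ G) →
          ∫ ω in G, |W.X ω| ∂μ ≤ C * μ.real G ^ (1 / 4 : ℝ) * ∏ j, μ.real (A j)

section

variable {l : ℕ} [NeZero l] {p : ZMod l → ℤ × ℤ} {Q : Marks} {n d : ℕ} {c : Ed → ℝ}
  {κ κ' κ1 κT κG κg δ ε R B C : ℝ} {S₀ : Finset (ℤ × ℤ)}

theorem flW (hGe : GeoAt p (enl S₀ n) Q n d κG) (hc : FlowIn (enl S₀ n) κ B n c) {e : Ed}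
    (he : c e ≠ 0) {f : Ed} (hf : f ∈ (PW p Q n d c).S) :
    κ * n - 1 ≤ (nm (epos e - epos f) : ℝ) := flow_far hc he (hGe.bdy f hf)

theorem flF (hGe : GeoAt p (enl S₀ n) Q n d κG) (hc : FlowIn (enl S₀ n) κ B n c) {e : Ed}
    (he : c e ≠ 0) {f : Ed} (hf : f ∈ (PF p Q n c).S) :
    κ * n - 1 ≤ (nm (epos e - epos f) : ℝ) := flow_far hc he ((hGe.full f).1 hf)

/-- The closed polygon. -/
theorem mbF (hX : XAt κ κ' R B ε C (l * (Q.m + 1) + 1) n) (hp : IsPolygon p) (hQ : Q.Ok)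
    (hG : Gaps l Q κg) (hκ : 0 < κ) (hRS : ∀ s ∈ S₀, (nm s : ℝ) + 1 ≤ R)
    (hRp : ∀ i : ZMod l, (nm (p i) : ℝ) + 2 ≤ R) (h : Num κ κ' κ1 κT κG κg δ ε n d)
    (hGe : GeoAt p (enl S₀ n) Q n d κG) (hc : FlowIn (enl S₀ n) κ B n c)
    (hTab : TabAt p Q n d c κT) {F : Finset (ℤ × ℤ)} {G : Set Cfg}
    (hFG : ∀ ω ω' : Cfg, (∀ v ∈ F, ω v = ω' v) → ω ∈ G → ω' ∈ G)
    (hFb : Disjoint F (bxx (bsite p Q n) ⌊κ1 * n⌋)) :
    ∫ ω in G, |(PF p Q n c).X ω| ∂μ ≤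
      C * (μ.real G) ^ (1 / 4 : ℝ) * μ.real (FlatD (pdir p 0) (bsite p Q n) ⌊κ1 * n⌋) := by
  obtain ⟨b1, b2, b3, b4, b5, b6, b7, b8, b9, b10, b11, b12, b13, b14⟩ := id h
  have n5 := h.n5
  have AF : LAdm (PF p Q n c) (κ' * n) :=
    ladm_PF hp hQ hG n5 h.g16 h.dd0 h.dd1 fun e he f hf => by
      have := flF hGe hc he hf
      linarith
  have f1 : (⌊κ1 * (n : ℝ)⌋ : ℝ) ≤ κ1 * n := Int.floor_le _
  have f0 : 0 ≤ ⌊κ1 * (n : ℝ)⌋ := Int.floor_nonneg.2 (by linarith)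
  have key := hX (Fin l) (PF p Q n c) AF (fun x k hk => boxF hRp (by omega) x hk)
    (fun e he => ⟨ceb hRS hκ.le hc he, fun i k hk => by
      have := flF hGe hc he (mem_WS.2 ⟨i, k, hk, rfl⟩)
      rw [pos_eq]
      linarith⟩) hc.dle
    (fun ω e he hL hr hs => tab_PF hp hQ hTab (by linarith) (by linarith) he hL hr hs)
    Unit (by simp) (fun _ => bsite p Q n)
    (fun _ => bxx (bsite p Q n) ⌊κ1 * n⌋)
    (fun i j h => absurd rfl h)
    (fun _ v hv => by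
      have h1 : (nm (v - bsite p Q n) : ℝ) ≤ ⌊κ1 * (n : ℝ)⌋ := by exact_mod_cast mem_bxx.1 hv
      linarith)
    (fun _ => FlatD (pdir p 0) (bsite p Q n) ⌊κ1 * n⌋)
    (fun _ ω ω' hw h => H662.dep_FlatD _ _ _ ω ω' hw h)
    (fun _ => wallF hG hQ h (by linarith))
    (fun ω _ hω => flat_PF hp hQ hG hGe AF h.dd0 h.g16 (by linarith) f0 (by linarith)
      (by linarith) hω)
    F G (fun _ => hFb) hFG
  rw [Fintype.prod_unique] at key
  exact key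

/-- The centres. -/
noncomputable def xJ (p : ZMod l → ℤ × ℤ) (Q : Marks) (n d : ℕ) :
    Option (Fin l × Fin (Q.m + 1)) → ℤ × ℤ
  | none => bsite p Q n
  | some x => tsite p Q n d x

/-- The balls. -/
noncomputable def bJ (p : ZMod l → ℤ × ℤ) (Q : Marks) (n d : ℕ) (r s : ℤ) :
    Option (Fin l × Fin (Q.m + 1)) → Finset (ℤ × ℤ)
  | none => bxx (bsite p Q n) r
  | some x => bxx (tsite p Q n d x) s

/-- The events. -/
noncomputable def aJ (p : ZMod l → ℤ × ℤ) (Q : Marks) (n d : ℕ) (r s : ℤ) :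
    Option (Fin l × Fin (Q.m + 1)) → Set Cfg
  | none => FlatD (pdir p 0) (bsite p Q n) r
  | some x => TipD (pdir p x.1) (tsite p Q n d x) s

/-- The polygon with holes. -/
theorem mbW (hX : XAt κ κ' R B ε C (l * (Q.m + 1) + 1) n) (hp : IsPolygon p) (hQ : Q.Ok)
    (hG : Gaps l Q κg) (hκ : 0 < κ) (hRS : ∀ s ∈ S₀, (nm s : ℝ) + 1 ≤ R)
    (hRp : ∀ i : ZMod l, (nm (p i) : ℝ) + 2 ≤ R) (h : Num κ κ' κ1 κT κG κg δ ε n d)
    (hGe : GeoAt p (enl S₀ n) Q n d κG) (hc : FlowIn (enl S₀ n) κ B n c)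
    (hTab : TabAt p Q n d c κT) {F : Finset (ℤ × ℤ)} {G : Set Cfg}
    (hFG : ∀ ω ω' : Cfg, (∀ v ∈ F, ω v = ω' v) → ω ∈ G → ω' ∈ G)
    (hFb : Disjoint F (bxx (bsite p Q n) ⌊κ1 * n⌋))
    (hFx : ∀ x, Disjoint F (bxx (tsite p Q n d x) ⌊δ * n / 4⌋)) :
    ∫ ω in G, |(PW p Q n d c).X ω| ∂μ ≤ C * (μ.real G) ^ (1 / 4 : ℝ) *
      (∏ x : Fin l × Fin (Q.m + 1), μ.real (TipD (pdir p x.1) (tsite p Q n d x) ⌊δ * n / 4⌋)) *
        μ.real (FlatD (pdir p 0) (bsite p Q n) ⌊κ1 * n⌋) := by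
  obtain ⟨b1, b2, b3, b4, b5, b6, b7, b8, b9, b10, b11, b12, b13, b14⟩ := id h
  have n5 := h.n5
  have d9 := h.d9
  have AW : LAdm (PW p Q n d c) (κ' * n) :=
    ladm_PW hp hQ hG d9 n5 h.dg h.g16 h.dd0 h.dd1 fun e he f hf => by
      have := flW hGe hc he hf
      linarith
  have f1 : (⌊κ1 * (n : ℝ)⌋ : ℝ) ≤ κ1 * n := Int.floor_le _
  have f0 : 0 ≤ ⌊κ1 * (n : ℝ)⌋ := Int.floor_nonneg.2 (by linarith)
  have g1 : (⌊δ * (n : ℝ) / 4⌋ : ℝ) ≤ δ * n / 4 := Int.floor_le _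
  have key := hX (Fin l × Fin (Q.m + 1)) (PW p Q n d c) AW
    (fun x k hk => boxW hQ hRp (by omega) (by omega) x hk)
    (fun e he => ⟨ceb hRS hκ.le hc he, fun i k hk => by
      have := flW hGe hc he (mem_WS.2 ⟨i, k, hk, rfl⟩)
      rw [pos_eq]
      linarith⟩) hc.dle
    (fun ω e he hL hr hs => tab_PW hp hQ hTab (by omega) (by linarith) (by linarith) he hL hr hs)
    (Option (Fin l × Fin (Q.m + 1))) (by simp) (xJ p Q n d)
    (bJ p Q n d ⌊κ1 * n⌋ ⌊δ * n / 4⌋)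
    (by
      intro i j hij
      rcases i with _ | x <;> rcases j with _ | y
      · exact absurd rfl hij
      · exact balls0 hGe h y
      · exact (balls0 hGe h x).symm
      · exact balls1 hGe h fun hxy => hij (by rw [hxy]))
    (by
      intro j v hv
      rcases j with _ | x
      · have h1 : (nm (v - bsite p Q n) : ℝ) ≤ ⌊κ1 * (n : ℝ)⌋ := by exact_mod_cast mem_bxx.1 hv
        show (nm (v - bsite p Q n) : ℝ) ≤ _
        linarith
      · have h1 : (nm (v - tsite p Q n d x) : ℝ) ≤ ⌊δ * (n : ℝ) / 4⌋ := by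
          exact_mod_cast mem_bxx.1 hv
        show (nm (v - tsite p Q n d x) : ℝ) ≤ _
        linarith)
    (aJ p Q n d ⌊κ1 * n⌋ ⌊δ * n / 4⌋)
    (by
      intro j ω ω' hw hω
      rcases j with _ | x
      · exact H662.dep_FlatD _ _ _ ω ω' hw hω
      · exact H662.dep_TipD _ _ _ ω ω' hw hω)
    (by
      intro j
      rcases j with _ | x
      · exact wallW hG hQ h (by linarith)
      · exact wallT hG hQ h (by linarith) x)
    (by
      intro ω j hω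
      rcases j with _ | x
      · exact flat_PW hp hQ hG hGe AW h.dd0 d9 h.dg h.g16 (by linarith) f0 (by linarith)
          (by linarith) hω
      · refine tip_PW hp hQ hG hGe hTab d9 h.dg h.g16 (R := ⌊δ * (n : ℝ) / 4⌋) ?_ ?_
          (by linarith) (by linarith) x hω
        · have : (⌊δ * (n : ℝ) / 4⌋ : ℝ) + 5 ≤ d := by linarith
          exact_mod_cast this
        · have : (⌊δ * (n : ℝ) / 4⌋ : ℝ) + 5 ≤ n := by linarith
          exact_mod_cast this)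
    F G
    (by
      intro j
      rcases j with _ | x
      · exact hFb
      · exact hFx x) hFG
  rw [Fintype.prod_option] at key
  refine key.trans (le_of_eq ?_)
  show C * μ.real G ^ (1 / 4 : ℝ) * (μ.real (FlatD (pdir p 0) (bsite p Q n) ⌊κ1 * n⌋) *
    ∏ x : Fin l × Fin (Q.m + 1), μ.real (TipD (pdir p x.1) (tsite p Q n d x) ⌊δ * n / 4⌋)) = _
  ring

end

/-- **[MB]** from the table at the holes and the geometry of the walls. -/
theorem mb (hT : TAB) (hGEO : GEO) : MB := by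
  intro l _ p S₀ hp hS Q hQ κ B κ2 hκ hκ2
  classical
  obtain ⟨κT, hκT, δT, hδT, hTAB⟩ := hT l p S₀ hp hS Q hQ κ B hκ
  obtain ⟨κG, hκG, δG, hδG, hGEO⟩ := hGEO l p S₀ hp hS Q hQ
  obtain ⟨κg, hG⟩ := exists_gaps l hQ
  have hκg := hG.pos
  obtain ⟨R, hR1, hRS, hRp⟩ := exists_R p S₀
  obtain ⟨κ0, hκ0, hX⟩ := mbX (κ / 2) R B (l * (Q.m + 1) + 1) (by positivity) (by linarith)
  obtain ⟨κ', hκ', q0, qT, qG, qg, qκ, q1⟩ : ∃ κ' : ℝ, 0 < κ' ∧ κ' ≤ κ0 ∧ κ' ≤ κT / 4 ∧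
      κ' ≤ κG / 8 ∧ κ' ≤ κg / 8 ∧ κ' ≤ κ / 4 ∧ κ' ≤ 1 / 4 :=
    ⟨min (min κ0 (κT / 4)) (min (min (κG / 8) (κg / 8)) (min (κ / 4) (1 / 4))), by positivity,
      (min_le_left _ _).trans (min_le_left _ _), (min_le_left _ _).trans (min_le_right _ _),
      (min_le_right _ _).trans ((min_le_left _ _).trans (min_le_left _ _)),
      (min_le_right _ _).trans ((min_le_left _ _).trans (min_le_right _ _)),
      (min_le_right _ _).trans ((min_le_right _ _).trans (min_le_left _ _)),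
      (min_le_right _ _).trans ((min_le_right _ _).trans (min_le_right _ _))⟩
  obtain ⟨ε, C, N0, hε, hC, hX⟩ := hX κ' hκ' q0
  obtain ⟨κ1, hκ1, r2, rε, r8⟩ : ∃ κ1 : ℝ, 0 < κ1 ∧ κ1 ≤ κ2 ∧ κ1 ≤ ε ∧ κ1 ≤ κ' / 8 :=
    ⟨min κ2 (min ε (κ' / 8)), by positivity, min_le_left _ _,
      (min_le_right _ _).trans (min_le_left _ _), (min_le_right _ _).trans (min_le_right _ _)⟩
  refine ⟨κ1, hκ1, r2, min (min δT δG) (min ε (κ' / 8)), by positivity, C, hC, ?_⟩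
  intro δ hδ hδ1
  have sT : δ < δT := hδ1.trans_le ((min_le_left _ _).trans (min_le_left _ _))
  have sG : δ < δG := hδ1.trans_le ((min_le_left _ _).trans (min_le_right _ _))
  have sε : δ ≤ ε := (hδ1.trans_le ((min_le_right _ _).trans (min_le_left _ _))).le
  have s8 : δ ≤ κ' / 8 := (hδ1.trans_le ((min_le_right _ _).trans (min_le_right _ _))).le
  have lim := tendsto_natCast_atTop_atTop (R := ℝ)
  filter_upwards [hTAB δ hδ sT, hGEO δ hδ sG, lim.eventually_ge_atTop N0,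
    lim.eventually_ge_atTop (32 / κ'), lim.eventually_ge_atTop (16 / δ),
    lim.eventually_ge_atTop (16 / κ1)] with n hTn hGn hn0 hn1 hn2 hn3 c hc F G hFG hFb
  have hnn : (0 : ℝ) ≤ n := Nat.cast_nonneg n
  have hNum : Num κ κ' κ1 κT κG κg δ ε n ⌊δ * n⌋₊ := by
    refine ⟨by rwa [div_le_iff₀ hκ', mul_comm] at hn1, by rwa [div_le_iff₀ hδ, mul_comm] at hn2,
      by rwa [div_le_iff₀ hκ1, mul_comm] at hn3, ?_, ?_, ?_, ?_, ?_, ?_, ?_, ?_, ?_,
      Nat.floor_le (by positivity), Nat.sub_one_lt_floor _⟩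
    · have := mul_le_mul_of_nonneg_right qT hnn
      linarith
    · have := mul_le_mul_of_nonneg_right qG hnn
      linarith
    · have := mul_le_mul_of_nonneg_right qg hnn
      linarith
    · have := mul_le_mul_of_nonneg_right qκ hnn
      linarith
    · have := mul_le_mul_of_nonneg_right q1 hnn
      linarith
    · have := mul_le_mul_of_nonneg_right r8 hnn
      linarith
    · have := mul_le_mul_of_nonneg_right s8 hnn
      linarith
    · exact mul_le_mul_of_nonneg_right rε hnn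
    · exact mul_le_mul_of_nonneg_right sε hnn
  have hXn : XAt κ κ' R B ε C (l * (Q.m + 1) + 1) n := hX n hn0
  exact ⟨mbF hXn hp hQ hG hκ hRS hRp hNum hGn hc (hTn c hc) hFG hFb,
    fun hFx => mbW hXn hp hQ hG hκ hRS hRp hNum hGn hc (hTn c hc) hFG hFb hFx⟩

end Vale.Agent.P167.H945
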