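import Vale.Agent.P167.H945.Wall
import Vale.Agent.P167.H135.Tra
import Vale.Agent.P167.H662.TipProb

/-!
# P167, block NORM: the probabilities of the tip and flat events do not depend on the direction, the
position and the parity
-/

namespace Vale.Agent.P167.H945

open Finset MeasureTheory ProbabilityTheory
open Vale.Agent.P167.H135 (shC shE mp_shC mp_rl rl it_sh it_sh' hdv_sh hdv_sh' sg_sh sg_sh' shE_inj)

theorem FFL.mono {L : Set Ed} {B B' : Set (ℤ × ℤ)} (h : B ⊆ B') {ω : Cfg} (hf : FFL L B ω) :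
    FFL L B' ω := by
  obtain ⟨e, n, h1, h2, h3, h4, h5, h6⟩ := hf
  exact ⟨e, n, h1, h2, h3, h4, fun i hi => h (h5 i hi), h6⟩

theorem FLL.mono {h : Bool} {c p σ : ℤ} {B B' : Set (ℤ × ℤ)} (hB : B ⊆ B') {ω : Cfg}
    (hf : FLL h c p σ B ω) : FLL h c p σ B' ω := by
  obtain ⟨t₀, t₁, n, h1, h2, h3, h4, h5⟩ := hf
  exact ⟨t₀, t₁, n, h1, h2, h3, fun i hi => hB (h4 i hi), h5⟩

/-! ### translations -/

theorem FFL.sh (a : ℤ × ℤ) {L : Set Ed} {B : Set (ℤ × ℤ)} {ω : Cfg} (hf : FFL L B ω) :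
    FFL (shE a '' L) ((fun v => v + a) '' B) (shC a ω) := by
  obtain ⟨e, n, h1, h2, h3, h4, h5, h6⟩ := hf
  by_cases ha : Even (a.1 + a.2)
  · refine ⟨shE a e, n, h1, ⟨e, h2, rfl⟩, ?_, fun i hi hin => ?_, fun i hi => ?_, ?_⟩
    · rw [it_sh ha]; exact ⟨_, h3, rfl⟩
    · rw [it_sh ha]
      rintro ⟨x, hx, hx'⟩
      rw [shE_inj a hx'] at hx
      exact h4 i hi hin hx
    · rw [it_sh ha, hdv_sh ha]
      exact ⟨_, h5 i hi, rfl⟩
    · rw [it_sh ha, sg_sh ha, sg_sh ha]; exact h6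
  · have key : ∀ i ≤ n, (nx (shC a ω))^[i] (shE a ((nx ω)^[n] e)) =
        shE a ((nx ω)^[n - i] e) := by
      intro i hi
      have := it_sh' ha ω ((nx ω)^[n - i] e) i
      rw [← Function.iterate_add_apply, show i + (n - i) = n by omega] at this
      exact this
    refine ⟨shE a ((nx ω)^[n] e), n, h1, ⟨_, h3, rfl⟩, ?_, fun i hi hin => ?_, fun i hi => ?_, ?_⟩
    · rw [key n le_rfl, Nat.sub_self]; exact ⟨e, h2, rfl⟩
    · rw [key i hin.le]
      rintro ⟨x, hx, hx'⟩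
      rw [shE_inj a hx'] at hx
      exact h4 (n - i) (by omega) (by omega) hx
    · rw [key i hi.le, hdv_sh' ha]
      refine ⟨_, h5 (n - i - 1) (by omega), ?_⟩
      show _ = _
      congr 1
      obtain ⟨m, hm⟩ : ∃ m, n - i = m + 1 := ⟨n - i - 1, by omega⟩
      rw [hm, Function.iterate_succ_apply', tlv_nx]
      rfl
    · rw [key n le_rfl, Nat.sub_self, sg_sh' ha, sg_sh' ha, h6]
      rfl

theorem shE_Ln (a : ℤ × ℤ) (h : Bool) (c t : ℤ) : shE a (Ln h c t) =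
    Ln h (c + if h then a.2 else a.1) (t + if h then a.1 else -a.2) := by
  cases h
  · simp only [Ln, Bool.false_eq_true, if_false, H135.shE, Sum.inl.injEq]
    ext
    · simp
    · simp; ring
  · simp only [Ln, if_true, H135.shE, Sum.inr.injEq]
    ext <;> simp

theorem FLL.sh (a : ℤ × ℤ) {h : Bool} {c p σ : ℤ} {B : Set (ℤ × ℤ)} {ω : Cfg}
    (hf : FLL h c p σ B ω) :
    FLL h (c + if h then a.2 else a.1) (p + if h then a.1 else -a.2) σ
      ((fun v => v + a) '' B) (shC a ω) := by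
  obtain ⟨t₀, t₁, n, h1, h2, h3, h4, h5, h6, h7⟩ := hf
  by_cases ha : Even (a.1 + a.2)
  · refine ⟨t₀ + if h then a.1 else -a.2, t₁ + if h then a.1 else -a.2, n, h1, ?_,
      fun i hi hin t => ?_, fun i hi => ?_, ?_, ?_, ?_⟩
    · rw [← shE_Ln, ← shE_Ln, it_sh ha, h2]
    · rw [← shE_Ln, it_sh ha]
      intro h8
      have h9 : Ln h (c + if h then a.2 else a.1) t =
          shE a (Ln h c (t - if h then a.1 else -a.2)) := by rw [shE_Ln, sub_add_cancel]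
      rw [h9] at h8
      exact h3 i hi hin _ (shE_inj a h8)
    · rw [← shE_Ln, it_sh ha, hdv_sh ha]
      exact ⟨_, h4 i hi, rfl⟩
    · rw [← shE_Ln, sg_sh ha]; exact h5
    · rw [← shE_Ln, sg_sh ha]; exact h6
    · omega
  · have key : ∀ i ≤ n, (nx (shC a ω))^[i] (shE a (Ln h c t₁)) =
        shE a ((nx ω)^[n - i] (Ln h c t₀)) := by
      intro i hi
      have := it_sh' ha ω ((nx ω)^[n - i] (Ln h c t₀)) i
      rw [← Function.iterate_add_apply, show i + (n - i) = n by omega, h2] at this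
      exact this
    refine ⟨t₁ + if h then a.1 else -a.2, t₀ + if h then a.1 else -a.2, n, h1, ?_,
      fun i hi hin t => ?_, fun i hi => ?_, ?_, ?_, ?_⟩
    · rw [← shE_Ln, ← shE_Ln, key n le_rfl, Nat.sub_self]
      rfl
    · rw [← shE_Ln, key i hin.le]
      intro h8
      have h9 : Ln h (c + if h then a.2 else a.1) t =
          shE a (Ln h c (t - if h then a.1 else -a.2)) := by rw [shE_Ln, sub_add_cancel]
      rw [h9] at h8
      exact h3 (n - i) (by omega) (by omega) _ (shE_inj a h8)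
    · rw [← shE_Ln, key i hi.le, hdv_sh' ha]
      refine ⟨_, h4 (n - i - 1) (by omega), ?_⟩
      show _ = _
      congr 1
      obtain ⟨m, hm⟩ : ∃ m, n - i = m + 1 := ⟨n - i - 1, by omega⟩
      rw [hm, Function.iterate_succ_apply', tlv_nx]
      rfl
    · rw [← shE_Ln, sg_sh' ha, h6, neg_neg]
    · rw [← shE_Ln, sg_sh' ha, h5]
    · omega

/-! ### rotation -/

theorem sg_roE (e : Ed) : sg (roE e) = (match e with | Sum.inl _ => sg e | Sum.inr _ => - sg e) := by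
  rcases e with ⟨x, y⟩ | ⟨x, y⟩
  · by_cases hp : Even (x + y) <;> simp [roE, sg, par_ro, hp]
  · by_cases hp : Even (x + y) <;> simp [roE, sg, par_ro', hp]

/-- All edges of `L` have the same kind. -/
def Kd (h : Bool) (L : Set Ed) : Prop := ∀ e ∈ L, ∃ v, e = if h then Sum.inr v else Sum.inl v

theorem FFL.ro {h : Bool} {L : Set Ed} (hL : Kd h L) {B : Set (ℤ × ℤ)} {ω : Cfg}
    (hf : FFL L B ω) : FFL (roE '' L) (roS '' B) (roC ω) := by
  obtain ⟨e, n, h1, h2, h3, h4, h5, h6⟩ := hf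
  refine ⟨roE e, n, h1, ⟨e, h2, rfl⟩, ?_, fun i hi hin => ?_, fun i hi => ?_, ?_⟩
  · rw [iter_ro]; exact ⟨_, h3, rfl⟩
  · rw [iter_ro]
    rintro ⟨x, hx, hx'⟩
    rw [roE_inj hx'] at hx
    exact h4 i hi hin hx
  · rw [iter_ro, hdv_ro]
    exact ⟨_, h5 i hi, rfl⟩
  · rw [iter_ro, sg_roE, sg_roE]
    obtain ⟨v, hv⟩ := hL _ h2
    obtain ⟨v', hv'⟩ := hL _ h3
    cases h
    · simp only [Bool.false_eq_true, if_false] at hv hv'
      rw [hv'] at h6
      rw [hv', hv]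
      rw [hv] at h6
      exact h6
    · simp only [if_true] at hv hv'
      rw [hv'] at h6
      rw [hv', hv]
      rw [hv] at h6
      simp only [h6]

theorem ro_Ln' (c t : ℤ) : roE (Ln true c t) = Ln false (-c - 2) (-t - 1) := by
  simp only [Ln, if_true, Bool.false_eq_true, if_false, roE, Sum.inl.injEq]
  ext <;> simp

theorem sg_Ln' (c t : ℤ) : sg (Ln false (-c - 2) (-t - 1)) = - sg (Ln true c t) := by
  rw [← ro_Ln', sg_roE]
  simp [Ln]

/-- Rotation from a column to a row. -/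
theorem FLL.ro {c p σ : ℤ} {B : Set (ℤ × ℤ)} {ω : Cfg} (hf : FLL false c p σ B ω) :
    FLL true c p σ (roS '' B) (roC ω) := by
  obtain ⟨t₀, t₁, n, h1, h2, h3, h4, h5, h6, h7⟩ := hf
  refine ⟨t₀, t₁, n, h1, ?_, fun i hi hin t => ?_, fun i hi => ?_, ?_, ?_, h7⟩
  · rw [← ro_Ln, ← ro_Ln, iter_ro, h2]
  · rw [← ro_Ln, ← ro_Ln, iter_ro]
    exact fun h => h3 i hi hin t (roE_inj h)
  · rw [← ro_Ln, iter_ro, hdv_ro]
    exact ⟨_, h4 i hi, rfl⟩
  · rw [sg_Ln]; exact h5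
  · rw [sg_Ln]; exact h6

/-- Rotation from a row to a column. -/
theorem FLL.ro' {c p σ : ℤ} {B : Set (ℤ × ℤ)} {ω : Cfg} (hf : FLL true c p σ B ω) :
    FLL false (-c - 2) (-p) (-σ) (roS '' B) (roC ω) := by
  obtain ⟨t₀, t₁, n, h1, h2, h3, h4, h5, h6, h7⟩ := hf
  refine ⟨-t₀ - 1, -t₁ - 1, n, h1, ?_, fun i hi hin t => ?_, fun i hi => ?_, ?_, ?_, by omega⟩
  · rw [← ro_Ln', ← ro_Ln', iter_ro, h2]
  · have h8 : Ln false (-c - 2) t = roE (Ln true c (-t - 1)) := by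
      rw [ro_Ln']; congr 1; ring
    rw [← ro_Ln', h8, iter_ro]
    exact fun h => h3 i hi hin _ (roE_inj h)
  · rw [← ro_Ln', iter_ro, hdv_ro]
    exact ⟨_, h4 i hi, rfl⟩
  · rw [sg_Ln', h5]
  · rw [sg_Ln', h6]

/-- The rotation of the squares as an equivalence. -/
def riEq : (ℤ × ℤ) ≃ (ℤ × ℤ) where
  toFun := riS
  invFun := roS
  left_inv v := by unfold riS roS; ext <;> simp
  right_inv := riS_roS

theorem mp_roC : MeasurePreserving roC μ μ := by
  have h := mp_rl riEq false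
  have : rl riEq false = roC := by
    funext ω v
    simp [rl, roC, riEq, H135.fx]
  rwa [this] at h

/-! ### the four directions -/

/-- The centred box of squares. -/
def cb (R : ℤ) : Set (ℤ × ℤ) := {v | -R ≤ v.1 ∧ v.1 < R ∧ -R ≤ v.2 ∧ v.2 < R}

theorem ro_cb (R : ℤ) : roS '' cb R ⊆ cb R := by
  rintro _ ⟨⟨a, b⟩, ⟨h1, h2, h3, h4⟩, rfl⟩
  simp only [cb, roS, Set.mem_ofPred_eq] at *
  omega

theorem HL_kd (h : Bool) (c T : ℤ) (up : Bool) : Kd h (HL h c T up) := by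
  rintro e ⟨t, -, rfl⟩
  cases h
  · exact ⟨_, rfl⟩
  · exact ⟨_, rfl⟩

theorem ro_HL_false (up : Bool) : roE '' HL false (-1) 0 up = HL true (-1) 0 up := by
  ext x
  constructor
  · rintro ⟨_, ⟨t, ht, rfl⟩, rfl⟩
    exact ⟨t, ht, ro_Ln _ _⟩
  · rintro ⟨t, ht, rfl⟩
    exact ⟨_, ⟨t, ht, rfl⟩, ro_Ln _ _⟩

theorem ro_HL_true (up : Bool) : roE '' HL true (-1) 0 up = HL false (-1) 0 (!up) := by
  ext x
  constructor
  · rintro ⟨_, ⟨t, ht, rfl⟩, rfl⟩
    refine ⟨-t - 1, ?_, ro_Ln' _ _⟩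
    cases up <;> simp at ht ⊢ <;> omega
  · rintro ⟨t, ht, rfl⟩
    refine ⟨_, ⟨-t - 1, ?_, rfl⟩, ?_⟩
    · cases up <;> simp at ht ⊢ <;> omega
    · rw [ro_Ln']
      congr 1
      ring

theorem tip_four (R : ℤ) (h up : Bool) : ∃ Ψ : Cfg → Cfg, MeasurePreserving Ψ μ μ ∧
    ∀ ω, FFL (HL true (-1) 0 false) (cb R) ω → FFL (HL h (-1) 0 up) (cb R) (Ψ ω) := by
  have s1 : ∀ ω, FFL (HL true (-1) 0 false) (cb R) ω →
      FFL (HL false (-1) 0 true) (cb R) (roC ω) := fun ω hf => by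
    have := (hf.ro (HL_kd true _ _ _)).mono (ro_cb R)
    rwa [ro_HL_true] at this
  have s2 : ∀ ω, FFL (HL true (-1) 0 false) (cb R) ω →
      FFL (HL true (-1) 0 true) (cb R) (roC (roC ω)) := fun ω hf => by
    have := ((s1 ω hf).ro (HL_kd false _ _ _)).mono (ro_cb R)
    rwa [ro_HL_false] at this
  have s3 : ∀ ω, FFL (HL true (-1) 0 false) (cb R) ω →
      FFL (HL false (-1) 0 false) (cb R) (roC (roC (roC ω))) := fun ω hf => by
    have := ((s2 ω hf).ro (HL_kd true _ _ _)).mono (ro_cb R)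
    rwa [ro_HL_true] at this
  cases h <;> cases up
  · exact ⟨_, (mp_roC.comp (mp_roC.comp mp_roC)), s3⟩
  · exact ⟨_, mp_roC, s1⟩
  · exact ⟨id, MeasurePreserving.id _, fun ω hf => hf⟩
  · exact ⟨_, mp_roC.comp mp_roC, s2⟩

theorem flat_four (R : ℤ) (h : Bool) {σ : ℤ} (hσ : σ = 1 ∨ σ = -1) :
    ∃ Ψ : Cfg → Cfg, MeasurePreserving Ψ μ μ ∧
      ∀ ω, FLL true (-1) 0 1 (cb R) ω → FLL h (-1) 0 σ (cb R) (Ψ ω) := by
  have s1 : ∀ ω, FLL true (-1) 0 1 (cb R) ω → FLL false (-1) 0 (-1) (cb R) (roC ω) :=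
    fun ω hf => hf.ro'.mono (ro_cb R)
  have s2 : ∀ ω, FLL true (-1) 0 1 (cb R) ω → FLL true (-1) 0 (-1) (cb R) (roC (roC ω)) :=
    fun ω hf => (s1 ω hf).ro.mono (ro_cb R)
  have s3 : ∀ ω, FLL true (-1) 0 1 (cb R) ω → FLL false (-1) 0 1 (cb R) (roC (roC (roC ω))) :=
    fun ω hf => (s2 ω hf).ro'.mono (ro_cb R)
  cases h
  · rcases hσ with rfl | rfl
    · exact ⟨_, (mp_roC.comp (mp_roC.comp mp_roC)), s3⟩
    · exact ⟨_, mp_roC, s1⟩
  · rcases hσ with rfl | rfl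
    · exact ⟨id, MeasurePreserving.id _, fun ω hf => hf⟩
    · exact ⟨_, mp_roC.comp mp_roC, s2⟩

/-- Translation vector from the origin to the position `T` of the line `c`. -/
def tv' (h : Bool) (c T : ℤ) : ℤ × ℤ := if h then (T, c + 1) else (c + 1, -T)

theorem cb_sub (h : Bool) (c T R : ℤ) : (fun v => v + tv' h c T) '' cb R ⊆ bl (ctr h c T) (R + 1) := by
  rintro _ ⟨⟨a, b⟩, ⟨h1, h2, h3, h4⟩, rfl⟩
  cases h <;> simp only [bl, tv', ctr, Bool.false_eq_true, if_false, if_true, Set.mem_ofPred_eq,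
    Prod.mk_add_mk, nm, Prod.mk_sub_mk, max_le_iff, abs_le] at * <;> omega

theorem sh_HL (h : Bool) (c T : ℤ) (up : Bool) :
    shE (tv' h c T) '' HL h (-1) 0 up = HL h c T up := by
  have key : ∀ t, shE (tv' h c T) (Ln h (-1) t) = Ln h c (t + T) := by
    intro t
    rw [shE_Ln]
    cases h <;> simp [tv']
  ext x
  constructor
  · rintro ⟨_, ⟨t, ht, rfl⟩, rfl⟩
    refine ⟨t + T, ?_, key t⟩
    cases up <;> simp at ht ⊢ <;> omega
  · rintro ⟨t, ht, rfl⟩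
    refine ⟨_, ⟨t - T, ?_, rfl⟩, ?_⟩
    · cases up <;> simp at ht ⊢ <;> omega
    · rw [key, sub_add_cancel]

theorem mono_mp {A A' : Set Cfg} {Ψ : Cfg → Cfg} (hΨ : MeasurePreserving Ψ μ μ)
    (hm : MeasurableSet A) (h : ∀ ω, Ψ ω ∈ A → ω ∈ A') : μ.real A ≤ μ.real A' := by
  have h1 : μ A = μ (Ψ ⁻¹' A) := (hΨ.measure_preimage hm.nullMeasurableSet).symm
  unfold Measure.real
  refine ENNReal.toReal_mono (measure_ne_top _ _) ?_
  rw [h1]
  exact measure_mono fun ω hω => h ω hω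

theorem bl_fin (z : ℤ × ℤ) (r : ℤ) : ∃ F : Finset (ℤ × ℤ), ∀ v, v ∈ F ↔ v ∈ bl z r :=
  Vale.Agent.P167.H45.box_fin z r

theorem meas_FFL (L : Set Ed) (z : ℤ × ℤ) (r : ℤ) : MeasurableSet {ω | ¬ FFL L (bl z r) ω} := by
  obtain ⟨F, hF⟩ := bl_fin z r
  refine Vale.Agent.P167.H45.meas_loc F fun ω ω' hw h h' => h (h'.congr fun v hv => ?_)
  exact (hw v ((hF v).2 hv)).symm

theorem meas_FLL (h : Bool) (c p σ : ℤ) (z : ℤ × ℤ) (r : ℤ) :
    MeasurableSet {ω | ¬ FLL h c p σ (bl z r) ω} := by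
  obtain ⟨F, hF⟩ := bl_fin z r
  refine Vale.Agent.P167.H45.meas_loc F fun ω ω' hw h h' => h (h'.congr fun v hv => ?_)
  exact (hw v ((hF v).2 hv)).symm

/-- **The probability that there is no face to face strand at a tip** is at most the one of the
standard tip. -/
theorem tip_std (h : Bool) (c T : ℤ) (up : Bool) (R : ℤ) :
    μ.real {ω | ¬ FFL (HL h c T up) (bl (ctr h c T) (R + 1)) ω} ≤
      μ.real {ω | ¬ FFL (HL true (-1) 0 false) (cb R) ω} := by
  obtain ⟨Ψ, hΨ, hf⟩ := tip_four R h up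
  refine mono_mp ((mp_shC (tv' h c T)).comp hΨ) (meas_FFL _ _ _) fun ω hω hff => hω ?_
  have h1 := (hf ω hff).sh (tv' h c T)
  rw [sh_HL] at h1
  exact h1.mono (cb_sub h c T R)

/-- **The probability that there is no strand over a flat point** is at most the one of the standard
flat point. -/
theorem flat_std (h : Bool) (c T : ℤ) {σ : ℤ} (hσ : σ = 1 ∨ σ = -1) (R : ℤ) :
    μ.real {ω | ¬ FLL h c T σ (bl (ctr h c T) (R + 1)) ω} ≤
      μ.real {ω | ¬ FLL true (-1) 0 1 (cb R) ω} := by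
  obtain ⟨Ψ, hΨ, hf⟩ := flat_four R h hσ
  refine mono_mp ((mp_shC (tv' h c T)).comp hΨ) (meas_FLL _ _ _ _ _ _) fun ω hω hff => hω ?_
  have h1 := (hf ω hff).sh (tv' h c T)
  have e1 : (-1 + if h = true then (tv' h c T).2 else (tv' h c T).1) = c := by
    cases h <;> simp [tv']
  have e2 : (0 + if h = true then (tv' h c T).1 else -(tv' h c T).2) = T := by
    cases h <;> simp [tv']
  rw [e1, e2] at h1
  exact h1.mono (cb_sub h c T R)

/-- The standard tip event is the one of `H662`. -/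
theorem std_TipOk (R : ℤ) : {ω | ¬ FFL (HL true (-1) 0 false) (cb (R + 1)) ω} ⊆
    H662.TipOk (0, 0) R := by
  intro ω hω hF
  apply hω
  obtain ⟨e, n, ⟨h1, ⟨x, hx, he⟩, ⟨x', hx', he'⟩, h4, h5⟩, h6⟩ := hF
  have hS : H662.Sl (0, 0) = HL true (-1) 0 false := by
    ext y
    constructor
    · rintro ⟨t, ht, rfl⟩
      exact ⟨t, by simpa using ht, by simp [Ln]⟩
    · rintro ⟨t, ht, rfl⟩
      exact ⟨t, by simpa using ht, by simp [Ln]⟩
  rw [hS] at h4
  refine ⟨e, n, h1, ?_, ?_, h4, fun i hi => ?_, ?_⟩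
  · rw [← hS]; exact ⟨x, hx, he⟩
  · rw [← hS]; exact ⟨x', hx', he'⟩
  · have h7 : nm (hdv ((nx ω)^[i] e) - (0, 0)) ≤ R := h5 i hi
    simp only [nm, Prod.fst_sub, Prod.snd_sub, sub_zero, max_le_iff, abs_le] at h7
    simp only [cb, Set.mem_ofPred_eq]
    omega
  · rw [he'] at h6 ⊢
    rw [he] at h6 ⊢
    have e1 : ((0 : ℤ), (0 : ℤ)).2 - 1 = -1 := rfl
    rw [e1] at h6 ⊢
    by_cases hp : Even (x + -1) <;> by_cases hp' : Even (x' + -1) <;>
      simp [hdv, tlv, sg, hp, hp'] at h6 ⊢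

end Vale.Agent.P167.H945
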