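import Vale.Agent.P167.H945.Macro
import Vale.Agent.P167.H199.CutLim

/-!
# P167, block NORM (NO3, abstract form): the product over loops and strands is bounded by the local
events at the tips

`Xc S a` is the product over the loops and strands with cuts `S` and phases `a`. If the small loops
and strands have a product at most `√3 ^ (number of the small strands) * g` and `Xc = 0` unless
the local event at every tip holds, then `E |Xc| ≤ C √3 ^ |S| ‖g‖₂ ∏ P (tip event)`, uniformly.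
-/

namespace Vale.Agent.P167.H945

open Finset MeasureTheory ProbabilityTheory
open Vale.Agent.P167.A (plane)
open Vale.Agent.P167.H685
open Vale.Agent.P167.H199
open Vale.Agent.P167.H45 (iInd)

theorem isSeg_of_loop {ω : Cfg} {ℓ : Finset Ed} (h : IsLoop ω ℓ) : IsSeg ω ℓ := by
  classical
  obtain ⟨e, he⟩ := h
  have hex : ∀ a : Ed, ∃ n : ℕ, a ∈ ℓ → (nx ω)^[n] e = a := by
    intro a
    by_cases ha : a ∈ ℓ
    · obtain ⟨n, hn⟩ := (he a).1 ha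
      exact ⟨n, fun _ => hn⟩
    · exact ⟨0, fun h => absurd h ha⟩
  choose n hn using hex
  refine ⟨e, ℓ.sup n, fun a => ⟨fun ha => ⟨n a, Finset.le_sup ha, hn a ha⟩, ?_⟩⟩
  rintro ⟨i, -, hi⟩
  exact (he a).2 ⟨i, hi⟩

theorem isSeg_strand {ω : Cfg} {S : Finset Ed} {e : Ed} (h : Returns (nx ω) S e) :
    IsSeg ω (strand (nx ω) S e) := by
  have h1 := h.spec.1
  refine ⟨e, ret (nx ω) S e - 1, fun a => ?_⟩
  rw [mem_strand]
  constructor
  · rintro ⟨k, hk, h2⟩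
    exact ⟨k, by omega, h2⟩
  · rintro ⟨k, hk, h2⟩
    exact ⟨k, by omega, h2⟩

theorem returns_of_loop {ω : Cfg} {ℓ S : Finset Ed} (h : IsLoop ω ℓ) {e : Ed} (he : e ∈ ℓ)
    (heS : e ∈ S) : Returns (nx ω) S e := by
  have h1 : nx ω e ∈ ℓ := loop_nx h he
  obtain ⟨n, hn⟩ := (loop_gen h h1 e).1 he
  exact ⟨n + 1, by omega, by rw [Function.iterate_succ_apply, hn]; exact heS⟩

theorem big_iff {c : ℤ × ℤ} {R' d : ℝ} {γ : Finset Ed} {e : Ed} (he : e ∈ γ)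
    (hc : (nm (hdv e - c) : ℝ) ≤ R') (h : ¬ Small d γ) : Big c R' d γ := by
  unfold Small at h
  push Not at h
  obtain ⟨u, hu, v, hv, h2⟩ := h
  obtain ⟨e1, he1, rfl⟩ := mem_image.1 hu
  obtain ⟨e2, he2, rfl⟩ := mem_image.1 hv
  exact ⟨⟨e, he, hc⟩, e1, he1, e2, he2, h2⟩

open Classical in
/-- The small loops and strands. -/
noncomputable def smP (S E : Finset Ed) (a : Ed → Bool → ℝ) (d : ℝ) (ω : Cfg) : ℝ :=
  (∏ ℓ ∈ (LE ω E).filter (fun ℓ => Disjoint ℓ S ∧ Small d ℓ),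
    |2 * Real.cos (cang plane (Real.pi / 3) a ω ℓ)|) *
    ∏ e ∈ S.filter (fun e => Small d (strand (nx ω) S e)),
      |2 * Real.cos (cang plane (Real.pi / 3) a ω (strand (nx ω) S e))|

open Classical in
/-- **The deterministic bound.** -/
theorem abs_Xc_le_big {ω : Cfg} (hg : ∀ e : Ed, ∃ ℓ, IsLoop ω ℓ ∧ e ∈ ℓ) {S E : Finset Ed}
    (hSE : S ⊆ E) {a : Ed → Bool → ℝ} (ha : ∀ e ∉ E, ∀ b, a e b = 0) {c : ℤ × ℤ} {R' d : ℝ}
    (hE : ∀ e ∈ E, (nm (hdv e - c) : ℝ) ≤ R') {N : ℕ} (hN : Maj c R' d ω N) :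
    |Xc S a ω| ≤ smP S E a d ω * 2 ^ N := by
  set BL := (LE ω E).filter (fun ℓ => Disjoint ℓ S ∧ ¬ Small d ℓ) with hBL
  set BS := S.filter (fun e => ¬ Small d (strand (nx ω) S e)) with hBS
  have hinj := nx_inj ω
  have hret : ∀ e ∈ S, Returns (nx ω) S e := fun e he => by
    obtain ⟨ℓ, h1, h2⟩ := hg e
    exact returns_of_loop h1 h2 he
  have hcard : BL.card + BS.card ≤ N := by
    have h1 : (BS.image fun e => strand (nx ω) S e).card = BS.card := by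
      refine card_image_of_injOn ?_
      intro e he e' he' h
      rw [mem_coe, hBS, mem_filter] at he he'
      have h2 := self_mem_strand (hret e he.1)
      have h3 : e ∈ strand (nx ω) S e' := by
        have h4 : strand (nx ω) S e = strand (nx ω) S e' := h
        rw [← h4]; exact h2
      exact strand_unique hinj he.1 he'.1 h2 h3
    have hdisj : Disjoint BL (BS.image fun e => strand (nx ω) S e) := by
      rw [Finset.disjoint_left]
      intro γ h2 h3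
      rw [hBL, mem_filter] at h2
      obtain ⟨e, he, rfl⟩ := mem_image.1 h3
      rw [hBS, mem_filter] at he
      exact Finset.disjoint_left.1 h2.2.1 (self_mem_strand (hret e he.1)) he.1
    rw [← h1, ← card_union_of_disjoint hdisj]
    refine hN _ ?_ ?_ ?_
    · intro γ hγ
      rcases mem_union.1 hγ with h | h
      · rw [hBL, mem_filter, mem_LE] at h
        exact isSeg_of_loop h.1.1
      · obtain ⟨e, he, rfl⟩ := mem_image.1 h
        rw [hBS, mem_filter] at he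
        exact isSeg_strand (hret e he.1)
    · have key : ∀ ℓ ∈ BL, ∀ e ∈ BS, Disjoint ℓ (strand (nx ω) S e) := by
        intro ℓ hℓ e he
        rw [hBL, mem_filter, mem_LE] at hℓ
        rw [hBS, mem_filter] at he
        rw [Finset.disjoint_left]
        intro x hx hx'
        obtain ⟨ℓ', h1', h2'⟩ := hg e
        have h3 := strand_sub h1' h2' S hx'
        have h4 := loop_unique hℓ.1.1 h1' hx h3
        subst h4
        exact Finset.disjoint_left.1 hℓ.2.1 h2' he.1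
      intro γ hγ γ' hγ' hne
      rcases mem_union.1 hγ with h | h <;> rcases mem_union.1 hγ' with h' | h'
      · rw [hBL, mem_filter, mem_LE] at h h'
        rw [Finset.disjoint_left]
        intro x hx hx'
        exact hne (loop_unique h.1.1 h'.1.1 hx hx')
      · obtain ⟨e, he, rfl⟩ := mem_image.1 h'
        exact key γ h e he
      · obtain ⟨e, he, rfl⟩ := mem_image.1 h
        exact (key γ' h' e he).symm
      · obtain ⟨e, he, rfl⟩ := mem_image.1 h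
        obtain ⟨e', he', rfl⟩ := mem_image.1 h'
        rw [hBS, mem_filter] at he he'
        rw [Finset.disjoint_left]
        intro x hx hx'
        exact hne (by rw [strand_unique hinj he.1 he'.1 hx hx'])
    · intro γ hγ
      rcases mem_union.1 hγ with h | h
      · rw [hBL, mem_filter, mem_LE] at h
        obtain ⟨⟨-, e, he, he'⟩, -, h2⟩ := h
        exact big_iff he' (hE e he) h2
      · obtain ⟨e, he, rfl⟩ := mem_image.1 h
        rw [hBS, mem_filter] at he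
        exact big_iff (self_mem_strand (hret e he.1)) (hE e (hSE he.1)) he.2
  have hL : ∏ ℓ ∈ (LE ω E).filter (fun ℓ => Disjoint ℓ S),
      |2 * Real.cos (cang plane (Real.pi / 3) a ω ℓ)| =
      (∏ ℓ ∈ (LE ω E).filter (fun ℓ => Disjoint ℓ S ∧ Small d ℓ),
        |2 * Real.cos (cang plane (Real.pi / 3) a ω ℓ)|) *
      ∏ ℓ ∈ BL, |2 * Real.cos (cang plane (Real.pi / 3) a ω ℓ)| := by
    rw [← prod_filter_mul_prod_filter_not ((LE ω E).filter (fun ℓ => Disjoint ℓ S)) (Small d),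
      filter_filter, filter_filter]
  have hS : ∏ e ∈ S, |2 * Real.cos (cang plane (Real.pi / 3) a ω (strand (nx ω) S e))| =
      (∏ e ∈ S.filter (fun e => Small d (strand (nx ω) S e)),
        |2 * Real.cos (cang plane (Real.pi / 3) a ω (strand (nx ω) S e))|) *
      ∏ e ∈ BS, |2 * Real.cos (cang plane (Real.pi / 3) a ω (strand (nx ω) S e))| := by
    rw [← prod_filter_mul_prod_filter_not S (fun e => Small d (strand (nx ω) S e))]
  have bL : ∏ ℓ ∈ BL, |2 * Real.cos (cang plane (Real.pi / 3) a ω ℓ)| ≤ 2 ^ BL.card := by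
    calc ∏ ℓ ∈ BL, |2 * Real.cos (cang plane (Real.pi / 3) a ω ℓ)|
        ≤ ∏ _ℓ ∈ BL, (2 : ℝ) := prod_le_prod (fun _ _ => abs_nonneg _) fun _ _ => abs_two_cos _
      _ = 2 ^ BL.card := by rw [prod_const]
  have bS : ∏ e ∈ BS, |2 * Real.cos (cang plane (Real.pi / 3) a ω (strand (nx ω) S e))| ≤
      2 ^ BS.card := by
    calc ∏ e ∈ BS, |2 * Real.cos (cang plane (Real.pi / 3) a ω (strand (nx ω) S e))|
        ≤ ∏ _e ∈ BS, (2 : ℝ) := prod_le_prod (fun _ _ => abs_nonneg _) fun _ _ => abs_two_cos _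
      _ = 2 ^ BS.card := by rw [prod_const]
  rw [Xc_eq ω ha, abs_mul, abs_prod, abs_prod, hL, hS]
  unfold smP
  set A1 := ∏ ℓ ∈ (LE ω E).filter (fun ℓ => Disjoint ℓ S ∧ Small d ℓ),
    |2 * Real.cos (cang plane (Real.pi / 3) a ω ℓ)| with hA1
  set A2 := ∏ e ∈ S.filter (fun e => Small d (strand (nx ω) S e)),
    |2 * Real.cos (cang plane (Real.pi / 3) a ω (strand (nx ω) S e))| with hA2
  set B1 := ∏ ℓ ∈ BL, |2 * Real.cos (cang plane (Real.pi / 3) a ω ℓ)| with hB1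
  set B2 := ∏ e ∈ BS, |2 * Real.cos (cang plane (Real.pi / 3) a ω (strand (nx ω) S e))| with hB2
  have p1 : 0 ≤ A1 := prod_nonneg fun _ _ => abs_nonneg _
  have p2 : 0 ≤ A2 := prod_nonneg fun _ _ => abs_nonneg _
  have p3 : 0 ≤ B1 := prod_nonneg fun _ _ => abs_nonneg _
  have p4 : 0 ≤ B2 := prod_nonneg fun _ _ => abs_nonneg _
  calc A1 * B1 * (A2 * B2) = A1 * A2 * (B1 * B2) := by ring
    _ ≤ A1 * A2 * (2 ^ BL.card * 2 ^ BS.card) := by gcongr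
    _ = A1 * A2 * 2 ^ (BL.card + BS.card) := by rw [pow_add]
    _ ≤ A1 * A2 * 2 ^ N := by gcongr; norm_num

/-- **NO3, abstract form.** -/
theorem no3 (κ R : ℝ) (m : ℕ) (hκ : 0 < κ) (hR : 0 ≤ R) : ∃ ε C ρ0 : ℝ, 0 < ε ∧ 0 < C ∧
    0 < ρ0 ∧ ∀ ρ : ℝ, ρ0 ≤ ρ → ∀ (c : ℤ × ℤ) (x : Fin m → ℤ × ℤ),
      ∀ (I : Finset (Fin m)) (B : Fin m → Finset (ℤ × ℤ)),
        (∀ i ∈ I, ∀ j ∈ I, i ≠ j → Disjoint (B i) (B j)) →
        (∀ i ∈ I, ∀ v ∈ B i, (nm (v - x i) : ℝ) ≤ ε * ρ) → ∀ A : Fin m → Set Cfg,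
        (∀ i ∈ I, ∀ ω ω' : Cfg, (∀ v ∈ B i, ω v = ω' v) → ω ∈ A i → ω' ∈ A i) →
        ∀ (F : Finset (ℤ × ℤ)) (g : Cfg → ℝ), (∀ i ∈ I, Disjoint F (B i)) →
        (∀ ω ω' : Cfg, (∀ v ∈ F, ω v = ω' v) → g ω = g ω') → (∀ ω, 0 ≤ g ω) →
        ∀ (S E : Finset Ed) (a : Ed → Bool → ℝ), S ⊆ E → (∀ e ∉ E, ∀ b, a e b = 0) →
        (∀ e ∈ E, (nm (hdv e - c) : ℝ) ≤ R * ρ) →
        (∀ᵐ ω ∂μ, (∃ i ∈ I, ω ∉ A i) → Xc S a ω = 0) →
        (∀ᵐ ω ∂μ, smP S E a (κ * ρ) ω ≤ √3 ^ S.card * g ω) →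
        ∫⁻ ω, ENNReal.ofReal |Xc S a ω| ∂μ ≤ ENNReal.ofReal (√3 ^ S.card) *
          ((ENNReal.ofReal C) ^ (1 / 2 : ℝ) *
            (∫⁻ ω, ENNReal.ofReal (g ω) ^ (2 : ℝ) ∂μ) ^ (1 / 2 : ℝ) * ∏ i ∈ I, μ (A i)) := by
  classical
  obtain ⟨ε, C, ρ0, hε, hC, hρ0, h⟩ := macro_dec κ R (Real.log 2) m hκ hR
  refine ⟨ε, C, ρ0, hε, hC, hρ0, fun ρ hρ c x I B hB hBx A hA F g hF hg hg0 S E a hSE ha hE
    h0 h1 => ?_⟩
  obtain ⟨N, h2, h3⟩ := h ρ hρ c x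
  have h4 := h3 I B hB hBx A hA F (fun ω => ENNReal.ofReal (g ω)) hF
    (fun ω ω' hw => by rw [hg ω ω' hw])
  refine le_trans ?_ (mul_le_mul_right h4 _)
  rw [← lintegral_const_mul' _ _ ENNReal.ofReal_ne_top]
  refine lintegral_mono_ae ?_
  filter_upwards [h0, h1, s_fin] with ω h0 h1 hg'
  by_cases hA' : ∀ i ∈ I, ω ∈ A i
  · have h5 : ∏ i ∈ I, (A i).indicator (1 : Cfg → ENNReal) ω = 1 :=
      prod_eq_one fun i hi => by rw [Set.indicator_of_mem (hA' i hi)]; rfl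
    rw [h5, mul_one, ← ENNReal.ofReal_mul (hg0 ω), ← ENNReal.ofReal_mul (by positivity)]
    refine ENNReal.ofReal_le_ofReal ?_
    have h6 := abs_Xc_le_big hg' hSE ha hE (h2 ω)
    have h7 : Real.exp (Real.log 2 * (N ω : ℝ)) = 2 ^ N ω := by
      rw [mul_comm, Real.exp_nat_mul, Real.exp_log (by norm_num)]
    rw [h7]
    calc |Xc S a ω| ≤ smP S E a (κ * ρ) ω * 2 ^ N ω := h6
      _ ≤ (√3 ^ S.card * g ω) * 2 ^ N ω := by gcongr
      _ = √3 ^ S.card * (g ω * 2 ^ N ω) := by ring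
  · push Not at hA'
    obtain ⟨i, hi, hi'⟩ := hA'
    rw [h0 ⟨i, hi, hi'⟩]
    simp

/-- **NO3, abstract form, real numbers.** -/
theorem no3_real (κ R : ℝ) (m : ℕ) (hκ : 0 < κ) (hR : 0 ≤ R) : ∃ ε C ρ0 : ℝ, 0 < ε ∧ 0 < C ∧
    0 < ρ0 ∧ ∀ ρ : ℝ, ρ0 ≤ ρ → ∀ (c : ℤ × ℤ) (x : Fin m → ℤ × ℤ),
      ∀ (I : Finset (Fin m)) (B : Fin m → Finset (ℤ × ℤ)),
        (∀ i ∈ I, ∀ j ∈ I, i ≠ j → Disjoint (B i) (B j)) →
        (∀ i ∈ I, ∀ v ∈ B i, (nm (v - x i) : ℝ) ≤ ε * ρ) → ∀ A : Fin m → Set Cfg,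
        (∀ i ∈ I, ∀ ω ω' : Cfg, (∀ v ∈ B i, ω v = ω' v) → ω ∈ A i → ω' ∈ A i) →
        ∀ (F : Finset (ℤ × ℤ)) (g : Cfg → ℝ), (∀ i ∈ I, Disjoint F (B i)) →
        (∀ ω ω' : Cfg, (∀ v ∈ F, ω v = ω' v) → g ω = g ω') → (∀ ω, 0 ≤ g ω) →
        ∀ M : ℝ, 0 ≤ M → ∫⁻ ω, ENNReal.ofReal (g ω) ^ (2 : ℝ) ∂μ ≤ ENNReal.ofReal M →
        ∀ (S E : Finset Ed) (a : Ed → Bool → ℝ), S ⊆ E → (∀ e ∉ E, ∀ b, a e b = 0) →
        (∀ e ∈ E, (nm (hdv e - c) : ℝ) ≤ R * ρ) →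
        (∀ᵐ ω ∂μ, (∃ i ∈ I, ω ∉ A i) → Xc S a ω = 0) →
        (∀ᵐ ω ∂μ, smP S E a (κ * ρ) ω ≤ √3 ^ S.card * g ω) →
        |∫ ω, Xc S a ω ∂μ| ≤ C * √M * √3 ^ S.card * ∏ i ∈ I, μ.real (A i) := by
  obtain ⟨ε, C, ρ0, hε, hC, hρ0, h⟩ := no3 κ R m hκ hR
  refine ⟨ε, √C, ρ0, hε, Real.sqrt_pos.2 hC, hρ0, fun ρ hρ c x I B hB hBx A hA F g hF hg hg0 M hM
    hgM S E a hSE ha hE h0 h1 => ?_⟩
  have h2 := h ρ hρ c x I B hB hBx A hA F g hF hg hg0 S E a hSE ha hE h0 h1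
  have h3 : ENNReal.ofReal (√3 ^ S.card) * ((ENNReal.ofReal C) ^ (1 / 2 : ℝ) *
      (∫⁻ ω, ENNReal.ofReal (g ω) ^ (2 : ℝ) ∂μ) ^ (1 / 2 : ℝ) * ∏ i ∈ I, μ (A i)) ≤
      ENNReal.ofReal (√C * √M * √3 ^ S.card * ∏ i ∈ I, μ.real (A i)) := by
    have e1 : ENNReal.ofReal (√C * √M * √3 ^ S.card * ∏ i ∈ I, μ.real (A i)) =
        ENNReal.ofReal (√3 ^ S.card) * (ENNReal.ofReal √C * ENNReal.ofReal √M *
          ∏ i ∈ I, μ (A i)) := by
      rw [show √C * √M * √3 ^ S.card * ∏ i ∈ I, μ.real (A i) =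
        √3 ^ S.card * (√C * √M * ∏ i ∈ I, μ.real (A i)) by ring,
        ENNReal.ofReal_mul (by positivity), ENNReal.ofReal_mul (by positivity),
        ENNReal.ofReal_mul (by positivity), ENNReal.ofReal_prod_of_nonneg
          (fun i _ => measureReal_nonneg)]
      congr 2
      refine prod_congr rfl fun i _ => ?_
      rw [ofReal_measureReal]
    rw [e1]
    have e2 : ENNReal.ofReal √C = ENNReal.ofReal C ^ (1 / 2 : ℝ) := by
      rw [ENNReal.ofReal_rpow_of_pos hC, Real.sqrt_eq_rpow]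
    have e3 : ENNReal.ofReal √M = ENNReal.ofReal M ^ (1 / 2 : ℝ) := by
      rw [ENNReal.ofReal_rpow_of_nonneg hM (by norm_num), Real.sqrt_eq_rpow]
    rw [e2, e3]
    gcongr
  have h4 := h2.trans h3
  have h5 : ENNReal.ofReal ‖∫ ω, Xc S a ω ∂μ‖ ≤ ∫⁻ ω, ENNReal.ofReal ‖Xc S a ω‖ ∂μ := by
    have := enorm_integral_le_lintegral_enorm (μ := μ) (fun ω => Xc S a ω)
    simpa only [← ofReal_norm] using this
  simp only [Real.norm_eq_abs] at h5
  have h6 := h5.trans h4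
  rwa [ENNReal.ofReal_le_ofReal_iff (by positivity)] at h6

end Vale.Agent.P167.H945
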