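import Vale.Agent.P167.H166.Arc
import Vale.Agent.P167.H166.Cross

/-!
# P167, block NORM (NO1): the number of disjoint interface segments which cross an annulus

A segment is a finite piece `{nx^i e : i ≤ n}` of an interface (loops, strands of any set of cut
edges, pieces of them). Pairwise disjoint segments which cross an annulus are at most twice as many
as the arcs of the box which cross it, and these are at most as many as the crossing clusters.
-/

namespace Vale.Agent.P167.H945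

open Finset MeasureTheory
open Vale.Agent.P167.H166 Vale.Agent.P167.H871
open Vale.Agent.P145.FB (PStep PConn)

/-- `γ` is a segment of an interface. -/
def IsSeg (ω : Cfg) (γ : Finset Ed) : Prop :=
  ∃ (e : Ed) (n : ℕ), ∀ a, a ∈ γ ↔ ∃ i ≤ n, (nx ω)^[i] e = a

/-- `γ` crosses the annulus around `x` with radii `r` and `k * r`. -/
def Crs (k r : ℤ) (x : ℤ × ℤ) (γ : Finset Ed) : Prop :=
  (∃ a ∈ γ, nm (hdv a - x) ≤ r) ∧ ∃ b ∈ γ, k * r ≤ nm (hdv b - x)

/-! ### Potentials in a closed box -/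

/-- `w` is a potential of `A` in the closed box of radius `R` around `x`. -/
def PotB (x : ℤ × ℤ) (R : ℤ) (A : Set Ed) (w : ℤ × ℤ → ℤ) : Prop :=
  ∀ e : Ed, (hdv e ∈ bxx x R ∨ tlv e ∈ bxx x R) →
    (e ∈ A → w (ls e) = w (rs e) + 1) ∧ (e ∉ A → w (ls e) = w (rs e))

theorem mem_bxx' {x : ℤ × ℤ} {R : ℤ} {v : ℤ × ℤ} : v ∈ bxx x R ↔
    x.1 - R ≤ v.1 ∧ v.1 ≤ x.1 + R ∧ x.2 - R ≤ v.2 ∧ v.2 ≤ x.2 + R := by
  simp only [bxx, Finset.mem_product, Finset.mem_Icc]
  tauto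

theorem exists_PotB {x : ℤ × ℤ} {R : ℤ} {ω : Cfg} {A : Set Ed}
    (h : Inv (bxx x R : Set (ℤ × ℤ)) ω A) : ∃ w : ℤ × ℤ → ℤ, PotB x R A w := by
  classical
  set u : Ed → ℤ := fun e => if e ∈ A then sg e else 0 with hu
  obtain ⟨w, h1, h2⟩ := exists_pot (fun x y => -u (Sum.inr (x, y - 1)))
    (fun x y => u (Sum.inl (x - 1, y))) (x.1 - R) (x.2 - R) (x.1 + R + 1) (x.2 + R + 1) (by
      intro a b a1 a2 a3 a4
      have := kirchhoff (ω := ω) (A := A) (v := (a, b)) (fun e he => h e (by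
        rw [he, Finset.mem_coe, mem_bxx']
        simp only
        omega))
      simp only [hu]
      have e1 : a + 1 - 1 = a := by ring
      have e2 : b + 1 - 1 = b := by ring
      rw [e1, e2]
      linarith)
  refine ⟨fun s => w s.1 s.2, ?_⟩
  rintro (⟨a, b⟩ | ⟨a, b⟩) he
  · -- horizontal medial edge
    have hb : x.1 - R ≤ a + 1 ∧ a + 1 ≤ x.1 + R + 1 ∧ x.2 - R ≤ b ∧ b < x.2 + R + 1 := by
      simp only [hdv, tlv, mem_bxx'] at he
      by_cases hp : Even (a + b) <;> simp only [hp, if_true, if_false] at he <;> omega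
    have h3 := h2 (a + 1) b hb.1 hb.2.1 hb.2.2.1 hb.2.2.2
    have e1 : a + 1 - 1 = a := by ring
    rw [e1] at h3
    simp only [hu] at h3
    by_cases hp : Even (a + b)
    · simp only [ls, rs, sg, hp, if_true] at h3 ⊢
      constructor
      · intro hA
        rw [if_pos hA] at h3
        linarith
      · intro hA
        rw [if_neg hA] at h3
        linarith
    · simp only [ls, rs, sg, hp, if_false] at h3 ⊢
      constructor
      · intro hA
        rw [if_pos hA] at h3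
        linarith
      · intro hA
        rw [if_neg hA] at h3
        linarith
  · have hb : x.1 - R ≤ a ∧ a < x.1 + R + 1 ∧ x.2 - R ≤ b + 1 ∧ b + 1 ≤ x.2 + R + 1 := by
      simp only [hdv, tlv, mem_bxx'] at he
      by_cases hp : Even (a + b) <;> simp only [hp, if_true, if_false] at he <;> omega
    have h3 := h1 a (b + 1) hb.1 hb.2.1 hb.2.2.1 hb.2.2.2
    have e1 : b + 1 - 1 = b := by ring
    rw [e1] at h3
    simp only [hu] at h3
    by_cases hp : Even (a + b)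
    · simp only [ls, rs, sg, hp, if_true] at h3 ⊢
      constructor
      · intro hA
        rw [if_pos hA] at h3
        linarith
      · intro hA
        rw [if_neg hA] at h3
        linarith
    · simp only [ls, rs, sg, hp, if_false] at h3 ⊢
      constructor
      · intro hA
        rw [if_pos hA] at h3
        linarith
      · intro hA
        rw [if_neg hA] at h3
        linarith

/-- The potential is constant along both sides of the interfaces. -/
theorem PotB.nx {x : ℤ × ℤ} {R : ℤ} {ω : Cfg} {A : Set Ed} {w : ℤ × ℤ → ℤ} (hw : PotB x R A w)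
    (h : Inv (bxx x R : Set (ℤ × ℤ)) ω A) {e : Ed} (he : hdv e ∈ bxx x R) :
    w (ls (nx ω e)) = w (ls e) ∧ w (rs (nx ω e)) = w (rs e) := by
  have h1 := hw e (Or.inl he)
  have h2 := hw (Vale.Agent.P167.nx ω e) (Or.inr (by rw [tlv_nx]; exact he))
  have h3 := h e (Finset.mem_coe.2 he)
  cases hb : ω (hdv e) with
  | true =>
    have h4 := rs_nx hb
    rw [h4] at h2 ⊢
    by_cases hA : e ∈ A
    · have := h1.1 hA
      have := h2.1 (h3.1 hA)
      exact ⟨by linarith, rfl⟩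
    · have := h1.2 hA
      have := h2.2 (fun hn => hA (h3.2 hn))
      exact ⟨by linarith, rfl⟩
  | false =>
    have h4 := ls_nx hb
    rw [h4] at h2 ⊢
    by_cases hA : e ∈ A
    · have := h1.1 hA
      have := h2.1 (h3.1 hA)
      exact ⟨rfl, by linarith⟩
    · have := h1.2 hA
      have := h2.2 (fun hn => hA (h3.2 hn))
      exact ⟨rfl, by linarith⟩

/-- A step of the cluster of an even site. -/
theorem PotB.step {x : ℤ × ℤ} {R : ℤ} {ω : Cfg} {A : Set Ed} {w : ℤ × ℤ → ℤ} (hw : PotB x R A w)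
    (h : Inv (bxx x R : Set (ℤ × ℤ)) ω A) {s t : ℤ × ℤ} (hs : (s.1 + s.2) % 2 = 0)
    (hst : PStep (Sb x R ω true : Set (ℤ × ℤ)) s t) : w s = w t := by
  have h2 := hst
  obtain ⟨a1, a2, a3⟩ := hst
  rw [Finset.mem_coe, Sb, Finset.mem_filter] at a3
  have hv : PStep {(min s.1 t.1, min s.2 t.2)} s t := ⟨a1, a2, rfl⟩
  obtain ⟨e, he1, he2⟩ := (exists_edge hv).1 (by rw [Int.even_iff]; exact hs)
  have hb : ω (hdv e) = true := by rw [he1]; exact a3.2
  obtain ⟨h3, h4⟩ := (nx_step ω e).1 hb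
  rw [he1, he2] at h3
  have h5 := opp hv h3
  have h6 := (hw.nx h (e := e) (by rw [he1]; exact a3.1)).1
  rw [he2, ← h5] at h6
  exact h6.symm

theorem PotB.step' {x : ℤ × ℤ} {R : ℤ} {ω : Cfg} {A : Set Ed} {w : ℤ × ℤ → ℤ} (hw : PotB x R A w)
    (h : Inv (bxx x R : Set (ℤ × ℤ)) ω A) {s t : ℤ × ℤ} (hs : (s.1 + s.2) % 2 = 1)
    (hst : PStep (Sb x R ω false : Set (ℤ × ℤ)) s t) : w s = w t := by
  have h2 := hst
  obtain ⟨a1, a2, a3⟩ := hst
  rw [Finset.mem_coe, Sb, Finset.mem_filter] at a3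
  have hv : PStep {(min s.1 t.1, min s.2 t.2)} s t := ⟨a1, a2, rfl⟩
  obtain ⟨e, he1, he2⟩ := (exists_edge hv).2 (by rw [Int.odd_iff]; exact hs)
  have hb : ω (hdv e) = false := by rw [he1]; exact a3.2
  obtain ⟨h3, h4⟩ := (nx_step ω e).2 hb
  rw [he1, he2] at h4
  have h5 := opp hv h4
  have h6 := (hw.nx h (e := e) (by rw [he1]; exact a3.1)).2
  rw [he2, ← h5] at h6
  exact h6.symm

theorem PotB.clu {x : ℤ × ℤ} {R : ℤ} {ω : Cfg} {A : Set Ed} {w : ℤ × ℤ → ℤ} (hw : PotB x R A w)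
    (h : Inv (bxx x R : Set (ℤ × ℤ)) ω A) {s t : ℤ × ℤ} (hs : (s.1 + s.2) % 2 = 0)
    (hst : t ∈ cl (Sb x R ω true) s) : w s = w t := by
  induction hst with
  | refl => rfl
  | @tail a b h1 h2 ih =>
    have := cl_parity (show a ∈ cl (Sb x R ω true) s from h1)
    rw [ih]
    exact hw.step h (by omega) h2

theorem PotB.clu' {x : ℤ × ℤ} {R : ℤ} {ω : Cfg} {A : Set Ed} {w : ℤ × ℤ → ℤ} (hw : PotB x R A w)
    (h : Inv (bxx x R : Set (ℤ × ℤ)) ω A) {s t : ℤ × ℤ} (hs : (s.1 + s.2) % 2 = 1)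
    (hst : t ∈ cl (Sb x R ω false) s) : w s = w t := by
  induction hst with
  | refl => rfl
  | @tail a b h1 h2 ih =>
    have := cl_parity (show a ∈ cl (Sb x R ω false) s from h1)
    rw [ih]
    exact hw.step' h (by omega) h2

/-! ### Arcs -/

/-- The arcs of the box of radius `R` which visit the box of radius `r` and leave the box. -/
def AC (x : ℤ × ℤ) (r R : ℤ) (ω : Cfg) : Set (Set Ed) :=
  {A | ∃ e, A = Arc (bxx x R) ω e ∧ nm (hdv e - x) ≤ r ∧ ∃ n : ℕ, hdv ((nx ω)^[n] e) ∉ bxx x R}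

theorem AC_cross {x : ℤ × ℤ} {r R : ℤ} (hrR : r ≤ R) {ω : Cfg} {A : Set Ed} (hA : A ∈ AC x r R ω) :
    ∃ e ∈ A, cl (Sb x R ω true) (ls e) ∈ CC x r R 0 (Sb x R ω true) ∧
      cl (Sb x R ω false) (rs e) ∈ CC x r R 1 (Sb x R ω false) ∧ hdv e ∈ bxx x R ∧
      A = Arc (bxx x R) ω e := by
  classical
  obtain ⟨a, rfl, hv1, hex⟩ := hA
  have hin : hdv a ∈ bxx x R := mem_bxx.2 (hv1.trans hrR)
  obtain ⟨n, hn1, hn2⟩ : ∃ n, hdv ((nx ω)^[n] a) ∉ bxx x R ∧
      ∀ i < n, nm (hdv ((nx ω)^[i] a) - x) ≤ R :=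
    ⟨Nat.find hex, Nat.find_spec hex, fun i hi => by
      have := Nat.find_min hex hi
      rw [not_not, mem_bxx] at this
      exact this⟩
  rw [mem_bxx, not_le] at hn1
  obtain ⟨h3, h4⟩ := arc hn2
  generalize (nx ω)^[n] a = c at h3 h4 hn1
  obtain ⟨c1, c2, c3, c4, c5, c6⟩ := corner a
  obtain ⟨d1, d2, d3, d4, d5, d6⟩ := corner c
  simp only [nm, Prod.fst_sub, Prod.snd_sub, max_le_iff, lt_max_iff, abs_le, lt_abs] at hv1 hn1
  refine ⟨a, self_mem_Arc _ _ _, ⟨ls a, c5, ?_, rfl, ls c, h3, ?_⟩, ⟨rs a, c6, ?_, rfl, rs c, h4, ?_⟩,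
    hin, rfl⟩ <;>
    simp only [nm, Prod.fst_sub, Prod.snd_sub, max_le_iff, le_max_iff, abs_le, le_abs] <;> omega

theorem AC_finite {x : ℤ × ℤ} {r R : ℤ} (hrR : r ≤ R) (ω : Cfg) : (AC x r R ω).Finite := by
  refine ((touch_finite (bxx x R)).image (fun e => Arc (bxx x R) ω e)).subset ?_
  intro A hA
  obtain ⟨e, he, -, -, hin, rfl⟩ := AC_cross hrR hA
  exact ⟨e, Or.inl hin, rfl⟩

/-- The number of crossing arcs is at most the number of crossing clusters. -/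
theorem AC_le {x : ℤ × ℤ} {r R : ℤ} (hrR : r ≤ R) (ω : Cfg) :
    (AC x r R ω).ncard ≤ kap x r R 0 true ω + kap x r R 1 false ω := by
  classical
  unfold kap
  set Λ : Set (Set Ed) := AC x r R ω with hΛ
  have : Fintype Λ := (AC_finite (x := x) hrR ω).fintype
  have := (CC_finite x r R 0 (Sb x R ω true)).fintype
  have := (CC_finite x r R 1 (Sb x R ω false)).fintype
  have hex : ∀ ℓ : Λ, ∃ e ∈ ℓ.1, cl (Sb x R ω true) (ls e) ∈ CC x r R 0 (Sb x R ω true) ∧
      cl (Sb x R ω false) (rs e) ∈ CC x r R 1 (Sb x R ω false) ∧ hdv e ∈ bxx x R ∧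
      ℓ.1 = Arc (bxx x R) ω e :=
    fun ℓ => AC_cross hrR ℓ.2
  choose e he hP hD hin hA using hex
  have hinv : ∀ ℓ : Λ, Inv (bxx x R : Set (ℤ × ℤ)) ω ℓ.1 := fun ℓ => by
    rw [hA ℓ]; exact Arc.inv _ _ _
  have hpot : ∀ ℓ : Λ, ∃ w : ℤ × ℤ → ℤ, PotB x R ℓ.1 w := fun ℓ => exists_PotB (hinv ℓ)
  choose w hw using hpot
  have hr0 : ∀ C : CC x r R 0 (Sb x R ω true), ∃ s, C.1 = cl (Sb x R ω true) s :=
    fun C => by obtain ⟨s, -, -, h, -⟩ := C.2; exact ⟨s, h⟩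
  have hr1 : ∀ C : CC x r R 1 (Sb x R ω false), ∃ s, C.1 = cl (Sb x R ω false) s :=
    fun C => by obtain ⟨s, -, -, h, -⟩ := C.2; exact ⟨s, h⟩
  choose p hp using hr0
  choose d hd using hr1
  let M : Matrix ((CC x r R 0 (Sb x R ω true)) ⊕ (CC x r R 1 (Sb x R ω false))) Λ ℚ :=
    fun q ℓ => (w ℓ (Sum.elim p d q) : ℚ)
  have hinj : Function.Injective M.mulVecLin := by
    rw [injective_iff_map_eq_zero]
    intro a ha
    funext ℓ0
    have h1 : ∑ ℓ : Λ, (w ℓ (p ⟨_, hP ℓ0⟩) : ℚ) * a ℓ = 0 :=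
      congrFun ha (Sum.inl ⟨_, hP ℓ0⟩)
    have h2 : ∑ ℓ : Λ, (w ℓ (d ⟨_, hD ℓ0⟩) : ℚ) * a ℓ = 0 :=
      congrFun ha (Sum.inr ⟨_, hD ℓ0⟩)
    have h3 : ∀ ℓ : Λ, w ℓ (p ⟨_, hP ℓ0⟩) = w ℓ (ls (e ℓ0)) := by
      intro ℓ
      have hm : ls (e ℓ0) ∈ cl (Sb x R ω true) (p ⟨_, hP ℓ0⟩) := by
        rw [← hp ⟨_, hP ℓ0⟩]
        exact Relation.ReflTransGen.refl
      refine (hw ℓ).clu (hinv ℓ) ?_ hm
      rw [← cl_parity hm]
      exact (corner (e ℓ0)).2.2.2.2.1
    have h4 : ∀ ℓ : Λ, w ℓ (d ⟨_, hD ℓ0⟩) = w ℓ (rs (e ℓ0)) := by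
      intro ℓ
      have hm : rs (e ℓ0) ∈ cl (Sb x R ω false) (d ⟨_, hD ℓ0⟩) := by
        rw [← hd ⟨_, hD ℓ0⟩]
        exact Relation.ReflTransGen.refl
      refine (hw ℓ).clu' (hinv ℓ) ?_ hm
      rw [← cl_parity hm]
      exact (corner (e ℓ0)).2.2.2.2.2
    have h5 : ∀ ℓ : Λ, (w ℓ (ls (e ℓ0)) : ℚ) - w ℓ (rs (e ℓ0)) = if ℓ = ℓ0 then 1 else 0 := by
      intro ℓ
      have h6 := hw ℓ (e ℓ0) (Or.inl (hin ℓ0))
      by_cases h7 : ℓ = ℓ0
      · have h8 := h6.1 (by rw [h7]; exact he ℓ0)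
        rw [h8, if_pos h7]
        push_cast
        ring
      · have h8 : e ℓ0 ∉ ℓ.1 := by
          intro h9
          apply h7
          apply Subtype.ext
          rw [hA ℓ] at h9
          rw [hA ℓ, hA ℓ0]
          exact (Arc.eq h9).symm
        have h9 := h6.2 h8
        rw [h9, if_neg h7]
        ring
    have h6 : ∑ ℓ : Λ, ((w ℓ (ls (e ℓ0)) : ℚ) - w ℓ (rs (e ℓ0))) * a ℓ = 0 := by
      simp only [sub_mul, Finset.sum_sub_distrib]
      simp only [h3] at h1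
      simp only [h4] at h2
      rw [h1, h2, sub_zero]
    simp only [h5] at h6
    simpa using h6
  have h := LinearMap.finrank_le_finrank_of_injective hinj
  rw [Module.finrank_fintype_fun_eq_card, Module.finrank_fintype_fun_eq_card,
    Fintype.card_sum] at h
  rw [← Nat.card_coe_set_eq, ← Nat.card_coe_set_eq, ← Nat.card_coe_set_eq, Nat.card_eq_fintype_card,
    Nat.card_eq_fintype_card, Nat.card_eq_fintype_card]
  exact h

/-! ### Segments -/

/-- A crossing segment contains the exit edge or the entry edge of a crossing arc. -/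
theorem seg_end {x : ℤ × ℤ} {r R : ℤ} (hrR : r ≤ R) {ω : Cfg} {γ : Finset Ed} (hγ : IsSeg ω γ)
    (h1 : ∃ a ∈ γ, nm (hdv a - x) ≤ r) (h2 : ∃ b ∈ γ, R < nm (hdv b - x)) :
    ∃ A ∈ AC x r R ω, ∃ c ∈ γ, c ∈ A ∧ (hdv c ∉ bxx x R ∨ tlv c ∉ bxx x R) := by
  classical
  obtain ⟨e, n, hn⟩ := hγ
  obtain ⟨a, ha, hv1⟩ := h1
  obtain ⟨b, hb, hv2⟩ := h2
  obtain ⟨i, hi, rfl⟩ := (hn a).1 ha
  obtain ⟨j, hj, rfl⟩ := (hn b).1 hb
  have hbn : hdv ((nx ω)^[j] e) ∉ bxx x R := by rw [mem_bxx, not_le]; exact hv2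
  have han : hdv ((nx ω)^[i] e) ∈ bxx x R := mem_bxx.2 (hv1.trans hrR)
  rcases lt_trichotomy i j with hij | hij | hij
  · -- forwards
    have hex : ∃ m, hdv ((nx ω)^[m + i] e) ∉ bxx x R := ⟨j - i, by rwa [Nat.sub_add_cancel hij.le]⟩
    set m := Nat.find hex with hm
    have hm1 : hdv ((nx ω)^[m + i] e) ∉ bxx x R := Nat.find_spec hex
    have hm2 : ∀ l < m, hdv ((nx ω)^[l + i] e) ∈ bxx x R := fun l hl => not_not.1 (Nat.find_min hex hl)
    have hm3 : m ≤ j - i := Nat.find_min' hex (by rwa [Nat.sub_add_cancel hij.le])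
    refine ⟨Arc (bxx x R) ω ((nx ω)^[i] e), ⟨_, rfl, hv1, m, by rwa [← Function.iterate_add_apply]⟩,
      (nx ω)^[m + i] e, (hn _).2 ⟨m + i, by omega, rfl⟩, Or.inl ⟨m, ?_, ?_⟩, Or.inl hm1⟩
    · rw [Function.iterate_add_apply]
    · intro l hl
      rw [← Function.iterate_add_apply]
      exact hm2 l hl
  · exfalso
    rw [hij] at han
    exact hbn han
  · -- backwards: the last visit of the outside before `i`
    have hex : ∃ m, hdv ((nx ω)^[i - m] e) ∉ bxx x R ∧ m ≤ i := ⟨i - j, by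
      rw [Nat.sub_sub_self hij.le]; exact ⟨hbn, by omega⟩⟩
    set m := Nat.find hex with hm
    obtain ⟨hm1, hm0⟩ := Nat.find_spec hex
    rw [← hm] at hm1 hm0
    have hm2 : ∀ l < m, hdv ((nx ω)^[i - l] e) ∈ bxx x R := fun l hl => by
      have := Nat.find_min hex hl
      by_contra h
      exact this ⟨h, by omega⟩
    have hmpos : 0 < m := by
      rcases Nat.eq_zero_or_pos m with h | h
      · rw [h, Nat.sub_zero] at hm1
        exact absurd han hm1
      · exact h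
    have hc : (nx ω)^[i - m + 1] e = nx ω ((nx ω)^[i - m] e) := Function.iterate_succ_apply' _ _ _
    have hfw : Fw (bxx x R) ω ((nx ω)^[i - m + 1] e) ((nx ω)^[i] e) := by
      refine ⟨m - 1, ?_, ?_⟩
      · rw [← Function.iterate_add_apply]
        congr 2
        omega
      · intro l hl
        rw [← Function.iterate_add_apply]
        have := hm2 (m - 1 - l) (by omega)
        rwa [show i - (m - 1 - l) = l + (i - m + 1) by omega] at this
    have htl : tlv ((nx ω)^[i - m + 1] e) ∉ bxx x R := by rw [hc, tlv_nx]; exact hm1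
    have hout : ∃ q : ℕ, hdv ((nx ω)^[q] ((nx ω)^[i] e)) ∉ bxx x R := by
      rcases Arc.cases (ω := ω) (e := (nx ω)^[i] e) (Or.inl han) with ⟨ℓ, hℓ, hℓ1, hℓ2⟩ | ⟨q, hq, -⟩
      · exfalso
        have h3 : (nx ω)^[i - m + 1] e ∈ ℓ := by
          rw [← Finset.mem_coe, hℓ2]
          exact Or.inr hfw
        rw [hc] at h3
        have h4 := hℓ.nx_mem_iff.1 h3
        exact hm1 (hℓ1 (by unfold vs; exact Finset.mem_image_of_mem _ h4))
      · exact ⟨q, hq⟩
    exact ⟨Arc (bxx x R) ω ((nx ω)^[i] e), ⟨_, rfl, hv1, hout⟩, _,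
      (hn _).2 ⟨i - m + 1, by omega, rfl⟩, Or.inr hfw, Or.inr htl⟩

/-- The exit edge of an arc is unique. -/
theorem exit_unique {B : Finset (ℤ × ℤ)} {ω : Cfg} {e c c' : Ed} (h : c ∈ Arc B ω e)
    (h' : c' ∈ Arc B ω e) (hc : hdv c ∉ B) (hc' : hdv c' ∉ B) : c = c' := by
  have h2 : c' ∈ Arc B ω c := Arc.trans (Arc.symm h) h'
  rcases h2 with ⟨n, hn, hn2⟩ | ⟨n, hn, hn2⟩
  · rcases Nat.eq_zero_or_pos n with h0 | h0
    · subst h0; exact hn
    · exact absurd (hn2 0 h0) hc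
  · rcases Nat.eq_zero_or_pos n with h0 | h0
    · subst h0; exact hn.symm
    · exact absurd (hn2 0 h0) hc'

/-- The entry edge of an arc is unique. -/
theorem entry_unique {B : Finset (ℤ × ℤ)} {ω : Cfg} {e c c' : Ed} (h : c ∈ Arc B ω e)
    (h' : c' ∈ Arc B ω e) (hc : tlv c ∉ B) (hc' : tlv c' ∉ B) : c = c' := by
  have h2 : c' ∈ Arc B ω c := Arc.trans (Arc.symm h) h'
  rcases h2 with ⟨n, hn, hn2⟩ | ⟨n, hn, hn2⟩
  · rcases Nat.eq_zero_or_pos n with h0 | h0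
    · subst h0; exact hn
    · exfalso
      apply hc'
      obtain ⟨k, rfl⟩ : ∃ k, n = k + 1 := ⟨n - 1, by omega⟩
      rw [← hn, Function.iterate_succ_apply', tlv_nx]
      exact hn2 k (by omega)
  · rcases Nat.eq_zero_or_pos n with h0 | h0
    · subst h0; exact hn.symm
    · exfalso
      apply hc
      obtain ⟨k, rfl⟩ : ∃ k, n = k + 1 := ⟨n - 1, by omega⟩
      rw [← hn, Function.iterate_succ_apply', tlv_nx]
      exact hn2 k (by omega)

/-- Pairwise disjoint crossing segments are at most twice as many as the crossing arcs. -/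
theorem segs_le {x : ℤ × ℤ} {r R : ℤ} (hrR : r ≤ R) {ω : Cfg} (𝓕 : Finset (Finset Ed))
    (hs : ∀ γ ∈ 𝓕, IsSeg ω γ) (hd : ∀ γ ∈ 𝓕, ∀ γ' ∈ 𝓕, γ ≠ γ' → Disjoint γ γ')
    (h1 : ∀ γ ∈ 𝓕, ∃ a ∈ γ, nm (hdv a - x) ≤ r) (h2 : ∀ γ ∈ 𝓕, ∃ b ∈ γ, R < nm (hdv b - x)) :
    𝓕.card ≤ 2 * (kap x r R 0 true ω + kap x r R 1 false ω) := by
  classical
  have hex : ∀ γ : Finset Ed, ∃ (A : Set Ed) (c : Ed), γ ∈ 𝓕 → A ∈ AC x r R ω ∧ c ∈ γ ∧ c ∈ A ∧
      (hdv c ∉ bxx x R ∨ tlv c ∉ bxx x R) := by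
    intro γ
    by_cases hγ : γ ∈ 𝓕
    · obtain ⟨A, hA, c, hc1, hc2, hc3⟩ := seg_end hrR (hs γ hγ) (h1 γ hγ) (h2 γ hγ)
      exact ⟨A, c, fun _ => ⟨hA, hc1, hc2, hc3⟩⟩
    · exact ⟨∅, Sum.inl 0, fun h => absurd h hγ⟩
  choose A c hAc using hex
  have hfin := AC_finite (x := x) hrR ω
  set T : Finset (Set Ed × Bool) := hfin.toFinset ×ˢ Finset.univ with hT
  have hcard : T.card = 2 * (AC x r R ω).ncard := by
    rw [hT, Finset.card_product, Set.ncard_eq_toFinset_card _ hfin]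
    simp [mul_comm]
  refine le_trans ?_ (Nat.mul_le_mul_left 2 (AC_le hrR ω))
  rw [← hcard]
  refine Finset.card_le_card_of_injOn (fun γ => (A γ, decide (hdv (c γ) ∉ bxx x R))) ?_ ?_
  · intro γ hγ
    rw [hT, Finset.coe_product, Set.mem_prod]
    refine ⟨?_, Finset.mem_coe.2 (Finset.mem_univ _)⟩
    rw [Finset.mem_coe, Set.Finite.mem_toFinset]
    exact (hAc γ hγ).1
  · intro γ hγ γ' hγ' heq
    obtain ⟨a1, a2, a3, a4⟩ := hAc γ hγ
    obtain ⟨b1, b2, b3, b4⟩ := hAc γ' hγ'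
    simp only [Prod.mk.injEq, decide_eq_decide] at heq
    obtain ⟨e1, e2⟩ := heq
    rw [← e1] at b3
    obtain ⟨e, he, -, -⟩ := a1
    rw [he] at a3 b3
    have key : c γ = c γ' := by
      by_cases hc : hdv (c γ) ∉ bxx x R
      · exact exit_unique a3 b3 hc (e2.1 hc)
      · exact entry_unique a3 b3 (a4.resolve_left hc) (b4.resolve_left (fun h => hc (e2.2 h)))
    by_contra hne
    have := Finset.disjoint_left.1 (hd γ hγ γ' hγ' hne) a2
    rw [key] at this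
    exact this b2

/-- **Block NO1, one annulus.** Pairwise disjoint segments which cross an annulus are bounded by a
local variable which has an exponential moment. -/
theorem crossS : ∃ (k : ℤ) (l C : ℝ), 2 ≤ k ∧ 0 < l ∧ 0 < C ∧ ∀ (x : ℤ × ℤ) (r : ℤ), 1 ≤ r →
    ∃ Z : Cfg → ℕ,
      (∀ ω ω' : Cfg, (∀ v, nm (v - x) ≤ k * r → ω v = ω' v) → Z ω = Z ω') ∧
      (∀ (ω : Cfg) (𝓕 : Finset (Finset Ed)), (∀ γ ∈ 𝓕, IsSeg ω γ) →
        (∀ γ ∈ 𝓕, ∀ γ' ∈ 𝓕, γ ≠ γ' → Disjoint γ γ') → (∀ γ ∈ 𝓕, Crs k r x γ) → 𝓕.card ≤ Z ω) ∧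
      ∫⁻ ω, ENNReal.ofReal (Real.exp (l * (Z ω : ℝ))) ∂μ ≤ ENNReal.ofReal C := by
  obtain ⟨k, hk, h⟩ := cr_le
  have hlog := Real.log_pos (show (1 : ℝ) < 3 / 2 by norm_num)
  refine ⟨k + 1, Real.log (3 / 2) / 4, 8, by omega, by linarith, by norm_num, fun x r hr => ?_⟩
  obtain ⟨h1, h2⟩ := h x r hr
  have hrR : r ≤ k * r := by nlinarith
  refine ⟨fun ω => 2 * (kap x r (k * r) 0 true ω + kap x r (k * r) 1 false ω), ?_, ?_, ?_⟩
  · intro ω ω' hω
    have : ∀ v, nm (v - x) ≤ k * r → ω v = ω' v := fun v hv => hω v (by nlinarith)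
    simp only [kap, Sb_congr this]
  · intro ω 𝓕 hs hd hc
    refine segs_le hrR 𝓕 hs hd (fun γ hγ => (hc γ hγ).1) fun γ hγ => ?_
    obtain ⟨b, hb, hb2⟩ := (hc γ hγ).2
    exact ⟨b, hb, by nlinarith⟩
  · calc ∫⁻ ω, ENNReal.ofReal (Real.exp (Real.log (3 / 2) / 4 *
          ((2 * (kap x r (k * r) 0 true ω + kap x r (k * r) 1 false ω) : ℕ) : ℝ))) ∂μ
        ≤ ∫⁻ ω, (ENNReal.ofReal ((3 / 2) ^ kap x r (k * r) 0 true ω) +
          ENNReal.ofReal ((3 / 2) ^ kap x r (k * r) 1 false ω)) ∂μ := by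
          refine lintegral_mono fun ω => ?_
          show ENNReal.ofReal _ ≤ _
          rw [← ENNReal.ofReal_add (by positivity) (by positivity)]
          refine ENNReal.ofReal_le_ofReal ?_
          generalize kap x r (k * r) 0 true ω = a
          generalize kap x r (k * r) 1 false ω = b
          have e : ∀ n : ℕ, ((3 : ℝ) / 2) ^ n = Real.exp (Real.log (3 / 2) / 2 * n) ^ 2 := by
            intro n
            rw [← Real.exp_nat_mul, ← Real.rpow_natCast, Real.rpow_def_of_pos (by norm_num)]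
            congr 1
            push_cast
            ring
          rw [e a, e b]
          have e3 : Real.log (3 / 2) / 4 * ((2 * (a + b) : ℕ) : ℝ) =
              Real.log (3 / 2) / 2 * a + Real.log (3 / 2) / 2 * b := by
            push_cast
            ring
          rw [e3, Real.exp_add]
          nlinarith [Real.exp_pos (Real.log (3 / 2) / 2 * (a : ℝ)),
            Real.exp_pos (Real.log (3 / 2) / 2 * (b : ℝ)),
            sq_nonneg (Real.exp (Real.log (3 / 2) / 2 * (a : ℝ)) -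
              Real.exp (Real.log (3 / 2) / 2 * (b : ℝ)))]
      _ = ∫⁻ ω, ENNReal.ofReal ((3 / 2) ^ kap x r (k * r) 0 true ω) ∂μ +
          ∫⁻ ω, ENNReal.ofReal ((3 / 2) ^ kap x r (k * r) 1 false ω) ∂μ := by
          rw [lintegral_add_left]
          have hm : Measurable (kap x r (k * r) 0 true) := by
            refine measurable_of_Ici fun j => kap_meas j
          exact ENNReal.measurable_ofReal.comp
            ((measurable_from_nat (f := fun n : ℕ => ((3 : ℝ) / 2) ^ n)).comp hm)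
      _ ≤ ENNReal.ofReal 4 + ENNReal.ofReal 4 := add_le_add (kap_exp h1) (kap_exp h2)
      _ = ENNReal.ofReal 8 := by rw [← ENNReal.ofReal_add (by norm_num) (by norm_num)]; norm_num

end Vale.Agent.P167.H945
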