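import Vale.Agent.P167.H945.Seg
import Vale.Agent.P167.H45.Large

/-!
# P167, block NORM (NO1 + NO2): all macroscopic segments, away from finitely many small balls
-/

namespace Vale.Agent.P167.H945

open Finset MeasureTheory ProbabilityTheory
open Vale.Agent.P167.H562
open Vale.Agent.P167.H45 (gp near_gp grid_fin box_fin Em_cross nm_sub_le nm_sub_comm iInd
  meas_locfun)

/-- Consecutive heads are neighbours. -/
theorem nm_step (e : Ed) : nm (hdv e - tlv e) ≤ 1 := by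
  rcases e with ⟨x, y⟩ | ⟨x, y⟩ <;> by_cases hp : Even (x + y) <;>
    simp [hdv, tlv, hp, nm]

/-- A segment meets every sphere between two of its points. -/
theorem seg_ivt {ω : Cfg} {γ : Finset Ed} (h : IsSeg ω γ) {p : ℤ × ℤ} {t : ℤ} {a b : Ed}
    (ha : a ∈ γ) (hb : b ∈ γ) (hap : nm (hdv a - p) ≤ t) (hbp : t ≤ nm (hdv b - p)) :
    ∃ c ∈ γ, nm (hdv c - p) = t := by
  obtain ⟨e, n, hγ⟩ := h
  obtain ⟨i, hi, rfl⟩ := (hγ a).1 ha
  obtain ⟨j, hj, rfl⟩ := (hγ b).1 hb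
  set f : ℕ → ℤ := fun i => nm (hdv ((nx ω)^[i] e) - p) with hf
  have hstep : ∀ i, f (i + 1) ≤ f i + 1 ∧ f i ≤ f (i + 1) + 1 := by
    intro i
    have h1 := nm_step ((nx ω)^[i + 1] e)
    rw [Function.iterate_succ_apply', tlv_nx, ← Function.iterate_succ_apply' (nx ω)] at h1
    have h2 := nm_sub_le (hdv ((nx ω)^[i + 1] e)) (hdv ((nx ω)^[i] e)) p
    have h3 := nm_sub_le (hdv ((nx ω)^[i] e)) (hdv ((nx ω)^[i + 1] e)) p
    rw [nm_sub_comm (hdv ((nx ω)^[i] e)) (hdv ((nx ω)^[i + 1] e))] at h3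
    simp only [hf]
    constructor <;> linarith
  have up : ∀ m k : ℕ, f k ≤ t → t ≤ f (k + m) → ∃ l, k ≤ l ∧ l ≤ k + m ∧ f l = t := by
    intro m
    induction m with
    | zero => exact fun k h1 h2 => ⟨k, le_refl _, le_refl _, le_antisymm h1 h2⟩
    | succ m ih =>
      intro k h1 h2
      by_cases h3 : t ≤ f (k + m)
      · obtain ⟨l, h4, h5, h6⟩ := ih k h1 h3
        exact ⟨l, h4, by omega, h6⟩
      · refine ⟨k + (m + 1), by omega, le_refl _, le_antisymm ?_ h2⟩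
        have := (hstep (k + m)).1
        rw [add_assoc] at this
        omega
  have dn : ∀ m k : ℕ, t ≤ f k → f (k + m) ≤ t → ∃ l, k ≤ l ∧ l ≤ k + m ∧ f l = t := by
    intro m
    induction m with
    | zero => exact fun k h1 h2 => ⟨k, le_refl _, le_refl _, le_antisymm h2 h1⟩
    | succ m ih =>
      intro k h1 h2
      by_cases h3 : f (k + m) ≤ t
      · obtain ⟨l, h4, h5, h6⟩ := ih k h1 h3
        exact ⟨l, h4, by omega, h6⟩
      · refine ⟨k + (m + 1), by omega, le_refl _, le_antisymm h2 ?_⟩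
        have := (hstep (k + m)).2
        rw [add_assoc] at this
        omega
  rcases le_total i j with hij | hij
  · obtain ⟨l, h4, h5, h6⟩ := up (j - i) i hap (by rw [Nat.add_sub_cancel' hij]; exact hbp)
    exact ⟨_, (hγ _).2 ⟨l, by omega, rfl⟩, h6⟩
  · obtain ⟨l, h4, h5, h6⟩ := dn (i - j) j hbp (by rw [Nat.add_sub_cancel' hij]; exact hap)
    exact ⟨_, (hγ _).2 ⟨l, by omega, rfl⟩, h6⟩

/-- A segment of large diameter crosses many annuli around the points of the grid of mesh `r`, at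
distance at least `2 * r` of `m` given points. -/
theorem seg_many {ω : Cfg} {γ : Finset Ed} (h : IsSeg ω γ) {p q : Ed} (hp : p ∈ γ) (hq : q ∈ γ)
    {k r : ℤ} (hk : 0 ≤ k) (hr : 1 ≤ r) {m n : ℕ} (x : Fin m → ℤ × ℤ)
    (hd : (k + 4) * r * (n + 2 * m : ℕ) ≤ nm (hdv q - hdv p)) :
    ∃ T : Finset (ℤ × ℤ), n ≤ T.card ∧ ∀ z ∈ T, Crs k r (gp r z) γ ∧
      nm (gp r z - hdv p) ≤ (k + 4) * r * (n + 2 * m : ℕ) + r ∧
      ∀ i, (k + 1) * r < nm (x i - gp r z) := by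
  classical
  set M : ℕ := n + 2 * m with hM
  have key : ∀ i : ℕ, i ∈ Finset.Icc 1 M → ∃ u ∈ γ, nm (hdv u - hdv p) = (k + 4) * r * i := by
    intro i hi
    rw [Finset.mem_Icc] at hi
    have h0 : 0 ≤ (k + 4) * r := by positivity
    have hle : (k + 4) * r * i ≤ (k + 4) * r * M :=
      mul_le_mul_of_nonneg_left (by exact_mod_cast hi.2) h0
    refine seg_ivt h hp hq ?_ (hle.trans hd)
    have : nm (hdv p - hdv p) = 0 := by simp [nm]
    rw [this]; positivity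
  choose! u hu hui using key
  set z : ℕ → ℤ × ℤ := fun i => ((hdv (u i)).1 / r, (hdv (u i)).2 / r) with hz
  have hnear : ∀ i, nm (hdv (u i) - gp r (z i)) ≤ r := fun i => near_gp hr (hdv (u i))
  have hdist : ∀ i ∈ Finset.Icc 1 M, ∀ j ∈ Finset.Icc 1 M, i < j →
      (k + 4) * r * ((j : ℤ) - i) ≤ nm (gp r (z i) - gp r (z j)) + 2 * r := by
    intro i hi j hj hij
    have a1 := hnear i
    have a2 := hnear j
    have b1 : nm (hdv (u j) - hdv p) ≤ nm (hdv (u j) - gp r (z j)) +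
      nm (gp r (z j) - hdv p) := nm_sub_le _ _ _
    have b2 : nm (gp r (z j) - hdv p) ≤ nm (gp r (z j) - gp r (z i)) +
      nm (gp r (z i) - hdv p) := nm_sub_le _ _ _
    have b3 : nm (gp r (z i) - hdv p) ≤ nm (gp r (z i) - hdv (u i)) +
      nm (hdv (u i) - hdv p) := nm_sub_le _ _ _
    rw [nm_sub_comm (gp r (z i)) (hdv (u i))] at b3
    rw [nm_sub_comm (gp r (z j)) (gp r (z i))] at b2
    rw [hui i hi] at b3
    rw [hui j hj] at b1
    linarith
  have hrk : 0 ≤ k * r := by positivity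
  -- the bad indices
  set bad : Fin m → Finset ℕ := fun l =>
    (Finset.Icc 1 M).filter (fun i => nm (x l - gp r (z i)) ≤ (k + 1) * r) with hbad
  have hbadc : ∀ l, (bad l).card ≤ 2 := by
    intro l
    by_contra hcon
    push Not at hcon
    obtain ⟨i, hi, j, hj, w, hw, hij, hiw, hjw⟩ := Finset.two_lt_card.1 hcon
    simp only [hbad, Finset.mem_filter] at hi hj hw
    have main : ∀ i j : ℕ, i ∈ Finset.Icc 1 M → j ∈ Finset.Icc 1 M →
        nm (x l - gp r (z i)) ≤ (k + 1) * r → nm (x l - gp r (z j)) ≤ (k + 1) * r →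
        i + 2 ≤ j → False := by
      intro i j hi hj h1 h2 h3
      have h4 := hdist i hi j hj (by omega)
      have h5 := nm_sub_le (gp r (z i)) (x l) (gp r (z j))
      rw [nm_sub_comm (gp r (z i)) (x l)] at h5
      have h6 : (2 : ℤ) ≤ (j : ℤ) - i := by
        have : ((i : ℤ) + 2) ≤ j := by exact_mod_cast h3
        linarith
      have h7 : (k + 4) * r * 2 ≤ (k + 4) * r * ((j : ℤ) - i) :=
        mul_le_mul_of_nonneg_left h6 (by positivity)
      nlinarith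
    have hsort : i + 2 ≤ j ∨ j + 2 ≤ i ∨ i + 2 ≤ w ∨ w + 2 ≤ i ∨ j + 2 ≤ w ∨ w + 2 ≤ j := by omega
    rcases hsort with h1 | h1 | h1 | h1 | h1 | h1
    · exact main _ _ hi.1 hj.1 hi.2 hj.2 h1
    · exact main _ _ hj.1 hi.1 hj.2 hi.2 h1
    · exact main _ _ hi.1 hw.1 hi.2 hw.2 h1
    · exact main _ _ hw.1 hi.1 hw.2 hi.2 h1
    · exact main _ _ hj.1 hw.1 hj.2 hw.2 h1
    · exact main _ _ hw.1 hj.1 hw.2 hj.2 h1
  set good : Finset ℕ := Finset.Icc 1 M \ Finset.univ.biUnion bad with hgood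
  have hgc : n ≤ good.card := by
    have h1 : (Finset.univ.biUnion bad).card ≤ 2 * m := by
      refine Finset.card_biUnion_le.trans ?_
      calc ∑ l, (bad l).card ≤ ∑ _l : Fin m, 2 := Finset.sum_le_sum fun l _ => hbadc l
        _ = 2 * m := by simp [mul_comm]
    have h2 := Finset.le_card_sdiff (Finset.univ.biUnion bad) (Finset.Icc 1 M)
    rw [Nat.card_Icc] at h2
    rw [hgood]
    omega
  have hgm : ∀ i ∈ good, i ∈ Finset.Icc 1 M ∧ ∀ l, (k + 1) * r < nm (x l - gp r (z i)) := by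
    intro i hi
    rw [hgood, Finset.mem_sdiff] at hi
    refine ⟨hi.1, fun l => ?_⟩
    by_contra hc
    push Not at hc
    exact hi.2 (Finset.mem_biUnion.2 ⟨l, Finset.mem_univ _, Finset.mem_filter.2 ⟨hi.1, hc⟩⟩)
  have hinj : Set.InjOn z (good : Set ℕ) := by
    intro i hi j hj hij
    by_contra hne
    have hi' := (hgm i hi).1
    have hj' := (hgm j hj).1
    have h0 : nm (gp r (z i) - gp r (z j)) = 0 := by rw [hij]; simp [nm]
    rcases lt_or_gt_of_ne hne with h | h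
    · have h1 := hdist i hi' j hj' h
      have h' : (1 : ℤ) ≤ (j : ℤ) - i := by
        have : ((i : ℤ) + 1) ≤ j := by exact_mod_cast h
        linarith
      rw [h0] at h1
      have h7 : (k + 4) * r * 1 ≤ (k + 4) * r * ((j : ℤ) - i) :=
        mul_le_mul_of_nonneg_left h' (by positivity)
      nlinarith
    · have h1 := hdist j hj' i hi' h
      have h' : (1 : ℤ) ≤ (i : ℤ) - j := by
        have : ((j : ℤ) + 1) ≤ i := by exact_mod_cast h
        linarith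
      rw [nm_sub_comm, h0] at h1
      have h7 : (k + 4) * r * 1 ≤ (k + 4) * r * ((i : ℤ) - j) :=
        mul_le_mul_of_nonneg_left h' (by positivity)
      nlinarith
  refine ⟨good.image z, ?_, ?_⟩
  · rw [Finset.card_image_of_injOn hinj]; exact hgc
  · intro w hw
    rw [Finset.mem_image] at hw
    obtain ⟨i, hi, rfl⟩ := hw
    obtain ⟨hi', hx⟩ := hgm i hi
    have a1 := hnear i
    have a2 := hui i hi'
    have hi1 : (1 : ℤ) ≤ i := by exact_mod_cast (Finset.mem_Icc.1 hi').1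
    have hi2 : (i : ℤ) ≤ M := by exact_mod_cast (Finset.mem_Icc.1 hi').2
    have h0 : 0 ≤ (k + 4) * r := by positivity
    have m1 := mul_le_mul_of_nonneg_left hi1 h0
    have m2 := mul_le_mul_of_nonneg_left hi2 h0
    refine ⟨⟨⟨u i, hu i hi', a1⟩, p, hp, ?_⟩, ?_, hx⟩
    · have b1 : nm (hdv (u i) - hdv p) ≤ nm (hdv (u i) - gp r (z i)) +
        nm (gp r (z i) - hdv p) := nm_sub_le _ _ _
      rw [nm_sub_comm (gp r (z i))] at b1
      nlinarith
    · have b1 : nm (gp r (z i) - hdv p) ≤ nm (gp r (z i) - hdv (u i)) +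
        nm (hdv (u i) - hdv p) := nm_sub_le _ _ _
      rw [nm_sub_comm (gp r (z i)) (hdv (u i))] at b1
      linarith

/-- Double counting. -/
theorem seg_count {k : ℤ} {ι : Type*} (I : Finset ι) (x : ι → ℤ × ℤ) (r : ι → ℤ) (Z : ι → ℕ)
    {ω : Cfg} {𝓕 : Finset (Finset Ed)} (hs : ∀ γ ∈ 𝓕, IsSeg ω γ)
    (hd : ∀ γ ∈ 𝓕, ∀ γ' ∈ 𝓕, γ ≠ γ' → Disjoint γ γ')
    (hZ : ∀ i ∈ I, ∀ 𝓖 : Finset (Finset Ed), (∀ γ ∈ 𝓖, IsSeg ω γ) →
      (∀ γ ∈ 𝓖, ∀ γ' ∈ 𝓖, γ ≠ γ' → Disjoint γ γ') → (∀ γ ∈ 𝓖, Crs k (r i) (x i) γ) →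
        𝓖.card ≤ Z i) {n : ℕ}
    (hn : ∀ γ ∈ 𝓕, ∃ T : Finset ι, T ⊆ I ∧ n ≤ T.card ∧ ∀ i ∈ T, Crs k (r i) (x i) γ) :
    n * 𝓕.card ≤ ∑ i ∈ I, Z i := by
  classical
  calc n * 𝓕.card = ∑ _γ ∈ 𝓕, n := by rw [Finset.sum_const, smul_eq_mul, mul_comm]
    _ ≤ ∑ γ ∈ 𝓕, (I.filter (fun i => Crs k (r i) (x i) γ)).card := by
        refine Finset.sum_le_sum fun γ hγ => ?_
        obtain ⟨T, hT, hc, h⟩ := hn γ hγ
        exact hc.trans (Finset.card_le_card fun i hi => Finset.mem_filter.2 ⟨hT hi, h i hi⟩)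
    _ = ∑ i ∈ I, (𝓕.filter (fun γ => Crs k (r i) (x i) γ)).card := by
        simp only [Finset.card_filter]
        exact Finset.sum_comm
    _ ≤ ∑ i ∈ I, Z i := by
        refine Finset.sum_le_sum fun i hi => hZ i hi _ (fun γ hγ => hs γ (Finset.mem_filter.1 hγ).1)
          (fun γ hγ γ' hγ' => hd γ (Finset.mem_filter.1 hγ).1 γ' (Finset.mem_filter.1 hγ').1)
          (fun γ hγ => (Finset.mem_filter.1 hγ).2)

/-- `γ` meets the box of radius `a` around `c` and has diameter at least `d`. -/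
def Big (c : ℤ × ℤ) (a d : ℝ) (γ : Finset Ed) : Prop :=
  (∃ e ∈ γ, (nm (hdv e - c) : ℝ) ≤ a) ∧ ∃ e ∈ γ, ∃ e' ∈ γ, d ≤ (nm (hdv e - hdv e') : ℝ)

/-- `N` bounds every finite family of pairwise disjoint segments of diameter at least `d` which
meet the box of radius `a` around `c`. -/
def Maj (c : ℤ × ℤ) (a d : ℝ) (ω : Cfg) (N : ℕ) : Prop :=
  ∀ 𝓕 : Finset (Finset Ed), (∀ γ ∈ 𝓕, IsSeg ω γ) →
    (∀ γ ∈ 𝓕, ∀ γ' ∈ 𝓕, γ ≠ γ' → Disjoint γ γ') → (∀ γ ∈ 𝓕, Big c a d γ) → 𝓕.card ≤ N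

/-- **Block NO1 + NO2, macroscopic form.** The number of pairwise disjoint segments of diameter at
least `κ * ρ` which meet a box of radius `R * ρ` is bounded by a variable which does not depend on
the squares of `m` given balls of radius `ε * ρ` and all whose exponential moments are bounded
uniformly in `ρ`. -/
theorem macroS (κ R s : ℝ) (m : ℕ) (hκ : 0 < κ) (hR : 0 ≤ R) : ∃ ε C ρ0 : ℝ, 0 < ε ∧ 0 < C ∧
    0 < ρ0 ∧ ∀ ρ : ℝ, ρ0 ≤ ρ → ∀ (c : ℤ × ℤ) (x : Fin m → ℤ × ℤ), ∃ N : Cfg → ℕ,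
      (∀ ω ω' : Cfg, (∀ v, (nm (v - c) : ℝ) ≤ (R + κ) * ρ →
        (∀ i, ε * ρ < (nm (v - x i) : ℝ)) → ω v = ω' v) → N ω = N ω') ∧
      (∀ ω, Maj c (R * ρ) (κ * ρ) ω (N ω)) ∧
      ∫⁻ ω, ENNReal.ofReal (Real.exp (s * (N ω : ℝ))) ∂μ ≤ ENNReal.ofReal C := by
  classical
  obtain ⟨k, l, C0, hk, hl, hC0, h⟩ := crossS
  choose! Z hZ1 hZ2 hZ3 using h
  obtain ⟨θ, b, hθ, hb, hEm⟩ := Em_cross hk hl hZ1 hZ3
  obtain ⟨n, hn⟩ := exists_nat_ge (|s| / θ)
  have hsn : |s| ≤ θ * (n + 1 : ℕ) := by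
    rw [div_le_iff₀ hθ] at hn
    push_cast
    nlinarith
  set N : ℕ := n + 1 with hN
  have hN0 : 0 < N := by omega
  have hkR : (2 : ℝ) ≤ k := by exact_mod_cast hk
  have hNm : (1 : ℝ) ≤ ((N + 2 * m : ℕ) : ℝ) := by
    have : 1 ≤ N + 2 * m := by omega
    exact_mod_cast this
  set a : ℝ := 4 * (k + 4) * ((N + 2 * m : ℕ) : ℝ) with ha
  have ha0 : 0 < a := by positivity
  set D : ℝ := (4 * (R + κ) * (a / κ) + 2) ^ 2 with hD
  refine ⟨κ / (2 * a), Real.exp (D * b), a / κ, by positivity, Real.exp_pos _, by positivity,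
    fun ρ hρ c x => ?_⟩
  have hρ0 : 0 < ρ := lt_of_lt_of_le (by positivity) hρ
  have hxa : 1 ≤ κ * ρ / a := by
    rw [div_le_iff₀ hκ] at hρ
    rw [one_le_div ha0]; linarith
  set r : ℤ := ⌊κ * ρ / a⌋ with hr
  have hr1 : 1 ≤ r := by rw [hr, Int.le_floor]; exact_mod_cast hxa
  have hrle : (r : ℝ) ≤ κ * ρ / a := Int.floor_le _
  have hrge : κ * ρ / a ≤ 2 * r := by
    have := Int.lt_floor_add_one (κ * ρ / a)
    have h1 : (1 : ℝ) ≤ r := by exact_mod_cast hr1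
    rw [← hr] at this
    linarith
  have hrle' : a * r ≤ κ * ρ := by
    rw [le_div_iff₀ ha0] at hrle; linarith
  have hr1' : (1 : ℝ) ≤ r := by exact_mod_cast hr1
  have hεr : κ / (2 * a) * ρ ≤ r := by
    have : κ / (2 * a) * ρ = κ * ρ / a / 2 := by field_simp
    rw [this]; linarith
  set P : ℤ := ⌊(R + κ) * ρ⌋ with hP
  have hP0 : 0 ≤ P := by
    rw [hP]; exact Int.floor_nonneg.2 (by positivity)
  obtain ⟨J, hJ1, hJ2⟩ := grid_fin c hr1 hP0
  have hJcard : (J.card : ℝ) ≤ D := by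
    have h1 : ((J.card : ℤ) : ℝ) ≤ ((2 * P / r + 2 : ℤ) : ℝ) ^ 2 := by exact_mod_cast hJ2
    have h3 : ((2 * P / r : ℤ) : ℝ) ≤ 4 * (R + κ) * (a / κ) := by
      have h4 : ((2 * P / r : ℤ) : ℝ) * r ≤ 2 * P := by
        exact_mod_cast Int.ediv_mul_le (2 * P) (by omega : r ≠ 0)
      have h5 : (P : ℝ) ≤ (R + κ) * ρ := Int.floor_le _
      have h6 : (2 * P : ℝ) ≤ 4 * (R + κ) * (a / κ) * r := by
        have h7 : κ * ρ ≤ 2 * r * a := by rw [div_le_iff₀ ha0] at hrge; linarith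
        have h8 : ρ ≤ 2 * r * (a / κ) := by
          rw [mul_div_assoc', le_div_iff₀ hκ]; linarith
        nlinarith
      have h9 : ((2 * P / r : ℤ) : ℝ) * r ≤ 4 * (R + κ) * (a / κ) * r := by linarith
      exact le_of_mul_le_mul_right h9 (by linarith)
    have h4 : (0 : ℝ) ≤ ((2 * P / r : ℤ) : ℝ) := by
      exact_mod_cast Int.ediv_nonneg (by omega : (0 : ℤ) ≤ 2 * P) (by omega)
    have h5 : ((2 * P / r + 2 : ℤ) : ℝ) = ((2 * P / r : ℤ) : ℝ) + 2 := by push_cast; rfl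
    rw [h5] at h1
    rw [hD]
    have h6 : ((J.card : ℤ) : ℝ) = (J.card : ℝ) := by norm_cast
    rw [h6] at h1
    refine h1.trans ?_
    exact pow_le_pow_left₀ (by linarith) (by linarith) 2
  set J' : Finset (ℤ × ℤ) := J.filter (fun z => (∀ i, (k + 1) * r < nm (x i - gp r z)) ∧
    nm (gp r z - c) ≤ R * ρ + κ * ρ / 2) with hJ'
  set I : Finset (ℕ × (ℤ × ℤ)) := {0} ×ˢ J' with hI
  have hEmI := hEm (fun _ => r) (fun _ => hr1) I (fun i hi i' hi' hne => by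
    rw [hI, Finset.mem_product, Finset.mem_singleton] at hi hi'
    exact absurd (hi.1.trans hi'.1.symm) hne)
  have hIcard : (I.card : ℝ) ≤ J.card := by
    rw [hI, Finset.card_product]
    simp only [Finset.card_singleton, one_mul, Nat.cast_le]
    exact Finset.card_le_card (Finset.filter_subset _ _)
  refine ⟨fun ω => (∑ i ∈ I, Z (gp r i.2) r ω) / N, ?_, ?_, ?_⟩
  · intro ω ω' hω
    show (∑ i ∈ I, Z (gp r i.2) r ω) / N = (∑ i ∈ I, Z (gp r i.2) r ω') / N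
    congr 1
    refine Finset.sum_congr rfl fun i hi => ?_
    rw [hI, Finset.mem_product, hJ', Finset.mem_filter] at hi
    refine hZ1 _ _ hr1 ω ω' fun v hv => hω v ?_ fun j => ?_
    · have h1 : nm (v - c) ≤ nm (v - gp r i.2) + nm (gp r i.2 - c) := nm_sub_le _ _ _
      have h2 : (nm (v - c) : ℝ) ≤ k * r + nm (gp r i.2 - c) := by
        have : nm (v - c) ≤ k * r + nm (gp r i.2 - c) := by linarith
        exact_mod_cast this
      have h3 := hi.2.2.2
      have h4 : (k : ℝ) * r ≤ κ * ρ / 4 := by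
        have : 4 * ((k : ℝ) * r) ≤ a * r := by
          rw [ha]
          calc 4 * ((k : ℝ) * r) = 4 * k * 1 * r := by ring
            _ ≤ 4 * (k + 4) * ((N + 2 * m : ℕ) : ℝ) * r := by gcongr; linarith
        linarith
      have h5 : 0 < κ * ρ := by positivity
      nlinarith
    · have h1 := hi.2.2.1 j
      have h2 : nm (x j - gp r i.2) ≤ nm (x j - v) + nm (v - gp r i.2) := nm_sub_le _ _ _
      rw [nm_sub_comm (x j) v] at h2
      have h3 : r < nm (v - x j) := by linarith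
      have h4 : (r : ℝ) < nm (v - x j) := by exact_mod_cast h3
      linarith
  · intro ω 𝓕 hs hd hbig
    rw [Nat.le_div_iff_mul_le hN0, mul_comm]
    refine seg_count (k := k) I (fun i => gp r i.2) (fun _ => r) (fun i => Z (gp r i.2) r ω) hs hd
      (fun i _ 𝓖 h1 h2 h3 => hZ2 (gp r i.2) r hr1 ω 𝓖 h1 h2 h3) fun γ hγ => ?_
    obtain ⟨⟨e, he, hec⟩, e1, he1, e2, he2, h12⟩ := hbig γ hγ
    obtain ⟨q, hq, hqd⟩ : ∃ q ∈ γ, κ * ρ / 2 ≤ (nm (hdv q - hdv e) : ℝ) := by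
      have h5 : (nm (hdv e1 - hdv e2) : ℝ) ≤ nm (hdv e1 - hdv e) + nm (hdv e - hdv e2) := by
        exact_mod_cast nm_sub_le _ _ _
      rw [nm_sub_comm (hdv e) (hdv e2)] at h5
      by_cases h6 : κ * ρ / 2 ≤ (nm (hdv e1 - hdv e) : ℝ)
      · exact ⟨e1, he1, h6⟩
      · exact ⟨e2, he2, by linarith⟩
    have h11 : ((k : ℝ) + 4) * r * ((N + 2 * m : ℕ) : ℝ) ≤ κ * ρ / 4 := by
      have : a * r = 4 * (((k : ℝ) + 4) * r * ((N + 2 * m : ℕ) : ℝ)) := by rw [ha]; ring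
      linarith
    have hκρ : 0 < κ * ρ := by positivity
    have h7 : (k + 4) * r * (N + 2 * m : ℕ) ≤ nm (hdv q - hdv e) := by
      have h8 : ((k : ℝ) + 4) * r * ((N + 2 * m : ℕ) : ℝ) ≤ nm (hdv q - hdv e) := by linarith
      exact_mod_cast h8
    obtain ⟨T, hT1, hT2⟩ := seg_many (hs γ hγ) he hq (by omega) hr1 x h7
    refine ⟨T.map ⟨fun z => ((0 : ℕ), z), fun z z' hz => (Prod.ext_iff.1 hz).2⟩, ?_, ?_, ?_⟩
    · intro i hi
      rw [Finset.mem_map] at hi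
      obtain ⟨z, hz, rfl⟩ := hi
      obtain ⟨-, h8, h9⟩ := hT2 z hz
      have h10 : nm (gp r z - c) ≤ nm (gp r z - hdv e) + nm (hdv e - c) := nm_sub_le _ _ _
      have h12 : (nm (gp r z - c) : ℝ) ≤ ((k + 4) * r * ((N + 2 * m : ℕ) : ℝ) + r) +
          nm (hdv e - c) := by
        have : nm (gp r z - c) ≤ ((k + 4) * r * ((N + 2 * m : ℕ) : ℤ) + r) + nm (hdv e - c) := by
          linarith
        exact_mod_cast this
      have h13 : (r : ℝ) ≤ ((k : ℝ) + 4) * r * ((N + 2 * m : ℕ) : ℝ) := by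
        calc (r : ℝ) = 1 * r * 1 := by ring
          _ ≤ ((k : ℝ) + 4) * r * ((N + 2 * m : ℕ) : ℝ) := by gcongr; linarith
      have h14 : (nm (gp r z - c) : ℝ) ≤ R * ρ + κ * ρ / 2 := by linarith
      rw [hI, Finset.mem_product, hJ', Finset.mem_filter]
      refine ⟨Finset.mem_singleton.2 rfl, hJ1 z ?_, h9, h14⟩
      rw [hP, Int.le_floor]
      nlinarith
    · rw [Finset.card_map]; exact hT1
    · intro i hi
      rw [Finset.mem_map] at hi
      obtain ⟨z, hz, rfl⟩ := hi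
      exact (hT2 z hz).1
  · refine le_trans ?_ (hEmI.trans (ENNReal.ofReal_le_ofReal (Real.exp_le_exp.2
      (mul_le_mul_of_nonneg_right (hIcard.trans hJcard) hb))))
    refine Em_mono (μ := μ) (f := fun ω => s * (((∑ i ∈ I, Z (gp r i.2) r ω) / N : ℕ) : ℝ))
      fun ω => ?_
    show s * (((∑ i ∈ I, Z (gp r i.2) r ω) / N : ℕ) : ℝ) ≤ _
    have hN1 : (0 : ℝ) < N := by exact_mod_cast hN0
    have h5 : (((∑ i ∈ I, Z (gp r i.2) r ω) / N : ℕ) : ℝ) ≤
        (∑ i ∈ I, (Z (gp r i.2) r ω : ℝ)) / N := by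
      refine Nat.cast_div_le.trans ?_
      rw [Nat.cast_sum]
    have h6 : (0 : ℝ) ≤ (((∑ i ∈ I, Z (gp r i.2) r ω) / N : ℕ) : ℝ) := by positivity
    calc s * (((∑ i ∈ I, Z (gp r i.2) r ω) / N : ℕ) : ℝ)
        ≤ |s| * (((∑ i ∈ I, Z (gp r i.2) r ω) / N : ℕ) : ℝ) :=
          mul_le_mul_of_nonneg_right (le_abs_self s) h6
      _ ≤ (θ * N) * ((∑ i ∈ I, (Z (gp r i.2) r ω : ℝ)) / N) := by gcongr
      _ = θ * ∑ i ∈ I, (Z (gp r i.2) r ω : ℝ) := by field_simp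

/-! ### products of local functions -/

/-- The expectation of a product of local functions of pairwise disjoint finite sets of squares. -/
theorem lint_prod {ι : Type*} (I : Finset ι) (B : ι → Finset (ℤ × ℤ))
    (hB : ∀ i ∈ I, ∀ j ∈ I, i ≠ j → Disjoint (B i) (B j)) (f : ι → Cfg → ENNReal)
    (hf : ∀ i ∈ I, ∀ ω ω' : Cfg, (∀ v ∈ B i, ω v = ω' v) → f i ω = f i ω') :
    ∫⁻ ω, ∏ i ∈ I, f i ω ∂μ = ∏ i ∈ I, ∫⁻ ω, f i ω ∂μ := by
  classical
  induction I using Finset.induction with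
  | empty =>
    have : IsProbabilityMeasure μ := iInd.isProbabilityMeasure
    simp
  | insert a I ha ih =>
    have h1 : Disjoint (B a) (I.biUnion B) := by
      rw [Finset.disjoint_biUnion_right]
      exact fun i hi => hB a (Finset.mem_insert_self _ _) i (Finset.mem_insert_of_mem hi)
        (by rintro rfl; exact ha hi)
    have la : ∀ ω ω' : Cfg, (∀ v ∈ B a, ω v = ω' v) → f a ω = f a ω' :=
      hf a (Finset.mem_insert_self _ _)
    have lI : ∀ ω ω' : Cfg, (∀ v ∈ I.biUnion B, ω v = ω' v) →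
        ∏ i ∈ I, f i ω = ∏ i ∈ I, f i ω' := fun ω ω' hw =>
      Finset.prod_congr rfl fun i hi => hf i (Finset.mem_insert_of_mem hi) ω ω' fun v hv =>
        hw v (Finset.mem_biUnion.2 ⟨i, hi, hv⟩)
    have h2 : IndepFun (f a) (fun ω => ∏ i ∈ I, f i ω) μ := by
      refine indepFun_of_local iInd (S := (B a : Set (ℤ × ℤ)))
        (T := (I.biUnion B : Finset (ℤ × ℤ))) (Finset.disjoint_coe.2 h1) (meas_locfun _ la)
        (meas_locfun _ lI) ?_ ?_
      · exact fun ω ω' hw => la ω ω' fun v hv => hw v (Finset.mem_coe.2 hv)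
      · exact fun ω ω' hw => lI ω ω' fun v hv => hw v (Finset.mem_coe.2 hv)
    rw [Finset.prod_insert ha, ← ih (fun i hi j hj => hB i (Finset.mem_insert_of_mem hi) j
      (Finset.mem_insert_of_mem hj)) (fun i hi => hf i (Finset.mem_insert_of_mem hi)),
      ← lintegral_mul_eq_lintegral_mul_lintegral_of_indepFun (meas_locfun _ la)
        (meas_locfun _ lI) h2]
    refine lintegral_congr fun ω => ?_
    rw [Finset.prod_insert ha]
    rfl

/-- A local function times the indicators of local events of disjoint sets of squares. -/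
theorem dec {ι : Type*} (I : Finset ι) (B : ι → Finset (ℤ × ℤ))
    (hB : ∀ i ∈ I, ∀ j ∈ I, i ≠ j → Disjoint (B i) (B j)) (F : Finset (ℤ × ℤ))
    (hF : ∀ i ∈ I, Disjoint F (B i)) (g : Cfg → ENNReal)
    (hg : ∀ ω ω' : Cfg, (∀ v ∈ F, ω v = ω' v) → g ω = g ω') (A : ι → Set Cfg)
    (hA : ∀ i ∈ I, ∀ ω ω' : Cfg, (∀ v ∈ B i, ω v = ω' v) → ω ∈ A i → ω' ∈ A i) :
    ∫⁻ ω, g ω * ∏ i ∈ I, (A i).indicator 1 ω ∂μ = (∫⁻ ω, g ω ∂μ) * ∏ i ∈ I, μ (A i) := by
  classical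
  set B' : Option ι → Finset (ℤ × ℤ) := fun o => o.elim F B with hB'
  set f : Option ι → Cfg → ENNReal := fun o => o.elim g fun i => (A i).indicator 1 with hf
  have h := lint_prod (insertNone I) B' ?_ f ?_
  · simp only [hf, prod_insertNone, Option.elim_none, Option.elim_some] at h
    rw [h]
    congr 1
    refine Finset.prod_congr rfl fun i hi => ?_
    rw [lintegral_indicator_one]
    exact Vale.Agent.P167.H45.meas_loc (B i) (hA i hi)
  · intro o ho o' ho' hne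
    match o, o' with
    | none, none => exact absurd rfl hne
    | none, some j => exact hF j (Finset.some_mem_insertNone.1 ho')
    | some i, none => exact (hF i (Finset.some_mem_insertNone.1 ho)).symm
    | some i, some j =>
      exact hB i (Finset.some_mem_insertNone.1 ho) j (Finset.some_mem_insertNone.1 ho')
        fun h => hne (by rw [h])
  · intro o ho ω ω' hw
    match o with
    | none => exact hg ω ω' hw
    | some i =>
      show (A i).indicator 1 ω = (A i).indicator 1 ω'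
      have hi := Finset.some_mem_insertNone.1 ho
      by_cases h : ω ∈ A i
      · rw [Set.indicator_of_mem h, Set.indicator_of_mem (hA i hi ω ω' hw h)]
        rfl
      · rw [Set.indicator_of_notMem h, Set.indicator_of_notMem
          fun h' => h (hA i hi ω' ω (fun v hv => (hw v hv).symm) h')]

/-- **NO1 + NO2.** Decoupling of local events at `m` tips from the macroscopic segments. -/
theorem macro_dec (κ R s : ℝ) (m : ℕ) (hκ : 0 < κ) (hR : 0 ≤ R) : ∃ ε C ρ0 : ℝ, 0 < ε ∧ 0 < C ∧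
    0 < ρ0 ∧ ∀ ρ : ℝ, ρ0 ≤ ρ → ∀ (c : ℤ × ℤ) (x : Fin m → ℤ × ℤ), ∃ N : Cfg → ℕ,
      (∀ ω, Maj c (R * ρ) (κ * ρ) ω (N ω)) ∧
      ∀ (I : Finset (Fin m)) (B : Fin m → Finset (ℤ × ℤ)),
        (∀ i ∈ I, ∀ j ∈ I, i ≠ j → Disjoint (B i) (B j)) →
        (∀ i ∈ I, ∀ v ∈ B i, (nm (v - x i) : ℝ) ≤ ε * ρ) → ∀ A : Fin m → Set Cfg,
        (∀ i ∈ I, ∀ ω ω' : Cfg, (∀ v ∈ B i, ω v = ω' v) → ω ∈ A i → ω' ∈ A i) →
        ∀ (F : Finset (ℤ × ℤ)) (g : Cfg → ENNReal), (∀ i ∈ I, Disjoint F (B i)) →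
        (∀ ω ω' : Cfg, (∀ v ∈ F, ω v = ω' v) → g ω = g ω') →
        ∫⁻ ω, g ω * ENNReal.ofReal (Real.exp (s * (N ω : ℝ))) *
          ∏ i ∈ I, (A i).indicator 1 ω ∂μ ≤
        (ENNReal.ofReal C) ^ (1 / 2 : ℝ) * (∫⁻ ω, g ω ^ (2 : ℝ) ∂μ) ^ (1 / 2 : ℝ) *
          ∏ i ∈ I, μ (A i) := by
  classical
  obtain ⟨ε, C, ρ0, hε, hC, hρ0, h⟩ := macroS κ R (2 * s) m hκ hR
  refine ⟨ε, C, ρ0, hε, hC, hρ0, fun ρ hρ c x => ?_⟩
  obtain ⟨N, h1, h2, h3⟩ := h ρ hρ c x
  refine ⟨N, h2, fun I B hB hBx A hA F g hF hg => ?_⟩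
  obtain ⟨G, hG⟩ := box_fin c ⌊(R + κ) * ρ⌋
  have hN : ∀ ω ω' : Cfg, (∀ v ∈ G \ I.biUnion B, ω v = ω' v) → N ω = N ω' := by
    intro ω ω' hw
    refine h1 ω ω' fun v hv hx => hw v ?_
    rw [Finset.mem_sdiff, hG, Int.le_floor]
    refine ⟨hv, fun hv' => ?_⟩
    obtain ⟨i, hi, hv''⟩ := Finset.mem_biUnion.1 hv'
    exact absurd (hBx i hi v hv'') (not_le.2 (hx i))
  have hmN : Measurable N := meas_locfun _ hN
  rw [dec I B hB (F ∪ (G \ I.biUnion B)) ?_ _ ?_ A hA]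
  · refine mul_le_mul_left ?_ _
    have hmg : Measurable g := meas_locfun F hg
    have hme : Measurable (fun ω => ENNReal.ofReal (Real.exp (s * (N ω : ℝ)))) :=
      meas_locfun (G \ I.biUnion B) fun ω ω' hw => by rw [hN ω ω' hw]
    have h4 := ENNReal.lintegral_mul_le_Lp_mul_Lq (μ := μ) (p := 2) (q := 2)
      (Real.HolderConjugate.two_two) hmg.aemeasurable hme.aemeasurable
    refine h4.trans ?_
    rw [mul_comm]
    refine mul_le_mul_left ?_ _
    refine ENNReal.rpow_le_rpow (le_trans (le_of_eq (lintegral_congr fun ω => ?_)) h3)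
      (by norm_num)
    rw [ENNReal.rpow_two, ← ENNReal.ofReal_pow (Real.exp_pos _).le, ← Real.exp_nat_mul]
    congr 2
    push_cast
    ring
  · intro i hi
    rw [Finset.disjoint_union_left]
    refine ⟨hF i hi, ?_⟩
    rw [Finset.disjoint_left]
    intro v hv hv'
    exact (Finset.mem_sdiff.1 hv).2 (Finset.mem_biUnion.2 ⟨i, hi, hv'⟩)
  · intro ω ω' hw
    rw [hg ω ω' fun v hv => hw v (Finset.mem_union_left _ hv),
      hN ω ω' fun v hv => hw v (Finset.mem_union_right _ hv)]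

end Vale.Agent.P167.H945
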