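import Vale.Agent.P167.H945.Hos

/-!
# P167, block NORM: the tip probability at comparable scales
-/

namespace Vale.Agent.P167.H945

open Finset Filter MeasureTheory ProbabilityTheory
open Vale.Agent.P167.H825

theorem Cmp.mono {p : ℤ → ℝ} {z z' : ℕ → ℝ} (h : Cmp p z) (hz' : ∀ n, 0 ≤ z' n) {c : ℝ} (hc : 0 < c)
    (hzz : ∀ᶠ n : ℕ in atTop, z n ≤ c * z' n) : Cmp p z' := by
  refine ⟨hz', fun δ hδ => ?_⟩
  obtain ⟨C, hC, h⟩ := h.2 δ hδ
  refine ⟨C * c, by positivity, ?_⟩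
  filter_upwards [h, hzz] with n h1 h2 R hR
  exact (h1 R hR).trans (by rw [mul_assoc]; exact mul_le_mul_of_nonneg_left h2 hC.le)

/-- A comparison of integer scales gives `Cmp`. -/
theorem Cmp.of_int {p q : ℤ → ℝ} (hq : ∀ R, 0 ≤ q R)
    (h : ∀ Λ : ℕ, ∃ C : ℝ, 0 < C ∧ ∃ R0 : ℤ, ∀ R L : ℤ, R0 ≤ R → 1 ≤ L → L + 1 ≤ Λ * R →
      p R ≤ C * q L) : Cmp p fun n => q n := by
  refine ⟨fun n => hq n, fun δ hδ => ?_⟩
  obtain ⟨C, hC, R0, h⟩ := h ⌈2 / δ⌉₊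
  refine ⟨C, hC, ?_⟩
  filter_upwards [(tendsto_natCast_atTop_atTop (R := ℝ)).eventually_ge_atTop (R0 / δ),
    eventually_ge_atTop 1] with n h1 h2 R hR
  have h3 : (R0 : ℝ) ≤ R := by
    rw [div_le_iff₀ hδ, mul_comm] at h1
    exact h1.trans hR
  have h4 : (1 : ℝ) ≤ n := by exact_mod_cast h2
  refine h R n (by exact_mod_cast h3) (by exact_mod_cast h2) ?_
  have h5 : ((n : ℤ) + 1 : ℝ) ≤ (⌈2 / δ⌉₊ : ℝ) * R := by
    have h6 : 2 / δ ≤ (⌈2 / δ⌉₊ : ℝ) := Nat.le_ceil _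
    calc ((n : ℤ) + 1 : ℝ) ≤ 2 * n := by push_cast; linarith
      _ = 2 / δ * (δ * n) := by field_simp
      _ ≤ (⌈2 / δ⌉₊ : ℝ) * R := mul_le_mul h6 hR (by positivity) (by positivity)
  exact_mod_cast h5

/-- The tip probability of `H662` bounds the probabilities of all tips at comparable scales. -/
theorem cmp_tip : Cmp pT fun n => μ.real (H662.TipOk (0, 0) n) := by
  refine Cmp.of_int (q := fun R => μ.real (H662.TipOk (0, 0) R)) (fun _ => measureReal_nonneg)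
    fun Λ => ?_
  obtain ⟨c, hc, R0, h⟩ := H662.tip_ge (2 * Λ)
  refine ⟨c⁻¹, by positivity, max (R0 + 1) 2, fun R L hR hL hRL => ?_⟩
  have h1 : R0 + 1 ≤ R := (le_max_left _ _).trans hR
  have h2 : 2 ≤ R := (le_max_right _ _).trans hR
  have hE : Even (((0 : ℤ), (0 : ℤ)).1 + ((0 : ℤ), (0 : ℤ)).2) := by simp
  have hΛ : (0 : ℤ) ≤ Λ := Int.natCast_nonneg _
  have h3 := h (0, 0) hE (R - 1) L (by omega) (by push_cast; nlinarith)
  have h4 : pT R ≤ μ.real (H662.SArm (0, 0) (R - 1)) := by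
    have h5 := std_TipOk (R - 1)
    rw [sub_add_cancel] at h5
    exact measureReal_mono (h5.trans (H662.TipOk_sub_SArm hE _))
  rw [inv_mul_eq_div, le_div_iff₀ hc, mul_comm]
  exact (mul_le_mul_of_nonneg_left h4 hc.le).trans h3

/-- **HOS** with the tip probability of `H662`. -/
theorem hos_tip {zf : ℕ → ℝ} (hF : Cmp pF zf) : HOS (fun n => μ.real (H662.TipOk (0, 0) n)) zf :=
  hos_of cmp_tip hF

end Vale.Agent.P167.H945
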