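import Vale.Agent.P167.H871.Line
import Vale.Agent.P167.H945.Nrm

/-!
# P167, block NORM (N3b): turning of the small strands of a straight segment

A piece of the interface from the vertical edge `inr (a, y)` to the vertical edge `inr (b, y)` of the
same row. If all interior passages through the row are to the right of both ends (or all to the
left), the turning is explicit.
-/

namespace Vale.Agent.P167.H945

open Finset
open Vale.Agent.P167.Top Vale.Agent.P167.H871
open Vale.Agent.P167.A (plane)
open Vale.Agent.P167.H685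
open Vale.Agent.P167.H199

/-- Indicator of the squares above the row `y`. -/
def ab (y : ℤ) (v : ℤ × ℤ) : ℤ := if y < v.2 then 1 else 0

theorem hgt (y : ℤ) (f : Ed) : (if (me f).2 = 2 * y + 1 then dy (hd4 f) else 0) =
    ab y (hdv f) - ab y (tlv f) := by
  rcases f with ⟨u, v⟩ | ⟨u, v⟩
  · have : (me (Sum.inl (u, v))).2 ≠ 2 * y + 1 := by simp only [me]; omega
    rw [if_neg this]
    by_cases hp : Even (u + v) <;> simp [ab, hdv, tlv, hp]
  · by_cases hv : v = y
    · subst hv
      have : (me (Sum.inr (u, v))).2 = 2 * v + 1 := by simp only [me]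
      rw [if_pos this]
      by_cases hp : Even (u + v) <;> simp [ab, hdv, tlv, hp, hd4, dy]
    · have : (me (Sum.inr (u, v))).2 ≠ 2 * y + 1 := by simp only [me]; omega
      rw [if_neg this]
      by_cases hp : Even (u + v) <;> simp only [ab, hdv, tlv, hp, if_true, if_false] <;>
        split_ifs <;> omega

theorem sum_psg (ω : Cfg) (e : Ed) (y : ℤ) {n : ℕ} (hn : 1 ≤ n) :
    ∑ i ∈ Ioo 0 n, psg ω e (2 * y + 1) i = ab y (tlv ((nx ω)^[n] e)) - ab y (hdv e) := by
  obtain ⟨m, rfl⟩ : ∃ m, n = m + 1 := ⟨n - 1, by omega⟩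
  induction m with
  | zero =>
    rw [show Ioo 0 (0 + 1) = (∅ : Finset ℕ) from rfl, sum_empty, Function.iterate_succ_apply',
      Function.iterate_zero, id, tlv_nx]
    ring
  | succ m ih =>
    rw [Ioo_succ, Finset.sum_insert (by simp), ih (by omega)]
    have h1 : psg ω e (2 * y + 1) (m + 1) = ab y (hdv ((nx ω)^[m + 1] e)) -
        ab y (tlv ((nx ω)^[m + 1] e)) := by
      unfold psg
      exact hgt y _
    rw [h1, Function.iterate_succ_apply' (nx ω) (m + 1), tlv_nx]
    ring

theorem sg_inr (v : ℤ × ℤ) : sg (Sum.inr v) = 1 ∨ sg (Sum.inr v) = -1 := by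
  by_cases hp : Even (v.1 + v.2) <;> simp [sg, hp]

theorem hd4_inr (v : ℤ × ℤ) : hd4 (Sum.inr v) = 2 - sg (Sum.inr v) := by
  by_cases hp : Even (v.1 + v.2) <;> simp [hd4, sg, hp]

theorem ab_hdv (a y : ℤ) : 2 * ab y (hdv (Sum.inr (a, y))) = 1 + sg (Sum.inr (a, y)) := by
  by_cases hp : Even (a + y) <;> simp [ab, hdv, sg, hp]

theorem ab_tlv (a y : ℤ) : 2 * ab y (tlv (Sum.inr (a, y))) = 1 - sg (Sum.inr (a, y)) := by
  by_cases hp : Even (a + y) <;> simp [ab, tlv, sg, hp]

theorem me_row {f : Ed} {y : ℤ} (h : (me f).2 = 2 * y + 1) : ∃ x, f = Sum.inr (x, y) := by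
  rcases f with ⟨u, v⟩ | ⟨u, v⟩
  · simp only [me] at h; omega
  · simp only [me] at h
    obtain rfl : v = y := by omega
    exact ⟨u, rfl⟩

/-- The last edge is the first one: the piece is a loop. -/
theorem turn_self {ω : Cfg} {a y : ℤ} {n : ℕ} (hn : 1 ≤ n)
    (h : (nx ω)^[n] (Sum.inr (a, y)) = Sum.inr (a, y))
    (hne : ∀ k, 1 ≤ k → k < n → (nx ω)^[k] (Sum.inr (a, y)) ≠ Sum.inr (a, y)) (s : ℤ × ℤ)
    (hs : s.2 = y + 1) {w : ℤ} (hw : w = 1 ∨ w = -1)
    (hW : (if s.1 ≤ a then sg (Sum.inr (a, y)) else 0) +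
      (∑ i ∈ Ioo 0 n, if s.1 ≤ (Mp ω (Sum.inr (a, y)) i).1 / 2 then
        psg ω (Sum.inr (a, y)) (2 * y + 1) i else 0) = w) :
    ∑ k ∈ range n, trn ω ((nx ω)^[k] (Sum.inr (a, y))) = 4 * w := by
  classical
  set e : Ed := Sum.inr (a, y) with he
  have hinj : Set.InjOn (fun k => (nx ω)^[k] e) (range n : Set ℕ) := by
    have key : ∀ i j : ℕ, i < j → j < n → (nx ω)^[i] e ≠ (nx ω)^[j] e := by
      intro i j hij hj h'
      have h1 : (nx ω)^[j - i] e = e := by
        apply ((nx_inj ω).iterate i)
        rw [← Function.iterate_add_apply, show i + (j - i) = j by omega, h']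
      exact hne (j - i) (by omega) (by omega) h1
    intro i hi j hj hij
    rw [coe_range, Set.mem_Iio] at hi hj
    rcases lt_trichotomy i j with h1 | h1 | h1
    · exact absurd hij (key i j h1 hj)
    · exact h1
    · exact absurd hij.symm (key j i h1 hi)
  set ℓ : Finset Ed := (range n).image fun k => (nx ω)^[k] e with hℓ
  have hmod : ∀ m : ℕ, (nx ω)^[m] e = (nx ω)^[m % n] e := by
    intro m
    have h2 : ∀ q r : ℕ, (nx ω)^[n * q + r] e = (nx ω)^[r] e := by
      intro q
      induction q with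
      | zero => intro r; simp
      | succ q ih =>
        intro r
        rw [show n * (q + 1) + r = (n * q + r) + n by ring, Function.iterate_add_apply, h, ih]
    have h3 := Nat.div_add_mod m n
    rw [← h2 (m / n) (m % n), h3]
  have hloop : IsLoop ω ℓ := by
    refine ⟨e, fun e' => ?_⟩
    rw [hℓ, mem_image]
    constructor
    · rintro ⟨k, _, hk⟩
      exact ⟨k, hk⟩
    · rintro ⟨k, hk⟩
      exact ⟨k % n, mem_range.2 (Nat.mod_lt _ (by omega)), by rw [← hmod]; exact hk⟩
  have hsum : ∀ F : Ed → ℤ, ∑ x ∈ ℓ, F x = ∑ k ∈ range n, F ((nx ω)^[k] e) := by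
    intro F
    rw [hℓ, sum_image hinj]
  have hWs : W ℓ s = w := by
    rw [← hW]
    unfold W
    rw [hsum, show range n = insert 0 (Ioo 0 n) by ext x; simp; omega, sum_insert (by simp)]
    congr 1
    · simp only [Function.iterate_zero, id, he]
      rw [hs]
      simp
    · refine sum_congr rfl fun i _ => ?_
      unfold Mp psg
      rcases hf : (nx ω)^[i] e with ⟨u, v⟩ | ⟨u, v⟩
      · have m1 : (me (Sum.inl (u, v))).2 ≠ 2 * y + 1 := by simp only [me]; omega
        simp only [if_neg m1, ite_self]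
      · have m2 : (me (Sum.inr (u, v))).1 / 2 = u := by simp only [me]; omega
        simp only [m2, hs]
        by_cases hv : v = y
        · subst hv
          have m1 : (me (Sum.inr (u, v))).2 = 2 * v + 1 := by simp only [me]
          simp only [true_and, if_pos m1]
          by_cases hp : Even (u + v) <;> simp [sg, hd4, dy, hp]
        · have m1 : (me (Sum.inr (u, v))).2 ≠ 2 * y + 1 := by simp only [me]; omega
          rw [if_neg (by omega : ¬ (v + 1 = y + 1 ∧ s.1 ≤ u))]
          simp only [if_neg m1, ite_self]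
  have ht := s_turn ω ℓ hloop
  rw [hsum] at ht
  simp only [plane_turn] at ht
  rcases ht with ⟨h1, h2⟩ | ⟨h1, h2⟩
  · rcases h2 s with h3 | h3 <;> rw [hWs] at h3 <;> rcases hw with rfl | rfl
    · omega
    · omega
    · rw [h1]; norm_num
    · omega
  · rcases h2 s with h3 | h3 <;> rw [hWs] at h3 <;> rcases hw with rfl | rfl
    · omega
    · omega
    · omega
    · rw [h1]; norm_num

theorem nx_inr (ω : Cfg) (v : ℤ × ℤ) : ∃ u, nx ω (Sum.inr v) = Sum.inl u := by
  unfold nx
  dsimp only
  split_ifs <;> exact ⟨_, rfl⟩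

/-- Turning of a piece between two vertical edges of a row, all interior passages through the row
being to the right of both ends. -/
theorem row_R {ω : Cfg} {a b y : ℤ} {n : ℕ} (hn : 1 ≤ n)
    (h : (nx ω)^[n] (Sum.inr (a, y)) = Sum.inr (b, y))
    (hne : ∀ k, 1 ≤ k → k < n → (nx ω)^[k] (Sum.inr (a, y)) ≠ Sum.inr (a, y))
    (hint : ∀ i, 0 < i → i < n → ∀ x, (nx ω)^[i] (Sum.inr (a, y)) = Sum.inr (x, y) →
      a < x ∧ b < x) :
    ∑ k ∈ range n, trn ω ((nx ω)^[k] (Sum.inr (a, y))) =
      if sg (Sum.inr (b, y)) = - sg (Sum.inr (a, y)) then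
        (if b < a then 2 * sg (Sum.inr (a, y)) else -2 * sg (Sum.inr (a, y)))
      else -4 * sg (Sum.inr (a, y)) := by
  set e : Ed := Sum.inr (a, y) with he
  have hN := sum_psg ω e y hn
  rw [h] at hN
  have h1 := ab_hdv a y
  have h2 := ab_tlv b y
  have hp0 : ∀ i ∈ Ioo 0 n, psg ω e (2 * y + 1) i ≠ 0 →
      ∃ x, (nx ω)^[i] e = Sum.inr (x, y) ∧ a < x ∧ b < x := by
    intro i hi h3
    rw [mem_Ioo] at hi
    have h4 : (me ((nx ω)^[i] e)).2 = 2 * y + 1 := by
      by_contra hc
      exact h3 (by unfold psg; exact if_neg hc)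
    obtain ⟨x, hx⟩ := me_row h4
    exact ⟨x, hx, hint i hi.1 hi.2 x hx⟩
  have s1 := sg_inr (a, y)
  have s2 := sg_inr (b, y)
  rw [← he] at s1 h1
  by_cases hab : b = a
  · subst hab
    rw [← he]
    rw [← he] at hN s2 h2
    rw [if_neg (by omega)]
    have := turn_self hn h hne (b + 1, y + 1) rfl (w := - sg e) (by omega) (by
      rw [← he, if_neg (by simp), zero_add]
      have : ∑ i ∈ Ioo 0 n, (if ((b + 1, y + 1) : ℤ × ℤ).1 ≤ (Mp ω e i).1 / 2 then
          psg ω e (2 * y + 1) i else 0) = ∑ i ∈ Ioo 0 n, psg ω e (2 * y + 1) i := by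
        refine sum_congr rfl fun i hi => ?_
        by_cases h3 : psg ω e (2 * y + 1) i = 0
        · rw [h3]; simp
        · obtain ⟨x, hx, h4, -⟩ := hp0 i hi h3
          rw [if_pos]
          unfold Mp
          rw [hx]
          simp only [me]
          omega
      rw [this, hN]
      omega)
    rw [this]
    ring
  · have hn2 : 2 ≤ n := by
      by_contra hc
      have : n = 1 := by omega
      subst this
      obtain ⟨u, hu⟩ := nx_inr ω (a, y)
      rw [Function.iterate_one, he, hu] at h
      simp at h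
    have hne' : ∀ k, 1 ≤ k → k ≤ n → (nx ω)^[k] e ≠ e := by
      intro k hk1 hk2
      rcases Nat.lt_or_ge k n with h3 | h3
      · exact hne k hk1 h3
      · have : k = n := by omega
        subst this
        rw [h, he]
        intro h4
        simp only [Sum.inr.injEq, Prod.mk.injEq, and_true] at h4
        exact hab h4
    have hl := line_turn (ω := ω) (e := e) (Y := 2 * y + 1) hn2 (by omega) (by rw [he]; rfl)
      (by rw [h]; rfl) hne'
    have hR : (∑ i ∈ Ioo 0 n, if (Mp ω e 0).1 < (Mp ω e i).1 then psg ω e (2 * y + 1) i else 0) =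
        ∑ i ∈ Ioo 0 n, psg ω e (2 * y + 1) i := by
      refine sum_congr rfl fun i hi => ?_
      by_cases h3 : psg ω e (2 * y + 1) i = 0
      · rw [h3]; simp
      · obtain ⟨x, hx, h4, -⟩ := hp0 i hi h3
        rw [if_pos]
        unfold Mp
        rw [hx, Function.iterate_zero, id, he]
        simp only [me]
        omega
    have hL : (∑ i ∈ Ioo 0 n, if (Mp ω e i).1 < (Mp ω e n).1 then psg ω e (2 * y + 1) i else 0) =
        0 := by
      refine sum_eq_zero fun i hi => ?_
      by_cases h3 : psg ω e (2 * y + 1) i = 0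
      · rw [h3]; simp
      · obtain ⟨x, hx, -, h4⟩ := hp0 i hi h3
        rw [if_neg]
        unfold Mp
        rw [hx, h]
        simp only [me]
        omega
    rw [hR, hL, hN, h] at hl
    have e0 : (Mp ω e 0).1 = 2 * a := rfl
    have e1 : (Mp ω e n).1 = 2 * b := by unfold Mp; rw [h]; rfl
    rw [e0, e1] at hl
    unfold dl at hl
    have e2 := hd4_inr (a, y)
    have e3 := hd4_inr (b, y)
    rw [← he] at e2
    rw [e2, e3] at hl
    generalize sg e = p at *
    generalize sg (Sum.inr (b, y)) = q at *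
    generalize ab y (hdv e) = A at *
    generalize ab y (tlv (Sum.inr (b, y))) = B at *
    rcases s1 with rfl | rfl <;> rcases s2 with rfl | rfl <;> by_cases hlt : a < b <;>
      simp [hlt] at hl ⊢ <;> omega

/-- Turning of a piece between two vertical edges of a row, all interior passages through the row
being to the left of both ends. -/
theorem row_L {ω : Cfg} {a b y : ℤ} {n : ℕ} (hn : 1 ≤ n)
    (h : (nx ω)^[n] (Sum.inr (a, y)) = Sum.inr (b, y))
    (hne : ∀ k, 1 ≤ k → k < n → (nx ω)^[k] (Sum.inr (a, y)) ≠ Sum.inr (a, y))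
    (hint : ∀ i, 0 < i → i < n → ∀ x, (nx ω)^[i] (Sum.inr (a, y)) = Sum.inr (x, y) →
      x < a ∧ x < b) :
    ∑ k ∈ range n, trn ω ((nx ω)^[k] (Sum.inr (a, y))) =
      if sg (Sum.inr (b, y)) = - sg (Sum.inr (a, y)) then
        (if b < a then 2 * sg (Sum.inr (a, y)) else -2 * sg (Sum.inr (a, y)))
      else 4 * sg (Sum.inr (a, y)) := by
  set e : Ed := Sum.inr (a, y) with he
  have hN := sum_psg ω e y hn
  rw [h] at hN
  have h1 := ab_hdv a y
  have h2 := ab_tlv b y
  have hp0 : ∀ i ∈ Ioo 0 n, psg ω e (2 * y + 1) i ≠ 0 →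
      ∃ x, (nx ω)^[i] e = Sum.inr (x, y) ∧ x < a ∧ x < b := by
    intro i hi h3
    rw [mem_Ioo] at hi
    have h4 : (me ((nx ω)^[i] e)).2 = 2 * y + 1 := by
      by_contra hc
      exact h3 (by unfold psg; exact if_neg hc)
    obtain ⟨x, hx⟩ := me_row h4
    exact ⟨x, hx, hint i hi.1 hi.2 x hx⟩
  have s1 := sg_inr (a, y)
  have s2 := sg_inr (b, y)
  rw [← he] at s1 h1
  by_cases hab : b = a
  · subst hab
    rw [← he]
    rw [← he] at hN s2 h2
    rw [if_neg (by omega)]
    have := turn_self hn h hne (b, y + 1) rfl (w := sg e) (by omega) (by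
      rw [← he, if_pos (by simp)]
      have : ∑ i ∈ Ioo 0 n, (if ((b, y + 1) : ℤ × ℤ).1 ≤ (Mp ω e i).1 / 2 then
          psg ω e (2 * y + 1) i else 0) = 0 := by
        refine sum_eq_zero fun i hi => ?_
        by_cases h3 : psg ω e (2 * y + 1) i = 0
        · rw [h3]; simp
        · obtain ⟨x, hx, h4, -⟩ := hp0 i hi h3
          rw [if_neg]
          unfold Mp
          rw [hx]
          simp only [me]
          omega
      rw [this, add_zero])
    exact this
  · have hn2 : 2 ≤ n := by
      by_contra hc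
      have : n = 1 := by omega
      subst this
      obtain ⟨u, hu⟩ := nx_inr ω (a, y)
      rw [Function.iterate_one, he, hu] at h
      simp at h
    have hne' : ∀ k, 1 ≤ k → k ≤ n → (nx ω)^[k] e ≠ e := by
      intro k hk1 hk2
      rcases Nat.lt_or_ge k n with h3 | h3
      · exact hne k hk1 h3
      · have : k = n := by omega
        subst this
        rw [h, he]
        intro h4
        simp only [Sum.inr.injEq, Prod.mk.injEq, and_true] at h4
        exact hab h4
    have hl := line_turn (ω := ω) (e := e) (Y := 2 * y + 1) hn2 (by omega) (by rw [he]; rfl)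
      (by rw [h]; rfl) hne'
    have hR : (∑ i ∈ Ioo 0 n, if (Mp ω e 0).1 < (Mp ω e i).1 then psg ω e (2 * y + 1) i else 0) =
        0 := by
      refine sum_eq_zero fun i hi => ?_
      by_cases h3 : psg ω e (2 * y + 1) i = 0
      · rw [h3]; simp
      · obtain ⟨x, hx, h4, -⟩ := hp0 i hi h3
        rw [if_neg]
        unfold Mp
        rw [hx, Function.iterate_zero, id, he]
        simp only [me]
        omega
    have hL : (∑ i ∈ Ioo 0 n, if (Mp ω e i).1 < (Mp ω e n).1 then psg ω e (2 * y + 1) i else 0) =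
        ∑ i ∈ Ioo 0 n, psg ω e (2 * y + 1) i := by
      refine sum_congr rfl fun i hi => ?_
      by_cases h3 : psg ω e (2 * y + 1) i = 0
      · rw [h3]; simp
      · obtain ⟨x, hx, -, h4⟩ := hp0 i hi h3
        rw [if_pos]
        unfold Mp
        rw [hx, h]
        simp only [me]
        omega
    rw [hR, hL, hN, h] at hl
    have e0 : (Mp ω e 0).1 = 2 * a := rfl
    have e1 : (Mp ω e n).1 = 2 * b := by unfold Mp; rw [h]; rfl
    rw [e0, e1] at hl
    unfold dl at hl
    have e2 := hd4_inr (a, y)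
    have e3 := hd4_inr (b, y)
    rw [← he] at e2
    rw [e2, e3] at hl
    generalize sg e = p at *
    generalize sg (Sum.inr (b, y)) = q at *
    generalize ab y (hdv e) = A at *
    generalize ab y (tlv (Sum.inr (b, y))) = B at *
    rcases s1 with rfl | rfl <;> rcases s2 with rfl | rfl <;> by_cases hlt : a < b <;>
      simp [hlt] at hl ⊢ <;> omega

/-! ### columns, by rotation -/

/-- Rotation by a right angle about the site `(0, 0)`: squares. -/
def roS (v : ℤ × ℤ) : ℤ × ℤ := (-v.2 - 1, v.1)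

/-- The inverse rotation: squares. -/
def riS (v : ℤ × ℤ) : ℤ × ℤ := (v.2, -v.1 - 1)

theorem riS_roS (v : ℤ × ℤ) : riS (roS v) = v := by
  unfold riS roS; ext <;> simp

/-- Rotation of the medial edges. -/
def roE : Ed → Ed
  | Sum.inl v => Sum.inr (-v.2 - 1, v.1)
  | Sum.inr v => Sum.inl (-v.2 - 2, v.1)

theorem roE_inj : Function.Injective roE := by
  rintro (⟨x, y⟩ | ⟨x, y⟩) (⟨a, b⟩ | ⟨a, b⟩) h <;> simp only [roE] at h
  · simp only [Sum.inr.injEq, Prod.mk.injEq] at h
    obtain ⟨rfl, rfl⟩ : x = a ∧ y = b := by omega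
    rfl
  · simp at h
  · simp at h
  · simp only [Sum.inl.injEq, Prod.mk.injEq] at h
    obtain ⟨rfl, rfl⟩ : x = a ∧ y = b := by omega
    rfl

/-- Rotation of a configuration. -/
def roC (ω : Cfg) : Cfg := fun v => ω (riS v)

theorem par_ro (x y : ℤ) : Even (-y - 1 + x) ↔ ¬ Even (x + y) := by
  rw [Int.even_iff, Int.even_iff]; omega

theorem par_ro' (x y : ℤ) : Even (-y - 2 + x) ↔ Even (x + y) := by
  rw [Int.even_iff, Int.even_iff]; omega

theorem hdv_ro (e : Ed) : hdv (roE e) = roS (hdv e) := by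
  rcases e with ⟨x, y⟩ | ⟨x, y⟩
  · by_cases hp : Even (x + y) <;> simp [roE, hdv, roS, par_ro, hp]
  · by_cases hp : Even (x + y) <;> simp [roE, hdv, roS, par_ro', hp]
    · ring
    · ring

theorem trn_ro (ω : Cfg) (e : Ed) : trn (roC ω) (roE e) = trn ω e := by
  unfold trn roC
  rw [hdv_ro, riS_roS]

theorem nx_ro (ω : Cfg) (e : Ed) : nx (roC ω) (roE e) = roE (nx ω e) := by
  have h0 := hdv_ro e
  have h1 : ∀ v, roC ω (roS v) = ω v := fun v => by unfold roC; rw [riS_roS]
  rcases e with ⟨x, y⟩ | ⟨x, y⟩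
  · by_cases hp : Even (x + y)
    · have h2 : roC ω (-y - 1, x + 1) = ω (x + 1, y) := h1 (x + 1, y)
      cases hb : ω (x + 1, y) <;> rw [hb] at h2 <;>
        simp [roE, nx, par_ro, hp, h2, hb] <;> ring_nf
    · have h2 : roC ω (-y - 1, x) = ω (x, y) := h1 (x, y)
      cases hb : ω (x, y) <;> rw [hb] at h2 <;>
        simp [roE, nx, par_ro, hp, h2, hb] <;> ring_nf
  · by_cases hp : Even (x + y)
    · have h2 : roC ω (-y - 1, x) = ω (x, y) := h1 (x, y)
      have h3 : roC ω (-y - 2 + 1, x) = ω (x, y) := by rw [← h2]; congr 2; ring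
      cases hb : ω (x, y) <;> rw [hb] at h3 <;>
        simp [roE, nx, par_ro', hp, h3, hb] <;> ring_nf
    · have h2 : roC ω (-(y + 1) - 1, x) = ω (x, y + 1) := h1 (x, y + 1)
      have h3 : roC ω (-y - 2, x) = ω (x, y + 1) := by rw [← h2]; congr 2; ring
      cases hb : ω (x, y + 1) <;> rw [hb] at h3 <;>
        simp [roE, nx, par_ro', hp, h3, hb] <;> ring_nf

theorem iter_ro (ω : Cfg) (e : Ed) (n : ℕ) : (nx (roC ω))^[n] (roE e) = roE ((nx ω)^[n] e) := by
  induction n with
  | zero => rfl
  | succ n ih => rw [Function.iterate_succ_apply', ih, nx_ro, ← Function.iterate_succ_apply' (nx ω)]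

theorem sg_ro (x y : ℤ) : sg (Sum.inr (-y - 1, x)) = sg (Sum.inl (x, y)) := by
  by_cases hp : Even (x + y) <;> simp [sg, par_ro, hp]

/-- The edge at the position `t` of the line `c`: the vertical edge `inr (t, c)` of the row `c` if
`h`, the horizontal edge `inl (c, - t - 1)` of the column `c` otherwise. -/
def Ln (h : Bool) (c t : ℤ) : Ed := if h then Sum.inr (t, c) else Sum.inl (c, -t - 1)

theorem ro_Ln (c t : ℤ) : roE (Ln false c t) = Ln true c t := by
  simp [Ln, roE]

theorem sg_Ln (c t : ℤ) : sg (Ln true c t) = sg (Ln false c t) := by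
  have := sg_ro c (-t - 1)
  simp only [Ln, if_true, Bool.false_eq_true, if_false]
  rw [← this]
  congr 3
  ring

theorem Ln_inj {h : Bool} {c s t : ℤ} (he : Ln h c s = Ln h c t) : s = t := by
  cases h
  · simp only [Ln, Bool.false_eq_true, if_false, Sum.inl.injEq, Prod.mk.injEq] at he
    omega
  · simp only [Ln, if_true, Sum.inr.injEq, Prod.mk.injEq] at he
    omega

/-- Turning of a piece between two edges of a line, passages beyond the upper end only. -/
theorem ln_hi {ω : Cfg} {h : Bool} {c a b : ℤ} {n : ℕ} (hn : 1 ≤ n)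
    (hl : (nx ω)^[n] (Ln h c a) = Ln h c b)
    (hne : ∀ k, 1 ≤ k → k < n → (nx ω)^[k] (Ln h c a) ≠ Ln h c a)
    (hint : ∀ i, 0 < i → i < n → ∀ x, (nx ω)^[i] (Ln h c a) = Ln h c x → a < x ∧ b < x) :
    ∑ k ∈ range n, trn ω ((nx ω)^[k] (Ln h c a)) =
      if sg (Ln h c b) = - sg (Ln h c a) then
        (if b < a then 2 * sg (Ln h c a) else -2 * sg (Ln h c a))
      else -4 * sg (Ln h c a) := by
  cases h
  · have key := row_R (ω := roC ω) (a := a) (b := b) (y := c) hn
      (by
        have := iter_ro ω (Ln false c a) n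
        rw [hl, ro_Ln, ro_Ln] at this
        exact this)
      (by
        intro k h1 h2 h3
        have := iter_ro ω (Ln false c a) k
        rw [ro_Ln] at this
        have h4 : Ln true c a = roE ((nx ω)^[k] (Ln false c a)) := by rw [← this]; exact h3.symm
        rw [← ro_Ln] at h4
        exact hne k h1 h2 (roE_inj h4).symm)
      (by
        intro i h1 h2 x h3
        have := iter_ro ω (Ln false c a) i
        rw [ro_Ln] at this
        have h4 : roE ((nx ω)^[i] (Ln false c a)) = Ln true c x := by rw [← this]; exact h3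
        rw [← ro_Ln] at h4
        exact hint i h1 h2 x (roE_inj h4))
    have e1 : ∀ k, trn (roC ω) ((nx (roC ω))^[k] (Sum.inr (a, c))) =
        trn ω ((nx ω)^[k] (Ln false c a)) := by
      intro k
      have := iter_ro ω (Ln false c a) k
      rw [ro_Ln] at this
      rw [← trn_ro ω ((nx ω)^[k] (Ln false c a)), ← this]
      rfl
    simp only [e1] at key
    rw [key]
    have s1 := sg_Ln c a
    have s2 := sg_Ln c b
    simp only [Ln, if_true] at s1 s2
    rw [s1, s2]
    rfl
  · exact row_R hn hl hne hint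

/-- Turning of a piece between two edges of a line, passages beyond the lower end only. -/
theorem ln_lo {ω : Cfg} {h : Bool} {c a b : ℤ} {n : ℕ} (hn : 1 ≤ n)
    (hl : (nx ω)^[n] (Ln h c a) = Ln h c b)
    (hne : ∀ k, 1 ≤ k → k < n → (nx ω)^[k] (Ln h c a) ≠ Ln h c a)
    (hint : ∀ i, 0 < i → i < n → ∀ x, (nx ω)^[i] (Ln h c a) = Ln h c x → x < a ∧ x < b) :
    ∑ k ∈ range n, trn ω ((nx ω)^[k] (Ln h c a)) =
      if sg (Ln h c b) = - sg (Ln h c a) then
        (if b < a then 2 * sg (Ln h c a) else -2 * sg (Ln h c a))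
      else 4 * sg (Ln h c a) := by
  cases h
  · have key := row_L (ω := roC ω) (a := a) (b := b) (y := c) hn
      (by
        have := iter_ro ω (Ln false c a) n
        rw [hl, ro_Ln, ro_Ln] at this
        exact this)
      (by
        intro k h1 h2 h3
        have := iter_ro ω (Ln false c a) k
        rw [ro_Ln] at this
        have h4 : Ln true c a = roE ((nx ω)^[k] (Ln false c a)) := by rw [← this]; exact h3.symm
        rw [← ro_Ln] at h4
        exact hne k h1 h2 (roE_inj h4).symm)
      (by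
        intro i h1 h2 x h3
        have := iter_ro ω (Ln false c a) i
        rw [ro_Ln] at this
        have h4 : roE ((nx ω)^[i] (Ln false c a)) = Ln true c x := by rw [← this]; exact h3
        rw [← ro_Ln] at h4
        exact hint i h1 h2 x (roE_inj h4))
    have e1 : ∀ k, trn (roC ω) ((nx (roC ω))^[k] (Sum.inr (a, c))) =
        trn ω ((nx ω)^[k] (Ln false c a)) := by
      intro k
      have := iter_ro ω (Ln false c a) k
      rw [ro_Ln] at this
      rw [← trn_ro ω ((nx ω)^[k] (Ln false c a)), ← this]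
      rfl
    simp only [e1] at key
    rw [key]
    have s1 := sg_Ln c a
    have s2 := sg_Ln c b
    simp only [Ln, if_true] at s1 s2
    rw [s1, s2]
    rfl
  · exact row_L hn hl hne hint

end Vale.Agent.P167.H945
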