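import Vale.Agent.P167.H135.Flow3

/-!
# P167, block START [MB]: the factor of the small loops for a neutral flow, fourth moment
-/

namespace Vale.Agent.P167.H945

open Finset MeasureTheory ProbabilityTheory Filter Topology
open Vale.Agent.P167.A (plane plane_nx plane_sg)
open Vale.Agent.P167.H685 (LE mem_LE loop_gen loop_unique s_fin)
open Vale.Agent.P167.H199 (cang ah at' hb loop_nx loop_iter)
open Vale.Agent.P167.H562 (Em)
open Vale.Agent.P167.H562.SML (smf mem_smf fat mem_fat smf_loc' Bd bd_G sml_lin)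
open Vale.Agent.P167.H825 (dv epos)
open Vale.Agent.P167.H135

/-- The small loops of a flow, fourth moment (the proof of `H135.small_flow` with another exponent). -/
theorem small_flow4 (κ R B : ℝ) (hκ : 0 < κ) : ∃ κ0 : ℝ, 0 < κ0 ∧ ∀ κ1 : ℝ, 0 < κ1 → κ1 ≤ κ0 →
    ∃ M N0 : ℝ, 0 ≤ M ∧ ∀ n : ℕ, N0 ≤ n → ∀ (c : Ed → ℝ) (P : Set (ℤ × ℤ)),
      (∀ e, c e ≠ 0 → (nm (epos e) : ℝ) ≤ R * n ∧ ∀ p ∈ P, κ * n ≤ (nm (epos e - p) : ℝ)) →
      (∀ z, |dv c z| ≤ B / n ^ 2) →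
      ∃ (F : Finset (ℤ × ℤ)) (g : Cfg → ℝ),
        (∀ v ∈ F, ∀ p ∈ P, κ / 2 * n ≤ (nm (v - p) : ℝ)) ∧
        (∀ ω ω' : Cfg, (∀ v ∈ F, ω v = ω' v) → g ω = g ω') ∧ (∀ ω, 0 < g ω) ∧
        ∫⁻ ω, ENNReal.ofReal (g ω) ^ (4 : ℝ) ∂μ ≤ ENNReal.ofReal M ∧
        ∀ (ω : Cfg) (S E : Finset Ed) (a : Ed → Bool → ℝ), (∀ e ∈ S, epos e ∈ P) →
          (∀ e ∉ S, a e true + a e false = c e) → (∀ e, c e ≠ 0 → e ∈ E) →
          (by classical exact ∏ ℓ ∈ (LE ω E).filter (fun ℓ => Disjoint ℓ S ∧ Small (κ1 * n) ℓ),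
            |2 * Real.cos (cang plane (Real.pi / 3) a ω ℓ)|) ≤ g ω := by
  classical
  refine ⟨min (κ / 8) (1 / (2 * (|B| + 1))), lt_min (by positivity) (by positivity),
    fun κ1 hκ1 hκ0 => ?_⟩
  have hk8 : κ1 ≤ κ / 8 := hκ0.trans (min_le_left _ _)
  have hkB : κ1 ≤ 1 / (2 * (|B| + 1)) := hκ0.trans (min_le_right _ _)
  obtain ⟨C, hC0, hC⟩ := sml_lin (R := |R| + 1 + κ1) (κ := κ1) (4 * √3 * |B|) (by positivity) hκ1
  refine ⟨Real.exp (C * |B| ^ 2 * (-4 * √3) ^ 2), max 1 (8 / κ), (Real.exp_pos _).le,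
    fun n hn c P hc hd => ?_⟩
  have hn1 : (1 : ℝ) ≤ n := (le_max_left _ _).trans hn
  have hn8 : 8 ≤ κ * n := by
    have := (le_max_right _ _).trans hn
    rwa [div_le_iff₀ hκ, mul_comm] at this
  have hn0 : (0 : ℝ) < n := by linarith
  -- the support of `c` is finite
  obtain ⟨F0, hF0⟩ := H45.box_fin 0 ⌊R * n⌋
  have hE0 : ∀ e ∉ (F0.image Sum.inl ∪ F0.image Sum.inr : Finset Ed), c e = 0 := by
    intro e he
    by_contra h0
    apply he
    have h1 : epos e ∈ F0 := (hF0 _).2 (by rw [sub_zero]; exact Int.le_floor.2 (hc e h0).1)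
    rw [mem_union]
    rcases e with v | v
    · exact Or.inl (mem_image_of_mem _ h1)
    · exact Or.inr (mem_image_of_mem _ h1)
  obtain ⟨F1, hF1⟩ := dv_supp hE0
  -- the set `A`
  choose Bl hBl using fun z : ℤ × ℤ => exists_ball z (κ1 * n)
  set A : Finset (ℤ × ℤ) := (F1.filter fun z => dv c z ≠ 0).biUnion Bl with hA
  have hAm : ∀ v, v ∈ A ↔ ∃ s, dv c s ≠ 0 ∧ (nm (v - s) : ℝ) < κ1 * n := by
    intro v
    rw [hA, mem_biUnion]
    constructor
    · rintro ⟨s, hs, hv⟩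
      exact ⟨s, (mem_filter.1 hs).2, (hBl s v).1 hv⟩
    · rintro ⟨s, hs, hv⟩
      exact ⟨s, mem_filter.2 ⟨by_contra fun h => hs (hF1 s h), hs⟩, (hBl s v).2 hv⟩
  have hAc : ∀ v ∈ A, ∃ e, c e ≠ 0 ∧ (nm (v - epos e) : ℝ) < κ1 * n + 1 := by
    intro v hv
    obtain ⟨s, hs, h1⟩ := (hAm v).1 hv
    obtain ⟨e, he, h2⟩ := dv_ne hs
    refine ⟨e, he, ?_⟩
    have h3 := nm_tri v s (epos e)
    have h2' : (nm (s - epos e) : ℝ) ≤ 1 := by exact_mod_cast h2
    linarith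
  have hB0 : 0 ≤ B := by
    have h1 := (abs_nonneg _).trans (hd 0)
    by_contra h
    push Not at h
    have : B / n ^ 2 < 0 := div_neg_of_neg_of_pos h (by positivity)
    linarith
  have hBB : |B| = B := abs_of_nonneg hB0
  have hbd : Bd κ1 n |B| (fun ℓ => G (dv c) ℓ) := bd_G hn1 (abs_nonneg B) (by rwa [hBB])
  have hmean : ∫ ω, ∑ ℓ ∈ smf A (κ1 * n) ω, G (dv c) ℓ ∂μ = 0 := by
    rw [mean_G hF1 fun s _ hs v hv => (hAm v).2 ⟨s, hs, hv⟩, dv_sum hE0 hF1, zero_mul]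
  have hκn : κ1 * n ≤ κ * n / 8 := by nlinarith
  refine ⟨fat A (κ1 * n), gfl c A (κ1 * n), ?_, fun ω ω' hw => gfl_loc c A _ hw,
    fun ω => Real.exp_pos _, ?_, ?_⟩
  · intro u hu p hp
    obtain ⟨v, hv, h1⟩ := fat_near hu
    obtain ⟨e, he, h2⟩ := hAc v hv
    have h3 := (hc e he).2 p hp
    have h4 := nm_tri (epos e) v p
    have h5 := nm_tri v u p
    have h6 := nm_comm (epos e) v
    have h7 := nm_comm v u
    linarith
  · have h1 := hC n hn1 0 A (fun v hv => by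
      obtain ⟨e, he, h2⟩ := hAc v hv
      have h3 := (hc e he).1
      have h4 := nm_tri v (epos e) 0
      rw [sub_zero (epos e)] at h4
      have h5 : R * n ≤ |R| * n := mul_le_mul_of_nonneg_right (le_abs_self R) hn0.le
      nlinarith) (fun ℓ => G (dv c) ℓ) |B| (abs_nonneg B) hbd (-4 * √3) (by
        rw [abs_mul, abs_neg, abs_of_nonneg (Real.sqrt_nonneg 3)]
        norm_num)
    refine le_trans (le_of_eq ?_) h1
    unfold Em
    refine lintegral_congr fun ω => ?_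
    unfold gfl
    rw [ENNReal.ofReal_rpow_of_pos (Real.exp_pos _), ← Real.exp_mul]
    congr 2
    show _ = -4 * √3 * (∑ ℓ ∈ smf A (κ1 * n) ω, G (dv c) ℓ -
      ∫ ω, ∑ ℓ ∈ smf A (κ1 * n) ω, G (dv c) ℓ ∂μ)
    rw [hmean]
    ring
  · intro ω S E a hSP hac hcE
    refine prod_le (fun s v hs hv => (hAm v).2 ⟨s, hs, hv⟩) (fun e he => ?_) hac ?_ ?_
    · by_contra h0
      exact he (hcE e h0)
    · intro e he s hs
      obtain ⟨e', he', h1⟩ := dv_ne hs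
      have h2 := (hc e' he').2 _ (hSP e he)
      have h3 := nm_tri (epos e') s (epos e)
      have h4 := nm_tri s (hdv e) (epos e)
      have h5 : (nm (hdv e - epos e) : ℝ) ≤ 1 := by exact_mod_cast hdv_epos e
      have h6 : (nm (s - epos e') : ℝ) ≤ 1 := by exact_mod_cast h1
      have h7 := nm_comm (epos e') s
      have h8 := nm_comm s (hdv e)
      linarith
    · intro ℓ hℓ hs
      have h1 := hbd ω ℓ (κ1 * n) hℓ le_rfl hs
      refine h1.trans ?_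
      have h2 : κ1 * n / n = κ1 := by field_simp
      rw [h2]
      have h3 : κ1 * (2 * (|B| + 1)) ≤ 1 := by
        rwa [le_div_iff₀ (by positivity)] at hkB
      have h4 : 0 ≤ |B| := abs_nonneg B
      have h5 : κ1 ≤ 1 / 2 := by nlinarith
      nlinarith

end Vale.Agent.P167.H945
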