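import Vale.Agent.P167.H945.Tab

/-!
# P167, block NORM (N3b): the factors of the small strands of a straight segment
-/

namespace Vale.Agent.P167.H945

open Finset
open Vale.Agent.P167.Top Vale.Agent.P167.H871
open Vale.Agent.P167.A (plane plane_sg plane_nx)
open Vale.Agent.P167.H685
open Vale.Agent.P167.H199

theorem sg_sq (e : Ed) : sg e = 1 ∨ sg e = -1 := by
  rcases e with v | v <;> by_cases hp : Even (v.1 + v.2) <;> simp [sg, hp]

theorem hdv_Ln (h : Bool) (c s t : ℤ) : |s - t| ≤ nm (hdv (Ln h c s) - hdv (Ln h c t)) := by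
  cases h
  · by_cases h1 : Even (c + (-s - 1)) <;> by_cases h2 : Even (c + (-t - 1)) <;>
      simp only [Ln, Bool.false_eq_true, if_false, hdv, h1, h2, if_true, nm, Prod.fst_sub,
        Prod.snd_sub] <;> refine le_trans (le_of_eq ?_) (le_max_right _ _) <;>
      rw [abs_sub_comm] <;> congr 1 <;> ring
  · by_cases h1 : Even (s + c) <;> by_cases h2 : Even (t + c) <;>
      simp only [Ln, hdv, h1, h2, if_true, if_false, nm, Prod.fst_sub, Prod.snd_sub] <;>
      exact le_max_left _ _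

theorem hdv_Ln_le (h : Bool) (c s t : ℤ) : nm (hdv (Ln h c s) - hdv (Ln h c t)) ≤ |s - t| + 1 := by
  have hs := abs_nonneg (s - t)
  have e1 : |(-s - 1) - (-t - 1)| = |s - t| := by rw [abs_sub_comm]; congr 1; ring
  cases h
  · by_cases h1 : Even (c + (-s - 1)) <;> by_cases h2 : Even (c + (-t - 1)) <;>
      simp only [Ln, Bool.false_eq_true, if_false, hdv, h1, h2, if_true, nm, Prod.fst_sub,
        Prod.snd_sub, e1, max_le_iff] <;> refine ⟨?_, by omega⟩ <;> rw [abs_le] <;>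
      constructor <;> linarith
  · by_cases h1 : Even (s + c) <;> by_cases h2 : Even (t + c) <;>
      simp only [Ln, hdv, h1, h2, if_true, if_false, nm, Prod.fst_sub, Prod.snd_sub,
        max_le_iff] <;> refine ⟨by omega, ?_⟩ <;> rw [abs_le] <;> constructor <;> linarith

/-- Near the edge `e`, the set `S` is the segment `[lo, hi)` of the line `c`. -/
structure Nr (S : Finset Ed) (h : Bool) (c lo hi : ℤ) (e : Ed) (d : ℝ) : Prop where
  sub : ∀ t, lo ≤ t → t < hi → Ln h c t ∈ S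
  near : ∀ f ∈ S, (nm (hdv f - hdv e) : ℝ) < d + 1 → ∃ t, lo ≤ t ∧ t < hi ∧ f = Ln h c t
  len : 2 * d ≤ hi - lo

/-- Turning of a small strand near a straight segment. -/
theorem strand_tab {ω : Cfg} {S : Finset Ed} {h : Bool} {c lo hi : ℤ} {d : ℝ} {t₀ : ℤ}
    (hN : Nr S h c lo hi (Ln h c t₀) d) (h1 : lo ≤ t₀) (h2 : t₀ < hi)
    (hr : Returns (nx ω) S (Ln h c t₀)) (hs : Small d (strand (nx ω) S (Ln h c t₀))) :
    ∃ t₁, lo ≤ t₁ ∧ t₁ < hi ∧ (nx ω)^[ret (nx ω) S (Ln h c t₀)] (Ln h c t₀) = Ln h c t₁ ∧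
      (|t₁ - t₀| : ℝ) < d + 1 ∧
      ((sg (Ln h c t₁) = - sg (Ln h c t₀) ∧
        ∑ x ∈ strand (nx ω) S (Ln h c t₀), trn ω x =
          if t₁ < t₀ then 2 * sg (Ln h c t₀) else -2 * sg (Ln h c t₀)) ∨
      (sg (Ln h c t₁) = sg (Ln h c t₀) ∧ (hi - t₀ : ℝ) < d ∧
        ∑ x ∈ strand (nx ω) S (Ln h c t₀), trn ω x = -4 * sg (Ln h c t₀)) ∨
      (sg (Ln h c t₁) = sg (Ln h c t₀) ∧ (t₀ - lo : ℝ) < d ∧
        ∑ x ∈ strand (nx ω) S (Ln h c t₀), trn ω x = 4 * sg (Ln h c t₀))) := by
  set e := Ln h c t₀ with he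
  set n := ret (nx ω) S e with hn
  have hn1 : 1 ≤ n := hr.spec.1
  have hnS : (nx ω)^[n] e ∈ S := hr.spec.2
  have heS : e ∈ S := hN.sub t₀ h1 h2
  have hsm : ∀ i < n, ∀ j < n, (nm (hdv ((nx ω)^[i] e) - hdv ((nx ω)^[j] e)) : ℝ) < d := by
    intro i hi j hj
    exact hs _ (mem_image_of_mem _ (mem_strand.2 ⟨i, hi, rfl⟩)) _
      (mem_image_of_mem _ (mem_strand.2 ⟨j, hj, rfl⟩))
  have hlast : (nm (hdv ((nx ω)^[n] e) - hdv e) : ℝ) < d + 1 := by
    obtain ⟨m, hm⟩ : ∃ m, n = m + 1 := ⟨n - 1, by omega⟩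
    have h3 := hsm m (by omega) 0 (by omega)
    have h4 := nm_step ((nx ω)^[m + 1] e)
    rw [Function.iterate_succ_apply', tlv_nx, ← Function.iterate_succ_apply' (nx ω)] at h4
    have h5 := Vale.Agent.P167.H45.nm_sub_le (hdv ((nx ω)^[m + 1] e)) (hdv ((nx ω)^[m] e)) (hdv e)
    rw [hm]
    have h6 : (nm (hdv ((nx ω)^[m + 1] e) - hdv e) : ℝ) ≤
        1 + nm (hdv ((nx ω)^[m] e) - hdv e) := by
      have : nm (hdv ((nx ω)^[m + 1] e) - hdv e) ≤ 1 + nm (hdv ((nx ω)^[m] e) - hdv e) := by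
        linarith
      exact_mod_cast this
    simp only [Function.iterate_zero, id] at h3
    linarith
  obtain ⟨t₁, ht1, ht2, ht3⟩ := hN.near _ hnS hlast
  have hdist : (|t₁ - t₀| : ℝ) < d + 1 := by
    rw [ht3, he] at hlast
    have := hdv_Ln h c t₁ t₀
    have h5 : ((|t₁ - t₀| : ℤ) : ℝ) ≤ nm (hdv (Ln h c t₁) - hdv (Ln h c t₀)) := by
      exact_mod_cast this
    push_cast at h5
    linarith
  have hne : ∀ k, 1 ≤ k → k < n → (nx ω)^[k] e ≠ e := by
    intro k hk1 hk2 hk3
    have h3 := ret_min (f := nx ω) (S := S) (e := e) hk1 hk2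
    rw [hk3] at h3
    exact h3 heS
  have hint : ∀ i, 0 < i → i < n → ∀ x, (nx ω)^[i] e = Ln h c x →
      (hi ≤ x ∧ (x - t₀ : ℝ) < d) ∨ (x < lo ∧ (t₀ - x : ℝ) < d) := by
    intro i hi0 hin x hx
    have h3 : Ln h c x ∉ S := by rw [← hx]; exact ret_min hi0 hin
    have h4 : ¬ (lo ≤ x ∧ x < hi) := fun h' => h3 (hN.sub x h'.1 h'.2)
    have h5 := hsm i hin 0 (by omega)
    rw [hx, Function.iterate_zero, id, he] at h5
    have h6 := hdv_Ln h c x t₀
    have h7 : ((|x - t₀| : ℤ) : ℝ) < d := by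
      have : ((|x - t₀| : ℤ) : ℝ) ≤ nm (hdv (Ln h c x) - hdv (Ln h c t₀)) := by exact_mod_cast h6
      linarith
    push_cast at h7
    have h8 := abs_lt.1 h7
    by_cases h9 : x < lo
    · right; exact ⟨h9, by linarith⟩
    · left; exact ⟨by omega, by linarith⟩
  have hsum : ∑ x ∈ strand (nx ω) S e, trn ω x = ∑ k ∈ range n, trn ω ((nx ω)^[k] e) :=
    sum_strand (nx_inj ω) heS _
  refine ⟨t₁, ht1, ht2, ht3, hdist, ?_⟩
  rw [hsum]
  have s0 := sg_sq e
  have s1 := sg_sq (Ln h c t₁)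
  by_cases hU : ∃ i x, 0 < i ∧ i < n ∧ (nx ω)^[i] e = Ln h c x ∧ hi ≤ x
  · obtain ⟨i₀, x₀, q1, q2, q3, q4⟩ := hU
    have hall : ∀ i, 0 < i → i < n → ∀ x, (nx ω)^[i] e = Ln h c x → t₀ < x ∧ t₁ < x := by
      intro i hi0 hin x hx
      rcases hint i hi0 hin x hx with ⟨a1, -⟩ | ⟨a1, -⟩
      · omega
      · exfalso
        have h3 := hsm i hin i₀ q2
        rw [hx, q3] at h3
        have h4 := hdv_Ln h c x x₀
        have h5 : ((|x - x₀| : ℤ) : ℝ) < d := by
          have : ((|x - x₀| : ℤ) : ℝ) ≤ nm (hdv (Ln h c x) - hdv (Ln h c x₀)) := by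
            exact_mod_cast h4
          linarith
        push_cast at h5
        have h6 := abs_lt.1 h5
        have h7 : (x : ℝ) < lo := by exact_mod_cast a1
        have h8 : (hi : ℝ) ≤ x₀ := by exact_mod_cast q4
        have h9 := hN.len
        linarith
    have key := ln_hi hn1 ht3 hne hall
    rw [key]
    by_cases hσ : sg (Ln h c t₁) = - sg e
    · left
      rw [if_pos hσ]
      exact ⟨hσ, rfl⟩
    · right; left
      rw [if_neg hσ]
      refine ⟨by omega, ?_, rfl⟩
      rcases hint i₀ q1 q2 x₀ q3 with ⟨-, a2⟩ | ⟨a1, -⟩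
      · have h8 : (hi : ℝ) ≤ x₀ := by exact_mod_cast q4
        linarith
      · omega
  · push Not at hU
    have hall : ∀ i, 0 < i → i < n → ∀ x, (nx ω)^[i] e = Ln h c x → x < t₀ ∧ x < t₁ := by
      intro i hi0 hin x hx
      rcases hint i hi0 hin x hx with ⟨a1, -⟩ | ⟨a1, -⟩
      · exact absurd a1 (not_le.2 (hU i x hi0 hin hx))
      · omega
    have key := ln_lo hn1 ht3 hne hall
    rw [key]
    by_cases hσ : sg (Ln h c t₁) = - sg e
    · left
      rw [if_pos hσ]
      exact ⟨hσ, rfl⟩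
    · right; right
      rw [if_neg hσ]
      refine ⟨by omega, ?_, rfl⟩
      by_contra hcon
      push Not at hcon
      -- no interior passage at all
      have hnone : ∀ i, 0 < i → i < n → ∀ x, (nx ω)^[i] e = Ln h c x → t₀ < x ∧ t₁ < x := by
        intro i hi0 hin x hx
        exfalso
        rcases hint i hi0 hin x hx with ⟨a1, -⟩ | ⟨a1, a2⟩
        · exact absurd a1 (not_le.2 (hU i x hi0 hin hx))
        · have h7 : (x : ℝ) < lo := by exact_mod_cast a1
          linarith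
      have key2 := ln_hi hn1 ht3 hne hnone
      rw [key, if_neg hσ, if_neg hσ] at key2
      rcases s0 with s0 | s0 <;> rw [s0] at key2 <;> omega

/-! ### the angle -/

/-- The phase seen by an arrow which leaves the wall on the face `b`. -/
def PhF (a : Ed → Bool → ℝ) (h : Bool) (c : ℤ) (Φ : ℤ → Bool → ℝ) (t : ℤ) : Prop :=
  a (Ln h c t) true = Φ t true ∧ a (Ln h c t) false = - Φ t false

theorem ah_wall {a : Ed → Bool → ℝ} {h : Bool} {c : ℤ} {Φ : ℤ → Bool → ℝ} {t : ℤ}
    (hp : PhF a h c Φ t) : ah plane a (Ln h c t) = Φ t (decide (sg (Ln h c t) = 1)) := by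
  unfold ah hb
  rw [plane_sg]
  rcases sg_sq (Ln h c t) with h1 | h1 <;> rw [h1]
  · simp [hp.1]
  · simp [hp.2]

theorem at_wall {a : Ed → Bool → ℝ} {h : Bool} {c : ℤ} {Φ : ℤ → Bool → ℝ} {t : ℤ}
    (hp : PhF a h c Φ t) : at' plane a (Ln h c t) = - Φ t (!decide (sg (Ln h c t) = 1)) := by
  unfold at' hb
  rw [plane_sg]
  rcases sg_sq (Ln h c t) with h1 | h1 <;> rw [h1]
  · simp [hp.2]
  · simp [hp.1]

/-- The angle of a strand whose interior edges carry no phase. -/
theorem cang_strand {ω : Cfg} {S : Finset Ed} {e : Ed} {a : Ed → Bool → ℝ} (he : e ∈ S)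
    (hr : Returns (nx ω) S e) (h0 : ∀ x ∈ strand (nx ω) S e, x ≠ e → ∀ b, a x b = 0) :
    cang plane (Real.pi / 3) a ω (strand (nx ω) S e) =
      Real.pi / 12 * ((∑ x ∈ strand (nx ω) S e, trn ω x : ℤ) : ℝ) + ah plane a e +
        at' plane a ((nx ω)^[ret (nx ω) S e] e) := by
  set n := ret (nx ω) S e with hn
  obtain ⟨m, hm⟩ : ∃ m, n = m + 1 := ⟨n - 1, by have := hr.spec.1; omega⟩
  unfold cang
  rw [sum_strand (nx_inj ω) he, sum_strand (nx_inj ω) he, ← hn, sum_add_distrib, sum_add_distrib]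
  have hi : ∀ k, 0 < k → k < n → (nx ω)^[k] e ∈ strand (nx ω) S e ∧ (nx ω)^[k] e ≠ e := by
    intro k hk1 hk2
    refine ⟨mem_strand.2 ⟨k, hk2, rfl⟩, fun h1 => ?_⟩
    have h3 := ret_min (f := nx ω) (S := S) (e := e) hk1 hk2
    rw [h1] at h3
    exact h3 he
  have h1 : ∑ k ∈ range n, ah plane a ((nx ω)^[k] e) = ah plane a e := by
    rw [hm, sum_range_succ', sum_eq_zero, zero_add]
    · rfl
    · intro k hk
      rw [mem_range] at hk
      obtain ⟨h2, h3⟩ := hi (k + 1) (by omega) (by omega)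
      unfold ah
      rw [h0 _ h2 h3, zero_mul]
  have h2 : ∑ k ∈ range n, at' plane a (plane.nx ω ((nx ω)^[k] e)) =
      at' plane a ((nx ω)^[n] e) := by
    rw [hm, sum_range_succ, sum_eq_zero, zero_add]
    · rw [plane_nx, ← Function.iterate_succ_apply' (nx ω)]
    · intro k hk
      rw [mem_range] at hk
      obtain ⟨h2, h3⟩ := hi (k + 1) (by omega) (by omega)
      rw [plane_nx, ← Function.iterate_succ_apply' (nx ω)]
      unfold at'
      rw [h0 _ h2 h3, zero_mul]
  rw [h1, h2, ← mul_sum]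
  congr 2
  push_cast
  rw [show Real.pi / 3 / 4 = Real.pi / 12 by ring]
  congr 1
  refine sum_congr rfl fun k _ => ?_
  rw [plane_turn]

theorem cos_p6 : 2 * Real.cos (Real.pi / 6) = √3 := by rw [Real.cos_pi_div_six]; ring

theorem abs_cos_p6 {x : ℝ} (h : x = Real.pi / 6 ∨ x = -(Real.pi / 6)) : |2 * Real.cos x| = √3 := by
  rcases h with rfl | rfl
  · rw [cos_p6, abs_of_nonneg (Real.sqrt_nonneg 3)]
  · rw [Real.cos_neg, cos_p6, abs_of_nonneg (Real.sqrt_nonneg 3)]

theorem abs_cos_p2 {x : ℝ} (h : x = Real.pi / 2 ∨ x = -(Real.pi / 2)) : |2 * Real.cos x| = 0 := by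
  rcases h with rfl | rfl
  · rw [Real.cos_pi_div_two]; simp
  · rw [Real.cos_neg, Real.cos_pi_div_two]; simp

/-- The phases of the faces: `u` for `t < p`, `u + j * π / 3` for `p ≤ t` on the face `false`, the
same plus `J` on the face `true`. -/
noncomputable def ΦW (u J : ℝ) (j p : ℤ) (t : ℤ) (b : Bool) : ℝ :=
  u + (if p ≤ t then j * (Real.pi / 3) else 0) + if b then J else 0

/-- **The table of the small strands of a straight segment.** `J = ± π / 6`; one jump `j π / 3` at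
the position `p`, far from the tips. -/
theorem wall_tab {ω : Cfg} {S : Finset Ed} {h : Bool} {c lo hi : ℤ} {d : ℝ} {t₀ : ℤ}
    (hN : Nr S h c lo hi (Ln h c t₀) d) (h1 : lo ≤ t₀) (h2 : t₀ < hi)
    (hr : Returns (nx ω) S (Ln h c t₀)) (hs : Small d (strand (nx ω) S (Ln h c t₀)))
    {a : Ed → Bool → ℝ} (h0 : ∀ x ∈ strand (nx ω) S (Ln h c t₀), x ≠ Ln h c t₀ → ∀ b, a x b = 0)
    {u J : ℝ} {j p : ℤ} (hJ : J = Real.pi / 6 ∨ J = -(Real.pi / 6))
    (hph : ∀ t, lo ≤ t → t < hi → PhF a h c (ΦW u J j p) t)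
    (hj : j = 0 ∨ ((j = 1 ∨ j = -1) ∧ lo + 2 * d + 1 ≤ p ∧ p + 2 * d + 1 ≤ hi)) :
    ∃ t₁, lo ≤ t₁ ∧ t₁ < hi ∧ (nx ω)^[ret (nx ω) S (Ln h c t₀)] (Ln h c t₀) = Ln h c t₁ ∧
      |2 * Real.cos (cang plane (Real.pi / 3) a ω (strand (nx ω) S (Ln h c t₀)))| ≤ √3 ∧
      (sg (Ln h c t₁) = sg (Ln h c t₀) → (hi - t₀ : ℝ) < d → J = -(Real.pi / 6) →
        2 * Real.cos (cang plane (Real.pi / 3) a ω (strand (nx ω) S (Ln h c t₀))) = 0) ∧
      (sg (Ln h c t₁) = sg (Ln h c t₀) → (t₀ - lo : ℝ) < d → J = Real.pi / 6 →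
        2 * Real.cos (cang plane (Real.pi / 3) a ω (strand (nx ω) S (Ln h c t₀))) = 0) ∧
      (sg (Ln h c t₁) = - sg (Ln h c t₀) → (t₁ < p ∧ p ≤ t₀ ∨ t₀ < p ∧ p ≤ t₁) →
        j = sg (Ln h c t₀) →
        2 * Real.cos (cang plane (Real.pi / 3) a ω (strand (nx ω) S (Ln h c t₀))) = 0) := by
  obtain ⟨t₁, h3, h4, h5, h6, h7⟩ := strand_tab hN h1 h2 hr hs
  have heS : Ln h c t₀ ∈ S := hN.sub t₀ h1 h2
  have hc := cang_strand heS hr h0
  rw [h5, ah_wall (hph t₀ h1 h2), at_wall (hph t₁ h3 h4)] at hc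
  have h8 := abs_lt.1 h6
  have hl := hN.len
  have s0 := sg_sq (Ln h c t₀)
  set T := ∑ x ∈ strand (nx ω) S (Ln h c t₀), trn ω x with hT
  set A := cang plane (Real.pi / 3) a ω (strand (nx ω) S (Ln h c t₀)) with hA
  have hd0 : 0 < d := by
    have := hs _ (mem_image_of_mem _ (self_mem_strand hr)) _
      (mem_image_of_mem _ (self_mem_strand hr))
    have h9 : nm (hdv (Ln h c t₀) - hdv (Ln h c t₀)) = 0 := by simp [nm]
    rw [h9] at this
    exact_mod_cast this
  have z3 : (0 : ℝ) ≤ √3 := Real.sqrt_nonneg 3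
  refine ⟨t₁, h3, h4, h5, ?_⟩
  rcases h7 with ⟨e1, e2⟩ | ⟨e1, e2, e3⟩ | ⟨e1, e2, e3⟩
  · -- same face
    have hval : (A = Real.pi / 6 ∨ A = -(Real.pi / 6)) ∨
        ((t₁ < p ∧ p ≤ t₀ ∨ t₀ < p ∧ p ≤ t₁) ∧
          (A = sg (Ln h c t₀) * (Real.pi / 6) + j * (Real.pi / 3) ∨
            A = - (sg (Ln h c t₀) * (Real.pi / 6) + j * (Real.pi / 3)))) := by
      rcases s0 with s0 | s0 <;> rw [s0] at e1 e2 hc ⊢ <;> rw [e1] at hc <;>
        simp only [ΦW] at hc <;> by_cases q1 : p ≤ t₀ <;> by_cases q2 : p ≤ t₁ <;>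
        by_cases q3 : t₁ < t₀ <;> simp only [q1, q2, if_true, if_false] at hc <;>
        simp only [q3, if_true, if_false] at e2 <;> rw [e2] at hc <;> norm_num at hc <;>
        first
        | (exfalso; omega)
        | (left; left; linarith)
        | (left; right; linarith)
        | (right; refine ⟨by omega, ?_⟩; left; push_cast; linarith)
        | (right; refine ⟨by omega, ?_⟩; right; push_cast; linarith)
    have hcase : (A = Real.pi / 6 ∨ A = -(Real.pi / 6)) ∨
        ((t₁ < p ∧ p ≤ t₀ ∨ t₀ < p ∧ p ≤ t₁) ∧ j = sg (Ln h c t₀) ∧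
          (A = Real.pi / 2 ∨ A = -(Real.pi / 2))) := by
      rcases hval with hv | ⟨hv1, hv2⟩
      · exact Or.inl hv
      · rcases hj with hj | ⟨hj | hj, -⟩ <;> rcases s0 with s0 | s0 <;> rw [hj, s0] at hv2 <;>
          push_cast at hv2 <;> rcases hv2 with hv2 | hv2 <;>
          first
          | (left; left; linarith)
          | (left; right; linarith)
          | (right; refine ⟨hv1, by rw [hj, s0], ?_⟩; left; linarith)
          | (right; refine ⟨hv1, by rw [hj, s0], ?_⟩; right; linarith)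
    have hne2 : sg (Ln h c t₁) ≠ sg (Ln h c t₀) := by
      rw [e1]; rcases s0 with s0 | s0 <;> rw [s0] <;> norm_num
    refine ⟨?_, fun h' => absurd h' hne2, fun h' => absurd h' hne2, ?_⟩
    · rcases hcase with hv | ⟨-, -, hv⟩
      · rw [abs_cos_p6 hv]
      · rw [abs_cos_p2 hv]; exact z3
    · intro _ hb hj'
      rw [← abs_eq_zero]
      have hv : A = Real.pi / 2 ∨ A = -(Real.pi / 2) := by
        rcases s0 with s0 | s0 <;> rw [s0] at e1 e2 hc hj' <;> rw [e1] at hc <;>
          simp only [ΦW] at hc <;> by_cases q1 : p ≤ t₀ <;> by_cases q2 : p ≤ t₁ <;>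
          by_cases q3 : t₁ < t₀ <;> simp only [q1, q2, if_true, if_false] at hc <;>
          simp only [q3, if_true, if_false] at e2 <;>
          first
          | (exfalso; omega)
          | (rw [e2, hj'] at hc; norm_num at hc; left; linarith)
          | (rw [e2, hj'] at hc; norm_num at hc; right; linarith)
      exact abs_cos_p2 hv
  · -- around the upper end
    have hp : p ≤ t₀ ∧ p ≤ t₁ ∨ j = 0 := by
      rcases hj with hj | ⟨-, -, hj⟩
      · exact Or.inr hj
      · left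
        constructor
        · have : (p : ℝ) < t₀ := by linarith
          exact_mod_cast this.le
        · have : (p : ℝ) < t₁ := by linarith
          exact_mod_cast this.le
    have hval : A = -(sg (Ln h c t₀) * (Real.pi / 3 - J)) := by
      rcases s0 with s0 | s0 <;> rw [s0] at e1 e3 hc ⊢ <;> rw [e1] at hc <;>
        simp only [ΦW] at hc <;> rcases hp with ⟨q1, q2⟩ | hp
      · simp only [q1, q2, if_true] at hc; rw [e3] at hc; norm_num at hc ⊢; linarith
      · rw [hp, e3] at hc; norm_num at hc ⊢; linarith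
      · simp only [q1, q2, if_true] at hc; rw [e3] at hc; norm_num at hc ⊢; linarith
      · rw [hp, e3] at hc; norm_num at hc ⊢; linarith
    have hne2 : sg (Ln h c t₁) ≠ - sg (Ln h c t₀) := by
      rw [e1]; rcases s0 with s0 | s0 <;> rw [s0] <;> norm_num
    have hlow : ¬ (t₀ - lo : ℝ) < d := by intro h'; linarith
    refine ⟨?_, ?_, fun _ h' => absurd h' hlow, fun h' => absurd h' hne2⟩
    · rcases hJ with hJ | hJ
      · rw [abs_cos_p6]
        rcases s0 with s0 | s0 <;> rw [s0, hJ] at hval <;> push_cast at hval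
        · right; linarith
        · left; linarith
      · rw [abs_cos_p2]
        · exact z3
        · rcases s0 with s0 | s0 <;> rw [s0, hJ] at hval <;> push_cast at hval
          · right; linarith
          · left; linarith
    · intro _ _ hJ'
      rw [← abs_eq_zero]
      apply abs_cos_p2
      rcases s0 with s0 | s0 <;> rw [s0, hJ'] at hval <;> push_cast at hval
      · right; linarith
      · left; linarith
  · -- around the lower end
    have hp : (¬ p ≤ t₀ ∧ ¬ p ≤ t₁) ∨ j = 0 := by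
      rcases hj with hj | ⟨-, hj, -⟩
      · exact Or.inr hj
      · left
        constructor
        · have : (t₀ : ℝ) < p := by linarith
          have : t₀ < p := by exact_mod_cast this
          omega
        · have : (t₁ : ℝ) < p := by linarith
          have : t₁ < p := by exact_mod_cast this
          omega
    have hval : A = sg (Ln h c t₀) * (Real.pi / 3 + J) := by
      rcases s0 with s0 | s0 <;> rw [s0] at e1 e3 hc ⊢ <;> rw [e1] at hc <;>
        simp only [ΦW] at hc <;> rcases hp with ⟨q1, q2⟩ | hp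
      · simp only [q1, q2, if_false] at hc; rw [e3] at hc; norm_num at hc ⊢; linarith
      · rw [hp, e3] at hc; norm_num at hc ⊢; linarith
      · simp only [q1, q2, if_false] at hc; rw [e3] at hc; norm_num at hc ⊢; linarith
      · rw [hp, e3] at hc; norm_num at hc ⊢; linarith
    have hne2 : sg (Ln h c t₁) ≠ - sg (Ln h c t₀) := by
      rw [e1]; rcases s0 with s0 | s0 <;> rw [s0] <;> norm_num
    have hup : ¬ (hi - t₀ : ℝ) < d := by intro h'; linarith
    refine ⟨?_, fun _ h' => absurd h' hup, ?_, fun h' => absurd h' hne2⟩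
    · rcases hJ with hJ | hJ
      · rw [abs_cos_p2]
        · exact z3
        · rcases s0 with s0 | s0 <;> rw [s0, hJ] at hval <;> push_cast at hval
          · left; linarith
          · right; linarith
      · rw [abs_cos_p6]
        rcases s0 with s0 | s0 <;> rw [s0, hJ] at hval <;> push_cast at hval
        · left; linarith
        · right; linarith
    · intro _ _ hJ'
      rw [← abs_eq_zero]
      apply abs_cos_p2
      rcases s0 with s0 | s0 <;> rw [s0, hJ'] at hval <;> push_cast at hval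
      · left; linarith
      · right; linarith

end Vale.Agent.P167.H945
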