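import Vale.Agent.P167.H945.Sym
import Vale.Agent.P167.H135.Flow3

/-!
# P167, block NORM: assembly of `HOS` (upper bound of `∫ |X|` for all admissible configurations)
from the comparison of the tip and flat probabilities at comparable scales
-/

namespace Vale.Agent.P167.H945

set_option linter.unusedSectionVars false

open Finset Filter MeasureTheory ProbabilityTheory
open Vale.Agent.P167.A (plane)
open Vale.Agent.P167.H685
open Vale.Agent.P167.H199
open Vale.Agent.P167.H825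

/-- Probability that there is no face to face strand at the standard tip in the centred box. -/
noncomputable def pT (R : ℤ) : ℝ := μ.real {ω | ¬ FFL (HL true (-1) 0 false) (cb R) ω}

/-- Probability that there is no strand over the standard flat point in the centred box. -/
noncomputable def pF (R : ℤ) : ℝ := μ.real {ω | ¬ FLL true (-1) 0 1 (cb R) ω}

/-- `z` bounds `p` at comparable scales. -/
def Cmp (p : ℤ → ℝ) (z : ℕ → ℝ) : Prop :=
  (∀ n, 0 ≤ z n) ∧ ∀ δ : ℝ, 0 < δ → ∃ C : ℝ, 0 < C ∧ ∀ᶠ n : ℕ in atTop, ∀ R : ℤ, δ * n ≤ R →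
    p R ≤ C * z n

/-- The tip of a wall. -/
def tip (w : Wall) : ℤ := if w.t then wlo w else whi w

section

variable {ι : Type} [Fintype ι] {W : WC ι} {κ R B : ℝ} {n : ℕ}

/-- Walls and jumps. -/
abbrev JJ (W : WC ι) : Type := ι ⊕ {i : ι // (W.w i).j ≠ 0}

/-- The wall of a tip or jump. -/
def wi (W : WC ι) : JJ W → ι := Sum.elim id Subtype.val

/-- The position of a tip or jump. -/
def cj (W : WC ι) : JJ W → ℤ × ℤ
  | Sum.inl i => ctr (W.w i).o (wc (W.w i)) (tip (W.w i))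
  | Sum.inr i => ctr (W.w i.1).o (wc (W.w i.1)) (wp' (W.w i.1))

/-- The event at a tip or jump. -/
def AJ (W : WC ι) (r : ℤ) : JJ W → Set Cfg
  | Sum.inl i => {ω | ¬ FFL (HL (W.w i).o (wc (W.w i)) (tip (W.w i)) (!(W.w i).t))
      (bl (ctr (W.w i).o (wc (W.w i)) (tip (W.w i))) r) ω}
  | Sum.inr i => {ω | ¬ FLL (W.w i.1).o (wc (W.w i.1)) (wp' (W.w i.1)) (wj (W.w i.1))
      (bl (ctr (W.w i.1).o (wc (W.w i.1)) (wp' (W.w i.1))) r) ω}

theorem wj_ne {w : Wall} (h : w.j ≠ 0) : wj w ≠ 0 := by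
  unfold wj
  cases w.o <;> simp [h]

theorem near_of {w : Wall} {T t : ℤ} (h1 : wlo w ≤ t) (h2 : t < whi w) (h3 : |T - t| ≤ 1) :
    ∃ k < w.L, nm (ctr w.o (wc w) T - w.pos k) ≤ 1 := by
  obtain ⟨k, hk, rfl⟩ := wt_surj w h1 h2
  refine ⟨k, hk, ?_⟩
  rw [pos_eq, e_eq, epos_Ln, ctr_sub]
  exact h3

theorem lt_hi (hA : W.Adm κ R B n) (hκn : 6 ≤ κ * n) (i : ι) :
    wlo (W.w i) + 5 < whi (W.w i) := by
  have h1 := len_ge hA i
  have : ((wlo (W.w i) + 5 : ℤ) : ℝ) < whi (W.w i) := by push_cast; linarith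
  exact_mod_cast this

theorem jump_in (hA : W.Adm κ R B n) (hκn : 6 ≤ κ * n) (i : ι) (hj : (W.w i).j ≠ 0) :
    (wj (W.w i) = 1 ∨ wj (W.w i) = -1) ∧ (wlo (W.w i) : ℝ) + (κ * n - 5) ≤ wp' (W.w i) ∧
      (wp' (W.w i) : ℝ) + (κ * n - 5) ≤ whi (W.w i) := by
  rcases jump_w hA (d := (κ * n - 6) / 2) (by linarith) i with h | ⟨h, h1, h2⟩
  · exact absurd h (wj_ne hj)
  · exact ⟨h, by linarith, by linarith⟩

theorem cj_near (hA : W.Adm κ R B n) (hκn : 6 ≤ κ * n) (j : JJ W) :
    ∃ k < (W.w (wi W j)).L, nm (cj W j - (W.w (wi W j)).pos k) ≤ 1 := by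
  rcases j with i | ⟨i, hi⟩
  · have h1 := lt_hi hA hκn i
    show ∃ k < (W.w i).L, nm (ctr (W.w i).o (wc (W.w i)) (tip (W.w i)) - (W.w i).pos k) ≤ 1
    unfold tip
    cases (W.w i).t
    · simp only [Bool.false_eq_true, if_false]
      exact near_of (t := whi (W.w i) - 1) (by omega) (by omega) (by simp)
    · simp only [if_true]
      exact near_of (t := wlo (W.w i)) (by omega) (by omega) (by simp)
  · obtain ⟨-, h1, h2⟩ := jump_in hA hκn i hi
    show ∃ k < (W.w i).L, nm (ctr (W.w i).o (wc (W.w i)) (wp' (W.w i)) - (W.w i).pos k) ≤ 1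
    refine near_of (t := wp' (W.w i)) ?_ ?_ (by simp)
    · have : (wlo (W.w i) : ℝ) ≤ wp' (W.w i) := by linarith
      exact_mod_cast this
    · have : (wp' (W.w i) : ℝ) < whi (W.w i) := by linarith
      exact_mod_cast this

theorem tip_jump (hA : W.Adm κ R B n) (hκn : 6 ≤ κ * n) (i : ι) (hj : (W.w i).j ≠ 0) :
    κ * n - 5 ≤ (nm (ctr (W.w i).o (wc (W.w i)) (tip (W.w i)) -
      ctr (W.w i).o (wc (W.w i)) (wp' (W.w i))) : ℝ) := by
  obtain ⟨-, h1, h2⟩ := jump_in hA hκn i hj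
  rw [ctr_sub]
  push_cast
  unfold tip
  cases (W.w i).t
  · simp only [Bool.false_eq_true, if_false]
    exact le_trans (by linarith) (le_abs_self _)
  · simp only [if_true]
    rw [abs_sub_comm]
    exact le_trans (by linarith) (le_abs_self _)

theorem cj_sep (hA : W.Adm κ R B n) (hκn : 6 ≤ κ * n) {j j' : JJ W} (hne : j ≠ j') :
    κ * n - 5 ≤ (nm (cj W j - cj W j') : ℝ) := by
  by_cases hw : wi W j = wi W j'
  · rcases j with i | ⟨i, hi⟩ <;> rcases j' with i' | ⟨i', hi'⟩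
    · exact absurd (congrArg Sum.inl (show i = i' from hw)) hne
    · obtain rfl : i = i' := hw
      exact tip_jump hA hκn i hi'
    · obtain rfl : i = i' := hw
      rw [Vale.Agent.P167.H45.nm_sub_comm]
      exact tip_jump hA hκn i hi
    · obtain rfl : i = i' := hw
      exact absurd rfl hne
  · obtain ⟨k, hk, h1⟩ := cj_near hA hκn j
    obtain ⟨k', hk', h2⟩ := cj_near hA hκn j'
    have h3 := hA.sep _ _ hw k hk k' hk'
    have b1 := Vale.Agent.P167.H45.nm_sub_le ((W.w (wi W j)).pos k) (cj W j)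
      ((W.w (wi W j')).pos k')
    have b2 := Vale.Agent.P167.H45.nm_sub_le (cj W j) (cj W j') ((W.w (wi W j')).pos k')
    rw [Vale.Agent.P167.H45.nm_sub_comm ((W.w (wi W j)).pos k) (cj W j)] at b1
    have h4 : (nm ((W.w (wi W j)).pos k - (W.w (wi W j')).pos k') : ℝ) ≤
        nm (cj W j - cj W j') + 2 := by
      have : nm ((W.w (wi W j)).pos k - (W.w (wi W j')).pos k') ≤ nm (cj W j - cj W j') + 2 := by
        linarith
      exact_mod_cast this
    linarith

theorem AJ_congr (r : ℤ) (j : JJ W) {ω ω' : Cfg} (h : ∀ v ∈ bl (cj W j) r, ω v = ω' v)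
    (hω : ω ∈ AJ W r j) : ω' ∈ AJ W r j := by
  rcases j with i | i
  · exact fun h' => hω (h'.congr fun v hv => (h v hv).symm)
  · exact fun h' => hω (h'.congr fun v hv => (h v hv).symm)

theorem AJ_zero (hA : W.Adm κ R B n) {d : ℝ} (hd : 2 * d + 6 ≤ κ * n) {r : ℤ}
    (hr : (2 * r : ℝ) < d) (hr0 : 0 ≤ r) {ω : Cfg} (j : JJ W) (h : ω ∉ AJ W r j) :
    Xc W.S W.ph ω = 0 := by
  rcases j with i | ⟨i, hi⟩
  · exact tip_zero hA hd hr hr0 i (by by_contra hc; exact h hc)
  · exact flat_zero hA hd hr hr0 i (wj_ne hi) (by by_contra hc; exact h hc)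

theorem AJ_le (hA : W.Adm κ R B n) (hκn : 6 ≤ κ * n) (r : ℤ) (j : JJ W) :
    μ.real (AJ W (r + 1) j) ≤ Sum.elim (fun _ => pT r) (fun _ => pF r) j := by
  rcases j with i | ⟨i, hi⟩
  · exact tip_std _ _ _ _ r
  · exact flat_std _ _ _ (jump_in hA hκn i hi).1 r

end

/-- **HOS** from the comparison of the probabilities at comparable scales. -/
theorem hos_of {zt zf : ℕ → ℝ} (hT : Cmp pT zt) (hF : Cmp pF zf) : HOS zt zf := by
  intro κ R B M hκ
  classical
  obtain ⟨κ0, hκ0, hsf⟩ := H135.small_flow κ R B hκ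
  set κ1 : ℝ := min κ0 (κ / 8) with hκ1
  have h1p : 0 < κ1 := lt_min hκ0 (by positivity)
  have h18 : κ1 ≤ κ / 8 := min_le_right _ _
  obtain ⟨Mg, N0, hMg, hsf⟩ := hsf κ1 h1p (min_le_left _ _)
  obtain ⟨ε, C, ρ0, hε, hC, hρ0, hno⟩ := no3_abs κ1 (max R 0 + 1) (2 * M) h1p (by positivity)
  set δ : ℝ := min ε (κ1 / 4) with hδ
  have hδ0 : 0 < δ := lt_min hε (by positivity)
  obtain ⟨hzt, hT⟩ := hT
  obtain ⟨hzf, hF⟩ := hF
  obtain ⟨CT, hCT, hT⟩ := hT (δ / 2) (by positivity)
  obtain ⟨CF, hCF, hF⟩ := hF (δ / 2) (by positivity)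
  refine ⟨C * (√Mg + 1) * (max CT 1 ^ M * max CF 1 ^ M), by positivity, ?_⟩
  have hn1 : ∀ᶠ n : ℕ in atTop, (1 : ℝ) ≤ n ∧ N0 ≤ n ∧ ρ0 ≤ n ∧ 12 / κ ≤ n ∧ 4 / δ ≤ n :=
    ((tendsto_natCast_atTop_atTop (R := ℝ)).eventually_ge_atTop 1).and
      (((tendsto_natCast_atTop_atTop (R := ℝ)).eventually_ge_atTop N0).and
        (((tendsto_natCast_atTop_atTop (R := ℝ)).eventually_ge_atTop ρ0).and
          (((tendsto_natCast_atTop_atTop (R := ℝ)).eventually_ge_atTop (12 / κ)).and
            ((tendsto_natCast_atTop_atTop (R := ℝ)).eventually_ge_atTop (4 / δ)))))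
  filter_upwards [hT, hF, hn1] with n hT hF hn ι _ W hι hA
  obtain ⟨hn1, hnN, hnρ, hnκ, hnδ⟩ := hn
  have hn0 : (0 : ℝ) < n := by linarith
  have hκn : 12 ≤ κ * n := by
    rwa [div_le_iff₀ hκ, mul_comm] at hnκ
  have hδn : 4 ≤ δ * n := by
    rwa [div_le_iff₀ hδ0, mul_comm] at hnδ
  have hd : 2 * (κ1 * n) + 6 ≤ κ * n := by
    have : κ1 * n ≤ κ / 8 * n := mul_le_mul_of_nonneg_right h18 hn0.le
    linarith
  have hd0 : 0 ≤ κ1 * n := by positivity
  -- the radius
  set r : ℤ := ⌊δ * n⌋ with hr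
  have hr1 : (r : ℝ) ≤ δ * n := Int.floor_le _
  have hr2 : δ * n < r + 1 := Int.lt_floor_add_one _
  have hr0 : 0 ≤ r := Int.floor_nonneg.2 (by linarith)
  have hrd : (2 * r : ℝ) < κ1 * n := by
    have h1 : δ * n ≤ κ1 / 4 * n := mul_le_mul_of_nonneg_right (min_le_right _ _) hn0.le
    have h2 : 0 < κ1 * n := by positivity
    linarith
  have hrε : (r : ℝ) ≤ ε * n :=
    hr1.trans (mul_le_mul_of_nonneg_right (min_le_left _ _) hn0.le)
  -- the flow
  obtain ⟨F, g, hF1, hF2, hF3, hF4, hF5⟩ := hsf n hnN W.c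
    {p | ∃ i, ∃ k < (W.w i).L, (W.w i).pos k = p}
    (fun e he => ⟨(hA.csup e he).1, by
      rintro p ⟨i, k, hk, rfl⟩
      exact (hA.csup e he).2 i k hk⟩) hA.dle
  -- the edges
  obtain ⟨F0, hF0⟩ := Vale.Agent.P167.H45.box_fin 0 ⌊R * n⌋
  set E : Finset Ed := F0.image Sum.inl ∪ F0.image Sum.inr with hE
  have memE : ∀ e : Ed, e ∈ E ↔ (nm (epos e) : ℝ) ≤ R * n := by
    intro e
    rw [← Int.le_floor]
    have : nm (epos e) = nm (epos e - 0) := by rw [sub_zero]
    rw [this, ← hF0]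
    rcases e with v | v <;> simp [hE, epos]
  have hSE : W.S ⊆ E := by
    intro e he
    obtain ⟨i, k, hk, rfl⟩ := mem_WS.1 he
    rw [memE, ← pos_eq]
    exact hA.box i k hk
  have hcE : ∀ e, W.c e ≠ 0 → e ∈ E := fun e he => (memE e).2 (hA.csup e he).1
  -- the balls
  choose Bf hBf using fun j : JJ W => bl_fin (cj W j) r
  have hJ : Fintype.card (JJ W) ≤ 2 * M := by
    rw [Fintype.card_sum]
    have := Fintype.card_subtype_le fun i : ι => (W.w i).j ≠ 0
    omega
  have hκn6 : 6 ≤ κ * n := by linarith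
  have key := hno n hnρ (0, 0) (JJ W) hJ (cj W) Bf ?_ ?_ (AJ W r) ?_ F g ?_ hF2
    (fun ω => (hF3 ω).le) Mg hMg hF4 W.S E W.ph hSE ?_ ?_ ?_ ?_
  · -- conclusion
    have h1 : ∫ ω, |W.X ω| ∂μ = (√3)⁻¹ ^ W.S.card * ∫ ω, |Xc W.S W.ph ω| ∂μ := by
      rw [← integral_const_mul]
      refine integral_congr_ae (Eventually.of_forall fun ω => ?_)
      show |W.X ω| = _
      unfold WC.X
      rw [abs_mul, abs_of_nonneg (by positivity)]
    have hp0 : ∀ j : JJ W, 0 ≤ μ.real (AJ W r j) := fun j => measureReal_nonneg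
    have h2 : ∏ j : JJ W, μ.real (AJ W r j) ≤
        (max CT 1 ^ M * max CF 1 ^ M) * (zt n ^ Fintype.card ι * zf n ^ W.jumps) := by
      have h3 : ∀ j : JJ W, μ.real (AJ W r j) ≤
          Sum.elim (fun _ => max CT 1 * zt n) (fun _ => max CF 1 * zf n) j := by
        intro j
        have h4 := AJ_le hA hκn6 (r - 1) j
        rw [sub_add_cancel] at h4
        have h5 : δ / 2 * n ≤ ((r - 1 : ℤ) : ℝ) := by push_cast; linarith
        refine h4.trans ?_
        rcases j with i | i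
        · exact (hT _ h5).trans (mul_le_mul_of_nonneg_right (le_max_left _ _) (hzt n))
        · exact (hF _ h5).trans (mul_le_mul_of_nonneg_right (le_max_left _ _) (hzf n))
      have hnj : W.jumps = Fintype.card {i : ι // (W.w i).j ≠ 0} := by
        unfold WC.jumps
        rw [Fintype.card_subtype]
      have hjM : W.jumps ≤ M := by
        rw [hnj]
        exact (Fintype.card_subtype_le _).trans hι
      calc ∏ j : JJ W, μ.real (AJ W r j)
          ≤ ∏ j : JJ W, Sum.elim (fun _ => max CT 1 * zt n) (fun _ => max CF 1 * zf n) j :=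
            prod_le_prod (fun j _ => hp0 j) fun j _ => h3 j
        _ = (max CT 1 * zt n) ^ Fintype.card ι * (max CF 1 * zf n) ^ W.jumps := by
            rw [Fintype.prod_sum_type, hnj]
            simp
        _ = (max CT 1 ^ Fintype.card ι * max CF 1 ^ W.jumps) *
              (zt n ^ Fintype.card ι * zf n ^ W.jumps) := by
            rw [mul_pow, mul_pow]; ring
        _ ≤ _ := by
            have := hzt n
            have := hzf n
            refine mul_le_mul_of_nonneg_right ?_ (by positivity)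
            exact mul_le_mul (pow_le_pow_right₀ (le_max_right _ _) hι)
              (pow_le_pow_right₀ (le_max_right _ _) hjM) (by positivity) (by positivity)
    have h3 : (√3)⁻¹ ^ W.S.card * √3 ^ W.S.card = 1 := by
      rw [← mul_pow, inv_mul_cancel₀ (by positivity), one_pow]
    rw [h1]
    have hz1 := hzt n
    have hz2 := hzf n
    calc (√3)⁻¹ ^ W.S.card * ∫ ω, |Xc W.S W.ph ω| ∂μ
        ≤ (√3)⁻¹ ^ W.S.card * (C * √Mg * √3 ^ W.S.card * ∏ j : JJ W, μ.real (AJ W r j)) :=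
          mul_le_mul_of_nonneg_left key (by positivity)
      _ = ((√3)⁻¹ ^ W.S.card * √3 ^ W.S.card) * (C * √Mg * ∏ j : JJ W, μ.real (AJ W r j)) := by
          ring
      _ = C * √Mg * ∏ j : JJ W, μ.real (AJ W r j) := by rw [h3, one_mul]
      _ ≤ C * (√Mg + 1) * ((max CT 1 ^ M * max CF 1 ^ M) *
            (zt n ^ Fintype.card ι * zf n ^ W.jumps)) := by
          refine mul_le_mul ?_ h2 (prod_nonneg fun j _ => hp0 j) (by positivity)
          exact mul_le_mul_of_nonneg_left (by linarith) hC.le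
      _ = _ := by ring
  · -- disjoint balls
    intro j j' hne
    rw [Finset.disjoint_left]
    intro v hv hv'
    have h1 : nm (v - cj W j) ≤ r := (hBf j v).1 hv
    have h2 : nm (v - cj W j') ≤ r := (hBf j' v).1 hv'
    have h3 := cj_sep hA hκn6 hne
    have h4 := Vale.Agent.P167.H45.nm_sub_le (cj W j) v (cj W j')
    rw [Vale.Agent.P167.H45.nm_sub_comm (cj W j) v] at h4
    have h5 : (nm (cj W j - cj W j') : ℝ) ≤ 2 * r := by
      have : nm (cj W j - cj W j') ≤ 2 * r := by linarith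
      exact_mod_cast this
    linarith
  · intro j v hv
    have h1 : nm (v - cj W j) ≤ r := (hBf j v).1 hv
    have h2 : (nm (v - cj W j) : ℝ) ≤ r := by exact_mod_cast h1
    exact h2.trans hrε
  · intro j ω ω' hw hω
    exact AJ_congr r j (fun v hv => hw v ((hBf j v).2 hv)) hω
  · -- the flow is away from the balls
    intro j
    rw [Finset.disjoint_left]
    intro v hv hv'
    have h1 : nm (v - cj W j) ≤ r := (hBf j v).1 hv'
    obtain ⟨k, hk, h2⟩ := cj_near hA hκn6 j
    have h3 := hF1 v hv _ ⟨wi W j, k, hk, rfl⟩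
    have h4 := Vale.Agent.P167.H45.nm_sub_le v (cj W j) ((W.w (wi W j)).pos k)
    have h5 : (nm (v - (W.w (wi W j)).pos k) : ℝ) ≤ r + 1 := by
      have : nm (v - (W.w (wi W j)).pos k) ≤ r + 1 := by linarith
      exact_mod_cast this
    linarith
  · -- the phases vanish off `E`
    intro e he b
    rw [ph_woff (fun h => he (hSE h))]
    have : W.c e = 0 := by
      by_contra hc
      exact he (hcE e hc)
    rw [this, zero_div]
  · intro e he
    have h1 := (memE e).1 he
    have h2 := hdv_epos e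
    have h3 := Vale.Agent.P167.H45.nm_sub_le (hdv e) (epos e) 0
    rw [sub_zero, sub_zero] at h3
    have h4 : (nm (hdv e - (0, 0)) : ℝ) ≤ nm (epos e) + 1 := by
      have h5 : hdv e - (0, 0) = hdv e := by
        rw [show ((0 : ℤ), (0 : ℤ)) = 0 from rfl, sub_zero]
      rw [h5]
      have : nm (hdv e) ≤ nm (epos e) + 1 := by linarith
      exact_mod_cast this
    refine h4.trans ?_
    have h6 : R * n ≤ max R 0 * n := mul_le_mul_of_nonneg_right (le_max_left _ _) hn0.le
    linarith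
  · exact Eventually.of_forall fun ω => fun ⟨j, hj⟩ => AJ_zero hA hd hrd hr0 j hj
  · filter_upwards [s_fin] with ω hω
    refine smP_le hA hd hd0 hω E ?_
    have h1 := hF5 ω W.S E W.ph ?_ ?_ hcE
    · convert h1
    · intro e he
      obtain ⟨i, k, hk, rfl⟩ := mem_WS.1 he
      exact ⟨i, k, hk, pos_eq _ _⟩
    · intro e he
      rw [ph_woff he, ph_woff he]
      ring

end Vale.Agent.P167.H945
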