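import Vale.Agent.P167.H945.HosT
import Vale.Agent.P167.H135.FlatArm

/-!
# P167, block NORM: `HOS`, final form
-/

namespace Vale.Agent.P167.H945

open Finset Filter MeasureTheory ProbabilityTheory
open Vale.Agent.P167.H825

/-- The flat probabilities at comparable scales (input: `H135.flat_ge`). -/
theorem cmp_flat : Cmp pF fun n => pF n := by
  refine Cmp.of_int (q := pF) (fun _ => measureReal_nonneg) fun Λ => ?_
  obtain ⟨C, hC, h⟩ := H135.flat_ge Λ
  exact ⟨C, hC, 1, fun R L hR hL hRL => h R L hR hL (by omega)⟩

/-- **HOS**: block NORM. -/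
theorem hos : HOS (fun n => μ.real (H662.TipOk (0, 0) n)) fun n => pF n := hos_tip cmp_flat

end Vale.Agent.P167.H945
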