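import Vale.Agent.P167.H945.Wall

/-!
# P167, block START [MB]: walls which are only locally isolated
-/

namespace Vale.Agent.P167.H945

set_option linter.unusedSectionVars false

open Finset MeasureTheory ProbabilityTheory
open Vale.Agent.P167.A (plane)
open Vale.Agent.P167.H685
open Vale.Agent.P167.H199
open Vale.Agent.P167.H825

section LA

variable {ι : Type} [Fintype ι] {W : WC ι} {d : ℝ}

/-- Weak form of `WC.Adm` at the scale `d`: the walls may come near each other. -/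
structure LAdm (W : WC ι) (d : ℝ) : Prop where
  disj : ∀ i i', i ≠ i' → ∀ k < (W.w i).L, ∀ k' < (W.w i').L, (W.w i).e k ≠ (W.w i').e k'
  len : ∀ i, 2 * d ≤ (W.w i).L
  jump : ∀ i, wj (W.w i) = 0 ∨ ((wj (W.w i) = 1 ∨ wj (W.w i) = -1) ∧
    wlo (W.w i) + 2 * d + 1 ≤ wp' (W.w i) ∧ wp' (W.w i) + 2 * d + 1 ≤ whi (W.w i))
  coff : ∀ e, W.c e ≠ 0 → ∀ i, ∀ k < (W.w i).L, d + 2 ≤ (nm (epos e - (W.w i).pos k) : ℝ)

/-- Near `e` there is only the wall of `e`. -/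
def Lc (W : WC ι) (d : ℝ) (e : Ed) : Prop :=
  ∀ i, e ∈ (W.w i).S → ∀ f ∈ W.S, (nm (hdv f - hdv e) : ℝ) < d + 1 → f ∈ (W.w i).S

theorem LAdm.uniq (hA : LAdm W d) {i i' : ι} {k k' : ℕ} (hk : k < (W.w i).L)
    (hk' : k' < (W.w i').L) (h : (W.w i).e k = (W.w i').e k') : i = i' := by
  by_contra hne
  exact hA.disj i i' hne k hk k' hk' h

theorem LAdm.c_e (hA : LAdm W d) (hd : 0 ≤ d) {i : ι} {k : ℕ} (hk : k < (W.w i).L) :
    W.c ((W.w i).e k) = 0 := by
  by_contra hc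
  have := hA.coff _ hc i k hk
  rw [pos_eq, nm_self] at this
  push_cast at this
  linarith

theorem LAdm.ph_we (hA : LAdm W d) (hd : 0 ≤ d) {i : ι} {k : ℕ} (hk : k < (W.w i).L)
    (b : Bool) : W.ph ((W.w i).e k) b = if b then (W.w i).u k + (W.w i).J else - (W.w i).u k := by
  classical
  unfold WC.ph
  rw [hA.c_e hd hk, zero_div, add_zero, sum_eq_single i]
  · exact ph_e _ hk b
  · intro i' _ hne
    refine ph_off _ (fun h => hne ?_) b
    obtain ⟨k', hk', he⟩ := (mem_S _).1 h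
    exact hA.uniq hk' hk he
  · intro h
    exact absurd (mem_univ _) h

theorem LAdm.phF_w (hA : LAdm W d) (hd : 0 ≤ d) (i : ι) {t : ℤ} (h1 : wlo (W.w i) ≤ t)
    (h2 : t < whi (W.w i)) :
    PhF W.ph (W.w i).o (wc (W.w i)) (ΦW (wu (W.w i)) (W.w i).J (wj (W.w i)) (wp' (W.w i))) t := by
  obtain ⟨k, hk, rfl⟩ := wt_surj _ h1 h2
  unfold PhF
  rw [← e_eq, hA.ph_we hd hk, hA.ph_we hd hk, ΦW_true, ← u_eq]
  simp

theorem mem_wall {w : Wall} {t : ℤ} (h1 : wlo w ≤ t) (h2 : t < whi w) :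
    Ln w.o (wc w) t ∈ w.S := by
  obtain ⟨k, hk, rfl⟩ := wt_surj w h1 h2
  rw [← e_eq]
  exact (mem_S w).2 ⟨k, hk, rfl⟩

theorem LAdm.nr_w (hA : LAdm W d) (i : ι) {t : ℤ} (h1 : wlo (W.w i) ≤ t) (h2 : t < whi (W.w i))
    (hL : Lc W d (Ln (W.w i).o (wc (W.w i)) t)) :
    Nr W.S (W.w i).o (wc (W.w i)) (wlo (W.w i)) (whi (W.w i)) (Ln (W.w i).o (wc (W.w i)) t) d := by
  refine ⟨fun s h3 h4 => ?_, fun f hf hfd => ?_, ?_⟩
  · obtain ⟨l, hl, rfl⟩ := wt_surj _ h3 h4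
    rw [← e_eq]
    exact mem_WS.2 ⟨i, l, hl, rfl⟩
  · obtain ⟨k', hk', rfl⟩ := (mem_S _).1 (hL i (mem_wall h1 h2) f hf hfd)
    have h7 := wt_mem (W.w i) hk'
    exact ⟨wt (W.w i) k', h7.1, h7.2, e_eq _ _⟩
  · have h5 := whi_sub (W.w i)
    have h6 : ((whi (W.w i) : ℝ) - wlo (W.w i)) = (W.w i).L := by
      have : ((whi (W.w i) - wlo (W.w i) : ℤ) : ℝ) = (((W.w i).L : ℤ) : ℝ) := by rw [h5]
      push_cast at this
      exact this
    rw [h6]
    exact hA.len i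

theorem LAdm.off_strand (hA : LAdm W d) {ω : Cfg} {i : ι}
    {t : ℤ} (h1 : wlo (W.w i) ≤ t) (h2 : t < whi (W.w i))
    (hs : Small d (strand (nx ω) W.S (Ln (W.w i).o (wc (W.w i)) t)))
    (hr : Returns (nx ω) W.S (Ln (W.w i).o (wc (W.w i)) t)) :
    ∀ x ∈ strand (nx ω) W.S (Ln (W.w i).o (wc (W.w i)) t),
      x ≠ Ln (W.w i).o (wc (W.w i)) t → ∀ b, W.ph x b = 0 := by
  intro x hx hne b
  have hxS : x ∉ W.S := fun h => hne (strand_inter hx h)
  rw [ph_woff hxS]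
  have hc : W.c x = 0 := by
    by_contra hc
    obtain ⟨k, hk, hk'⟩ := wt_surj _ h1 h2
    have h3 := hA.coff x hc i k hk
    have h4 := hs _ (mem_image_of_mem _ hx) _ (mem_image_of_mem _ (self_mem_strand hr))
    rw [pos_eq, e_eq, hk'] at h3
    set e := Ln (W.w i).o (wc (W.w i)) t
    have a1 := hdv_epos x
    have a2 := hdv_epos e
    have b1 := Vale.Agent.P167.H45.nm_sub_le (epos x) (hdv x) (epos e)
    have b2 := Vale.Agent.P167.H45.nm_sub_le (hdv x) (hdv e) (epos e)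
    rw [Vale.Agent.P167.H45.nm_sub_comm (epos x) (hdv x)] at b1
    have h5 : (nm (epos x - epos e) : ℝ) ≤ nm (hdv x - hdv e) + 2 := by
      have : nm (epos x - epos e) ≤ nm (hdv x - hdv e) + 2 := by linarith
      exact_mod_cast this
    linarith
  rw [hc, zero_div]

/-- The zero flat point. -/
theorem LAdm.flat_zero (hA : LAdm W d) (hd0 : 0 ≤ d) {ω : Cfg} (i : ι) (_hj : wj (W.w i) ≠ 0)
    {B : Set (ℤ × ℤ)} (hB : ∀ u ∈ B, ∀ v ∈ B, (nm (u - v) : ℝ) < d)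
    (hin : ∀ t, (hdv (Ln (W.w i).o (wc (W.w i)) t) ∈ B ∨ tlv (Ln (W.w i).o (wc (W.w i)) t) ∈ B) →
      wlo (W.w i) ≤ t ∧ t < whi (W.w i) ∧ Lc W d (Ln (W.w i).o (wc (W.w i)) t))
    (hf : FLL (W.w i).o (wc (W.w i)) (wp' (W.w i)) (wj (W.w i)) B ω) :
    Xc W.S W.ph ω = 0 := by
  obtain ⟨t₀, t₁, m, hm, he1, hint, hbox, hs0, hs1, hsep⟩ := hf
  obtain ⟨i1, i2, i3⟩ := hin t₀ (Or.inl (hbox 0 (by omega)))
  obtain ⟨i4, i5, -⟩ := hin t₁ (Or.inr (by
    obtain ⟨l, rfl⟩ : ∃ l, m = l + 1 := ⟨m - 1, by omega⟩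
    rw [← he1, Function.iterate_succ_apply', tlv_nx]
    exact hbox l (by omega)))
  have hN := hA.nr_w i i1 i2 i3
  have hR := ret_of (S := W.S) hm (by rw [he1]; exact hN.sub t₁ i4 i5) (fun l hl hlm hS => by
    have h7 := hB _ (hbox l hlm) _ (hbox 0 (by omega))
    simp only [Function.iterate_zero, id] at h7
    obtain ⟨t, -, -, ht⟩ := hN.near _ hS (by linarith)
    exact hint l hl hlm t ht)
  have q3 : Small d (strand (nx ω) W.S (Ln (W.w i).o (wc (W.w i)) t₀)) := by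
    intro u hu v hv
    obtain ⟨x, hx, rfl⟩ := mem_image.1 hu
    obtain ⟨y, hy, rfl⟩ := mem_image.1 hv
    obtain ⟨a, ha, rfl⟩ := mem_strand.1 hx
    obtain ⟨b, hb, rfl⟩ := mem_strand.1 hy
    rw [hR.2] at ha hb
    exact hB _ (hbox a ha) _ (hbox b hb)
  obtain ⟨t₁', -, -, h5, -, -, -, h8⟩ := wall_tab hN i1 i2 hR.1 q3
    (hA.off_strand i1 i2 q3 hR.1) (J_cases _) (fun t => hA.phF_w hd0 i) (hA.jump i)
  rw [hR.2, he1] at h5
  have h9 : t₁ = t₁' := Ln_inj h5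
  subst h9
  refine Xc_zero (hN.sub t₀ i1 i2) (h8 (by rw [hs0, hs1]) hsep hs0.symm)

open Classical in
/-- The product over the small loops and strands is at most `√3 ^ |S|` times the product over the
small loops, if this holds for the strands which do not start at a locally isolated edge. -/
theorem LAdm.smP_le (hA : LAdm W d) (hd0 : 0 ≤ d) {ω : Cfg}
    (hg : ∀ e : Ed, ∃ ℓ, IsLoop ω ℓ ∧ e ∈ ℓ) (E : Finset Ed) {g : ℝ}
    (hl : (∏ ℓ ∈ (LE ω E).filter (fun ℓ => Disjoint ℓ W.S ∧ Small d ℓ),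
      |2 * Real.cos (cang plane (Real.pi / 3) W.ph ω ℓ)|) ≤ g)
    (ht : ∀ e ∈ W.S, ¬ Lc W d e → Returns (nx ω) W.S e → Small d (strand (nx ω) W.S e) →
      |2 * Real.cos (cang plane (Real.pi / 3) W.ph ω (strand (nx ω) W.S e))| ≤ √3) :
    smP W.S E W.ph d ω ≤ √3 ^ W.S.card * g := by
  have h3 : (1 : ℝ) ≤ √3 := by
    rw [Real.one_le_sqrt]; norm_num
  have hg0 : 0 ≤ g := le_trans (prod_nonneg fun _ _ => abs_nonneg _) hl
  have hst : ∏ e ∈ W.S.filter (fun e => Small d (strand (nx ω) W.S e)),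
      |2 * Real.cos (cang plane (Real.pi / 3) W.ph ω (strand (nx ω) W.S e))| ≤ √3 ^ W.S.card := by
    calc ∏ e ∈ W.S.filter (fun e => Small d (strand (nx ω) W.S e)),
          |2 * Real.cos (cang plane (Real.pi / 3) W.ph ω (strand (nx ω) W.S e))|
        ≤ ∏ _e ∈ W.S.filter (fun e => Small d (strand (nx ω) W.S e)), √3 := by
          refine prod_le_prod (fun _ _ => abs_nonneg _) fun e he => ?_
          rw [mem_filter] at he
          obtain ⟨heS, hs⟩ := he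
          have hr : Returns (nx ω) W.S e := by
            obtain ⟨ℓ, h1, h2⟩ := hg e
            exact returns_of_loop h1 h2 heS
          by_cases hL : Lc W d e
          · obtain ⟨i, k, hk, hke⟩ := mem_WS.1 heS
            rw [e_eq] at hke
            have hm := wt_mem (W.w i) hk
            subst hke
            obtain ⟨t₁, -, -, -, h6, -⟩ := wall_tab (hA.nr_w i hm.1 hm.2 hL) hm.1 hm.2 hr hs
              (hA.off_strand hm.1 hm.2 hs hr) (J_cases _)
              (fun t => hA.phF_w hd0 i) (hA.jump i)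
            exact h6
          · exact ht e heS hL hr hs
      _ = √3 ^ (W.S.filter (fun e => Small d (strand (nx ω) W.S e))).card := by rw [prod_const]
      _ ≤ √3 ^ W.S.card := pow_le_pow_right₀ h3 (card_filter_le _ _)
  unfold smP
  rw [mul_comm]
  have h4 : 0 ≤ ∏ ℓ ∈ (LE ω E).filter (fun ℓ => Disjoint ℓ W.S ∧ Small d ℓ),
      |2 * Real.cos (cang plane (Real.pi / 3) W.ph ω ℓ)| := prod_nonneg fun _ _ => abs_nonneg _
  exact mul_le_mul hst hl h4 (by positivity)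

end LA

end Vale.Agent.P167.H945
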