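import Vale.Agent.P167.H945.MbW

/-!
# P167, block START [MB]: `LAdm` for the polygon with holes and the closed polygon
-/

namespace Vale.Agent.P167.H945

set_option linter.unusedSectionVars false

open Finset MeasureTheory ProbabilityTheory
open Vale.Agent.P167.A (plane)
open Vale.Agent.P167.H685
open Vale.Agent.P167.H199
open Vale.Agent.P167.H825
open Vale.Agent.P167.E6 (IsPolygon Encloses dir)

section

variable {l : ℕ} [NeZero l] {p : ZMod l → ℤ × ℤ} {Q : Marks} {n d : ℕ} {c : Ed → ℝ} {κg dd : ℝ}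

theorem ws_we (hG : Gaps l Q κg) (hQ : Q.Ok) {i j : ℕ} (hi : i < l) (hj : j ≤ Q.m)
    (hd : (d : ℝ) ≤ κg / 8 * n) (hn : 16 ≤ κg * n) :
    (ws p Q n d i j : ℝ) + κg / 2 * n ≤ we p Q n d i j := by
  have h1 := ws_up (p := p) (n := n) (d := d) hQ (i := i) hj
  have h2 := we_low (p := p) (Q := Q) (n := n) (d := d) i j
  have h3 := mul_le_mul_of_nonneg_right (hG.gap i hi j hj) (Nat.cast_nonneg (α := ℝ) n)
  rw [add_mul] at h3
  linarith

theorem base_in (hG : Gaps l Q κg) (hQ : Q.Ok) {j : ℕ} (hj : j ≤ Q.m)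
    (h1 : Q.θ 0 j < Q.tp) (h2 : Q.tp < Q.θ 0 (j + 1))
    (hd : (d : ℝ) ≤ κg / 8 * n) (hn : 16 ≤ κg * n) :
    (ws p Q n d 0 j : ℝ) + κg / 2 * n ≤ ⌊Q.tp * n⌋₊ ∧
      (⌊Q.tp * n⌋₊ : ℝ) + κg / 2 * n ≤ we p Q n d 0 j := by
  have k1 := ws_up (p := p) (n := n) (d := d) hQ (i := 0) hj
  have k2 := we_low (p := p) (Q := Q) (n := n) (d := d) 0 j
  have k3 := fl_lower (Q.tp * n)
  have k4 := fl_upper (x := Q.tp * n) (mul_nonneg hQ.tp0.le (Nat.cast_nonneg _))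
  have k5 := mul_le_mul_of_nonneg_right (hG.lo j (by omega) h1) (Nat.cast_nonneg (α := ℝ) n)
  have k6 := mul_le_mul_of_nonneg_right (hG.hi (j + 1) (by omega) h2) (Nat.cast_nonneg (α := ℝ) n)
  rw [add_mul] at k5 k6
  constructor <;> linarith

theorem base_inF (hG : Gaps l Q κg) (hQ : Q.Ok) (hn : 16 ≤ κg * n) :
    κg / 2 * n ≤ ⌊Q.tp * n⌋₊ ∧ (⌊Q.tp * n⌋₊ : ℝ) + κg / 2 * n ≤ n := by
  have k3 := fl_lower (Q.tp * n)
  have k4 := fl_upper (x := Q.tp * n) (mul_nonneg hQ.tp0.le (Nat.cast_nonneg _))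
  have k5 := mul_le_mul_of_nonneg_right hG.t0 (Nat.cast_nonneg (α := ℝ) n)
  have k6 := mul_le_mul_of_nonneg_right hG.t1 (Nat.cast_nonneg (α := ℝ) n)
  rw [add_mul, one_mul] at k6
  have k7 := Nat.cast_nonneg (α := ℝ) n
  constructor <;> nlinarith

theorem pwall_some {j : ℕ} (h1 : Q.θ 0 j < Q.tp) (h2 : Q.tp < Q.θ 0 (j + 1)) :
    ∃ a, pwall p Q n d 0 j = sideWall ((n : ℤ) • p (0 : ℕ)) (pdir p 0) (ws p Q n d 0 j)
      (we p Q n d 0 j) a (some ⌊Q.tp * n⌋₊) := by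
  refine ⟨Real.pi / 12 * ptau p 0 + if (0 : ℕ) = 0 ∧ Q.θ 0 j < Q.tp then Real.pi / 3 else 0, ?_⟩
  unfold pwall
  rw [if_pos (c := (0 : ℕ) = 0 ∧ Q.θ 0 j < Q.tp ∧ Q.tp < Q.θ 0 (j + 1)) ⟨rfl, h1, h2⟩]
  rfl

theorem pwall_none {i j : ℕ} (h : ¬ (i = 0 ∧ Q.θ 0 j < Q.tp ∧ Q.tp < Q.θ 0 (j + 1))) :
    (pwall p Q n d i j).j = 0 := by
  unfold pwall
  rw [if_neg h]
  exact sideWall_j0 _ _ _ _ _

theorem fwall_some : ∃ a, H662.fwall p Q n 0 = sideWall ((n : ℤ) • p (0 : ℕ)) (pdir p 0) 0 n a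
    (some ⌊Q.tp * n⌋₊) := by
  refine ⟨Real.pi / 12 * ptau p 0 + if (0 : ℕ) = 0 then Real.pi / 3 else 0, ?_⟩
  unfold H662.fwall
  rw [if_pos (c := (0 : ℕ) = 0) rfl, if_pos (c := (0 : ℕ) = 0) rfl]

theorem fwall_none {i : ℕ} (h : i ≠ 0) : (H662.fwall p Q n i).j = 0 := by
  unfold H662.fwall
  rw [if_neg (c := i = 0) (t := some ⌊Q.tp * n⌋₊) h]
  exact sideWall_j0 _ _ _ _ _

theorem wj_zero {w : Wall} (h : w.j = 0) : wj w = 0 := by
  unfold wj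
  cases w.o <;> simp [h]

theorem ladm_PW (hp : IsPolygon p) (hQ : Q.Ok) (hG : Gaps l Q κg) (hd9 : 9 ≤ d) (hn5 : 5 ≤ n)
    (hd : (d : ℝ) ≤ κg / 8 * n) (hn : 16 ≤ κg * n) (_hdd : 0 ≤ dd) (hdd' : 2 * dd + 1 ≤ κg / 2 * n)
    (hfl : ∀ e, c e ≠ 0 → ∀ f ∈ (PW p Q n d c).S, dd + 2 ≤ (nm (epos e - epos f) : ℝ)) :
    LAdm (PW p Q n d c) dd := by
  refine ⟨fun x y hne k hk k' hk' he => ?_, fun x => ?_, fun x => ?_, fun e he x k hk => ?_⟩
  · have h1 : ((PW p Q n d c).w x).e k ∈ ((PW p Q n d c).w x).S := (mem_S _).2 ⟨k, hk, rfl⟩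
    have h2 : ((PW p Q n d c).w x).e k ∈ ((PW p Q n d c).w y).S := (mem_S _).2 ⟨k', hk', he.symm⟩
    rcases pw_near hp hQ (by omega) hne h1 h2 with h | ⟨z, hz⟩
    · rw [nm_self] at h; omega
    · rw [nm_self] at hz
      have := pw_hole hp hQ (by omega) h1 z
      omega
  · have h1 := ws_we (p := p) hG hQ x.1.isLt (j := x.2) (by have := x.2.isLt; omega) hd hn
    have h2 : ((PW p Q n d c).w x).L = we p Q n d x.1 x.2 - ws p Q n d x.1 x.2 :=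
      sideWall_L _ _ _ _ _ _
    have h4 : 0 ≤ κg / 2 * n := by linarith
    have h3 : ws p Q n d x.1 x.2 ≤ we p Q n d x.1 x.2 := by
      have : (ws p Q n d x.1 x.2 : ℝ) ≤ we p Q n d x.1 x.2 := by linarith
      exact_mod_cast this
    rw [h2, Nat.cast_sub h3]
    linarith
  · by_cases h : ((x.1 : ℕ) = 0 ∧ Q.θ 0 x.2 < Q.tp ∧ Q.tp < Q.θ 0 (x.2 + 1))
    · right
      obtain ⟨h1, h2, h3⟩ := h
      obtain ⟨a, ha⟩ := pwall_some (p := p) (n := n) (d := d) h2 h3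
      obtain ⟨k1, k2⟩ := base_in (p := p) hG hQ (by have := x.2.isLt; omega) h2 h3 hd hn
      have k3 := sideWall_jump (z := (n : ℤ) • p (0 : ℕ)) (r := pdir p 0) (a := a)
        (x := κg / 2 * n) (by linarith) k1 k2
      have e : (PW p Q n d c).w x = pwall p Q n d 0 x.2 := by
        show pwall p Q n d x.1 x.2 = _
        rw [h1]
      rw [← ha, ← e] at k3
      obtain ⟨m1, m2, m3⟩ := jump_conv k3
      exact ⟨m1, by linarith, by linarith⟩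
    · left
      exact wj_zero (pwall_none h)
  · rw [pos_eq]
    exact hfl e he _ (mem_WS.2 ⟨x, k, hk, rfl⟩)

theorem ladm_PF (hp : IsPolygon p) (hQ : Q.Ok) (hG : Gaps l Q κg) (hn5 : 5 ≤ n)
    (hn : 16 ≤ κg * n) (_hdd : 0 ≤ dd) (hdd' : 2 * dd + 1 ≤ κg / 2 * n)
    (hfl : ∀ e, c e ≠ 0 → ∀ f ∈ (H662.PF p Q n c).S, dd + 2 ≤ (nm (epos e - epos f) : ℝ)) :
    LAdm (H662.PF p Q n c) dd := by
  have hn0 : (0 : ℝ) ≤ n := Nat.cast_nonneg _
  refine ⟨fun i i' hne k hk k' hk' he => ?_, fun i => ?_, fun i => ?_, fun e he i k hk => ?_⟩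
  · have h1 : ((H662.PF p Q n c).w i).e k ∈ ((H662.PF p Q n c).w i).S := (mem_S _).2 ⟨k, hk, rfl⟩
    have h2 : ((H662.PF p Q n c).w i).e k ∈ ((H662.PF p Q n c).w i').S :=
      (mem_S _).2 ⟨k', hk', he.symm⟩
    exact fwall_disj hp (by omega) i.isLt i'.isLt (fun h => hne (Fin.ext h)) h1 h2
  · have h2 : ((H662.PF p Q n c).w i).L = n - 0 := sideWall_L _ _ _ _ _ _
    rw [h2, Nat.sub_zero]
    have := hG.le1
    nlinarith
  · by_cases h : (i : ℕ) = 0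
    · right
      obtain ⟨a, ha⟩ := fwall_some (p := p) (Q := Q) (n := n)
      obtain ⟨k1, k2⟩ := base_inF hG hQ hn
      have k3 := sideWall_jump (z := (n : ℤ) • p (0 : ℕ)) (r := pdir p 0) (a := a) (s := 0)
        (x := κg / 2 * n) (by linarith) (by simpa using k1) k2
      have e : (H662.PF p Q n c).w i = H662.fwall p Q n 0 := by
        show H662.fwall p Q n i = _
        rw [h]
      rw [← ha, ← e] at k3
      obtain ⟨m1, m2, m3⟩ := jump_conv k3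
      exact ⟨m1, by linarith, by linarith⟩
    · left
      exact wj_zero (fwall_none h)
  · rw [pos_eq]
    exact hfl e he _ (mem_WS.2 ⟨i, k, hk, rfl⟩)

/-- If an edge is not locally isolated then it is near a hole. -/
theorem near_PW (hp : IsPolygon p) (hQ : Q.Ok) (hd : 1 ≤ d) (hdn : dd + 5 ≤ n) {e : Ed}
    (h : ¬ Lc (PW p Q n d c) dd e) : ∃ z, (nm (hdv e - H662.hsite p Q n z) : ℝ) ≤ dd + 7 := by
  obtain ⟨x, y, hne, h1, f, h2, h3⟩ := not_Lc h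
  rcases pw_near hp hQ hd hne h1 h2 with h | ⟨z, hz⟩
  · have : (n : ℝ) ≤ nm (hdv f - hdv e) + 4 := by exact_mod_cast h
    linarith
  · refine ⟨z, ?_⟩
    have : (nm (hdv e - H662.hsite p Q n z) : ℝ) ≤ nm (hdv f - hdv e) + 6 := by exact_mod_cast hz
    linarith

theorem near_PF (hp : IsPolygon p) (hQ : Q.Ok) (hdn : dd + 5 ≤ n) {e : Ed}
    (h : ¬ Lc (H662.PF p Q n c) dd e) :
    ∃ z, (nm (hdv e - H662.hsite p Q n z) : ℝ) ≤ dd + 7 := by
  obtain ⟨x, y, hne, h1, f, h2, h3⟩ := not_Lc h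
  rcases pf_near hp hQ hne h1 h2 with h | ⟨z, hz⟩
  · have : (n : ℝ) ≤ nm (hdv f - hdv e) + 4 := by exact_mod_cast h
    linarith
  · refine ⟨z, ?_⟩
    have : (nm (hdv e - H662.hsite p Q n z) : ℝ) ≤ nm (hdv f - hdv e) + 6 := by exact_mod_cast hz
    linarith

/-- All points of a small strand are near its first edge. -/
theorem strand_near {ω : Cfg} {S : Finset Ed} {e : Ed} (hr : Returns (nx ω) S e)
    (hs : Small dd (strand (nx ω) S e)) {i : ℕ} (hi : i ≤ ret (nx ω) S e) :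
    (nm (hdv ((nx ω)^[i] e) - hdv e) : ℝ) ≤ dd + 1 := by
  have key : ∀ i < ret (nx ω) S e, (nm (hdv ((nx ω)^[i] e) - hdv e) : ℝ) < dd := fun i hi =>
    hs _ (mem_image_of_mem _ (mem_strand.2 ⟨i, hi, rfl⟩)) _
      (mem_image_of_mem _ (self_mem_strand hr))
  rcases Nat.lt_or_ge i (ret (nx ω) S e) with h | h
  · exact (key i h).le.trans (by linarith)
  · obtain ⟨k, hk⟩ : ∃ k, i = k + 1 := ⟨i - 1, by have := hr.spec.1; omega⟩
    subst hk
    have h1 := key k (by omega)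
    have h2 : (nm (hdv ((nx ω)^[k + 1] e) - hdv ((nx ω)^[k] e)) : ℝ) ≤ 1 := by
      have h3 := nm_ht ((nx ω)^[k + 1] e)
      rw [Function.iterate_succ_apply', tlv_nx, ← Function.iterate_succ_apply' (nx ω) k e] at h3
      exact_mod_cast h3
    have h3 := tri (hdv ((nx ω)^[k + 1] e)) (hdv ((nx ω)^[k] e)) (hdv e)
    linarith

end

end Vale.Agent.P167.H945
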