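import Vale.Agent.P167.H945.MbX
import Vale.Agent.P167.H945.MbV

/-!
# P167, block START: [MB], the upper bound for the polygon with holes and for the closed polygon
-/

namespace Vale.Agent.P167.H945

set_option linter.unusedSectionVars false

open Finset MeasureTheory ProbabilityTheory
open Vale.Agent.P167.A (plane)
open Vale.Agent.P167.H685 (s_fin)
open Vale.Agent.P167.H199
open Vale.Agent.P167.H825
open Vale.Agent.P167.H662 (TAB GEO MB GeoAt TipD FlatD hsite tsite PF Ray bal FFD)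
open Vale.Agent.P167.H166 (bxx mem_bxx)
open Vale.Agent.P167.E6 (IsPolygon Encloses dir)

section

variable {l : ℕ} [NeZero l] {p : ZMod l → ℤ × ℤ} {Q : Marks} {n d : ℕ} {c : Ed → ℝ}
  {κT κG κg dd : ℝ}

/-- The table at the holes, at a fixed scale. -/
def TabAt (p : ZMod l → ℤ × ℤ) (Q : Marks) (n d : ℕ) (c : Ed → ℝ) (κ0 : ℝ) : Prop :=
  ∀ (x : Fin l × Fin (Q.m + 1)) (ω : Cfg) (e : Ed) (k : ℕ), 1 ≤ k →
    (∀ i ≤ k, (nm (hdv ((nx ω)^[i] e) - hsite p Q n x) : ℝ) ≤ κ0 * n) →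
    (e ∈ (PW p Q n d c).S → (nx ω)^[k] e ∈ (PW p Q n d c).S →
      (∀ i, 0 < i → i < k → (nx ω)^[i] e ∉ (PW p Q n d c).S) →
      2 * Real.cos (H199.cang A.plane (Real.pi / 3) (PW p Q n d c).ph ω
        (H199.strand (nx ω) (PW p Q n d c).S e)) =
      if e ∈ ((PW p Q n d c).w x).S ∧ (nx ω)^[k] e ∈ ((PW p Q n d c).w x).S ∧
        sg ((nx ω)^[k] e) = sg e then 0 else √3) ∧
    (e ∈ (PF p Q n c).S → (nx ω)^[k] e ∈ (PF p Q n c).S →
      (∀ i, 0 < i → i < k → (nx ω)^[i] e ∉ (PF p Q n c).S) →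
      2 * Real.cos (H199.cang A.plane (Real.pi / 3) (PF p Q n c).ph ω
        (H199.strand (nx ω) (PF p Q n c).S e)) = √3)

theorem ret_min {ω : Cfg} {S : Finset Ed} {e : Ed} : ∀ i, 0 < i → i < ret (nx ω) S e →
    (nx ω)^[i] e ∉ S := by
  intro i h1 h2 h3
  have := ret_le (f := nx ω) h1 h3
  omega

theorem tab_PW (hp : IsPolygon p) (hQ : Q.Ok) (hT : TabAt p Q n d c κT) (hd : 1 ≤ d)
    (hdn : dd + 5 ≤ n) (h8 : 2 * dd + 8 ≤ κT * n) {ω : Cfg} {e : Ed} (he : e ∈ (PW p Q n d c).S)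
    (hL : ¬ Lc (PW p Q n d c) dd e) (hr : Returns (nx ω) (PW p Q n d c).S e)
    (hs : Small dd (strand (nx ω) (PW p Q n d c).S e)) :
    |2 * Real.cos (cang plane (Real.pi / 3) (PW p Q n d c).ph ω
      (strand (nx ω) (PW p Q n d c).S e))| ≤ √3 := by
  obtain ⟨z, hz⟩ := near_PW hp hQ hd hdn hL
  have h1 := (hT z ω e (ret (nx ω) (PW p Q n d c).S e) hr.spec.1 (fun i hi => by
    have k1 := strand_near hr hs hi
    have k2 := tri (hdv ((nx ω)^[i] e)) (hdv e) (hsite p Q n z)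
    linarith)).1 he hr.spec.2 ret_min
  rw [h1]
  split_ifs
  · rw [abs_zero]; positivity
  · rw [abs_of_nonneg (by positivity)]

theorem tab_PF (hp : IsPolygon p) (hQ : Q.Ok) (hT : TabAt p Q n d c κT)
    (hdn : dd + 5 ≤ n) (h8 : 2 * dd + 8 ≤ κT * n) {ω : Cfg} {e : Ed} (he : e ∈ (PF p Q n c).S)
    (hL : ¬ Lc (PF p Q n c) dd e) (hr : Returns (nx ω) (PF p Q n c).S e)
    (hs : Small dd (strand (nx ω) (PF p Q n c).S e)) :
    |2 * Real.cos (cang plane (Real.pi / 3) (PF p Q n c).ph ω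
      (strand (nx ω) (PF p Q n c).S e))| ≤ √3 := by
  obtain ⟨z, hz⟩ := near_PF hp hQ hdn hL
  have h1 := (hT z ω e (ret (nx ω) (PF p Q n c).S e) hr.spec.1 (fun i hi => by
    have k1 := strand_near hr hs hi
    have k2 := tri (hdv ((nx ω)^[i] e)) (hdv e) (hsite p Q n z)
    linarith)).2 he hr.spec.2 ret_min
  rw [h1, abs_of_nonneg (by positivity)]

/-- The tips of the polygon with holes. -/
theorem tip_PW (hp : IsPolygon p) (hQ : Q.Ok) (hG : Gaps l Q κg) {D : Finset (ℤ × ℤ)}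
    (hGe : GeoAt p D Q n d κG) (hT : TabAt p Q n d c κT) (hd9 : 9 ≤ d)
    (hd : (d : ℝ) ≤ κg / 8 * n) (hn : 16 ≤ κg * n) {R : ℤ} (hRd : R + 5 ≤ d) (hRn : R + 5 ≤ n)
    (hRG : (R : ℝ) + 1 ≤ κG * n) (hRT : (R : ℝ) + 1 + (d + 1) ≤ κT * n)
    (x : Fin l × Fin (Q.m + 1)) {ω : Cfg} (hω : ω ∉ TipD (pdir p x.1) (tsite p Q n d x) R) :
    Xc (PW p Q n d c).S (PW p Q n d c).ph ω = 0 := by
  have hF : FFD (Ray (pdir p x.1) (tsite p Q n d x)) (bal (tsite p Q n d x) R) ω := by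
    by_contra h
    exact hω h
  obtain ⟨e, k, h1, h2, h3, h4, h5, h6⟩ := hF
  have near : ∀ i ≤ k, nm (hdv ((nx ω)^[i] e) - tsite p Q n d x) ≤ R + 1 := by
    intro i hi
    rcases Nat.lt_or_ge i k with h | h
    · have : nm (hdv ((nx ω)^[i] e) - tsite p Q n d x) ≤ R := h5 i h
      linarith
    · obtain ⟨m, hm⟩ : ∃ m, i = m + 1 := ⟨i - 1, by omega⟩
      subst hm
      have k1 : nm (hdv ((nx ω)^[m] e) - tsite p Q n d x) ≤ R := h5 m (by omega)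
      have k2 := nm_ht ((nx ω)^[m + 1] e)
      rw [Function.iterate_succ_apply', tlv_nx, ← Function.iterate_succ_apply' (nx ω) m e] at k2
      have k3 := Vale.Agent.P167.H45.nm_sub_le (hdv ((nx ω)^[m + 1] e)) (hdv ((nx ω)^[m] e))
        (tsite p Q n d x)
      linarith
  have nearR : ∀ i ≤ k, (nm (hdv ((nx ω)^[i] e) - tsite p Q n d x) : ℝ) ≤ R + 1 := fun i hi => by
    exact_mod_cast near i hi
  have e1 : e ∈ ((PW p Q n d c).w x).S :=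
    hGe.long x e h2 ((nearR 0 (Nat.zero_le _)).trans hRG)
  have e2 : (nx ω)^[k] e ∈ ((PW p Q n d c).w x).S :=
    hGe.long x _ h3 ((nearR k le_rfl).trans hRG)
  have sub : ∀ x, ((PW p Q n d c).w x).S ⊆ (PW p Q n d c).S := fun x f hf => by
    obtain ⟨k, hk, hk'⟩ := (mem_S _).1 hf
    exact mem_WS.2 ⟨x, k, hk, hk'⟩
  have e3 : ∀ i, 0 < i → i < k → (nx ω)^[i] e ∉ (PW p Q n d c).S := by
    intro i hi hik hS
    obtain ⟨y, m, hm, hm'⟩ := mem_WS.1 hS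
    have hy : (nx ω)^[i] e ∈ ((PW p Q n d c).w y).S := (mem_S _).2 ⟨m, hm, hm'⟩
    by_cases hxy : x = y
    · rw [← hxy] at hy
      exact h4 i hi hik (hGe.ray x _ hy).1
    · have hxl := x.2.isLt
      have hyl := y.2.isLt
      obtain ⟨t', b1, b2, b3⟩ := mem_PW.1 hy
      obtain ⟨c1, c2, -, -⟩ := wall_pt hQ (by omega) (by omega) b1 b2
      have a1 := (ws_ge (p := p) (Q := Q) n d x.1 x.2).1
      have a2 : ws p Q n d x.1 x.2 + d ≤ ⌊Q.θ x.1 (x.2 + 1) * n⌋₊ := by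
        have k1 := ws_up (p := p) (n := n) (d := d) hQ (i := x.1) (j := x.2) (by omega)
        have k2 := fl_lower (Q.θ x.1 (x.2 + 1) * n)
        have k3 := mul_le_mul_of_nonneg_right (hG.gap x.1 x.1.isLt x.2 (by omega))
          (Nat.cast_nonneg (α := ℝ) n)
        rw [add_mul] at k3
        have : ((ws p Q n d x.1 x.2 + d : ℕ) : ℝ) ≤ ⌊Q.θ x.1 (x.2 + 1) * n⌋₊ := by
          push_cast
          linarith
        exact_mod_cast this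
      have k4 : nm (pq p n x.1 (ws p Q n d x.1 x.2) - pq p n y.1 t') ≤ R + 3 := by
        have m1 := near i hik.le
        have m2 := hdv_pq (p := p) (n := n) y.1 t'
        rw [← b3] at m2
        have m3 := tri4 (tsite p Q n d x) (hdv ((nx ω)^[i] e)) (hdv ((nx ω)^[i] e))
          (pq p n y.1 t')
        rw [nm_self] at m3
        rw [← tsite_eq]
        linarith
      rcases sep_walls hp hQ hxy a1 a2 c1 c2 with h | ⟨z, hz⟩
      · omega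
      · have := hole_dist hp hQ (d := d) x z a1 a2
        omega
  have e4 := (hT x ω e k h1 (fun i hi => by
    have k1 := nearR i hi
    have k2 := tri (hdv ((nx ω)^[i] e)) (tsite p Q n d x) (hsite p Q n x)
    have k3 : (nm (tsite p Q n d x - hsite p Q n x) : ℝ) ≤ d + 1 := by
      exact_mod_cast (hGe.tip x).1
    linarith)).1 (sub x e1) (sub x e2) e3
  rw [if_pos ⟨e1, e2, h6⟩] at e4
  exact Xc_zero (sub x e1) e4

/-- The base point of the polygon with holes. -/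
theorem flat_PW (hp : IsPolygon p) (hQ : Q.Ok) (hG : Gaps l Q κg) {D : Finset (ℤ × ℤ)}
    (hGe : GeoAt p D Q n d κG) (hA : LAdm (PW p Q n d c) dd) (hdd : 0 ≤ dd) (hd9 : 9 ≤ d)
    (hd : (d : ℝ) ≤ κg / 8 * n) (hn : 16 ≤ κg * n) (hdn : dd + 5 ≤ n) {R : ℤ} (hR0 : 0 ≤ R)
    (hR : (2 * R : ℝ) < dd) (hRG : dd + 7 + (R + 1) < κG * n) {ω : Cfg}
    (hω : ω ∉ FlatD (pdir p 0) (bsite p Q n) R) :
    Xc (PW p Q n d c).S (PW p Q n d c).ph ω = 0 := by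
  obtain ⟨j, hj, h1, h2⟩ := exists_base hQ
  obtain ⟨a, ha⟩ := pwall_some (p := p) (n := n) (d := d) h1 h2
  obtain ⟨k1, k2⟩ := base_in (p := p) hG hQ hj h1 h2 hd hn
  have k3 : 0 ≤ κg / 2 * n := by linarith
  have e1 : ws p Q n d 0 j ≤ ⌊Q.tp * n⌋₊ := by
    have : (ws p Q n d 0 j : ℝ) ≤ ⌊Q.tp * n⌋₊ := by linarith
    exact_mod_cast this
  have e2 : ⌊Q.tp * n⌋₊ ≤ we p Q n d 0 j := by
    have : (⌊Q.tp * n⌋₊ : ℝ) ≤ we p Q n d 0 j := by linarith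
    exact_mod_cast this
  have hb : bsite p Q n = qs (pdir p 0) ((n : ℤ) • p (0 : ℕ)) ⌊Q.tp * n⌋₊ := by
    unfold bsite qs
    rw [Nat.cast_zero]
  rw [hb] at hω
  refine hA.flatD_zero hdd ((⟨0, Nat.pos_of_ne_zero (NeZero.ne l)⟩ : Fin l),
    (⟨j, by omega⟩ : Fin (Q.m + 1))) ha e1 e2 hR0 hR (fun f _ hf => ?_) hω
  by_contra hL
  obtain ⟨z, hz⟩ := near_PW hp hQ (by omega) hdn hL
  have k4 := hGe.farb z
  rw [← hb] at hf
  have k5 : (nm (hdv f - bsite p Q n) : ℝ) ≤ R + 1 := by exact_mod_cast hf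
  have k6 := tri (hsite p Q n z) (hdv f) (bsite p Q n)
  rw [comm' (hsite p Q n z) (hdv f)] at k6
  linarith

/-- The base point of the closed polygon. -/
theorem flat_PF (hp : IsPolygon p) (hQ : Q.Ok) (hG : Gaps l Q κg) {D : Finset (ℤ × ℤ)}
    (hGe : GeoAt p D Q n d κG) (hA : LAdm (PF p Q n c) dd) (hdd : 0 ≤ dd)
    (hn : 16 ≤ κg * n) (hdn : dd + 5 ≤ n) {R : ℤ} (hR0 : 0 ≤ R)
    (hR : (2 * R : ℝ) < dd) (hRG : dd + 7 + (R + 1) < κG * n) {ω : Cfg}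
    (hω : ω ∉ FlatD (pdir p 0) (bsite p Q n) R) :
    Xc (PF p Q n c).S (PF p Q n c).ph ω = 0 := by
  obtain ⟨a, ha⟩ := fwall_some (p := p) (Q := Q) (n := n)
  obtain ⟨k1, k2⟩ := base_inF hG hQ hn
  have k3 : 0 ≤ κg / 2 * n := by linarith
  have e2 : ⌊Q.tp * n⌋₊ ≤ n := by
    have : (⌊Q.tp * n⌋₊ : ℝ) ≤ n := by linarith
    exact_mod_cast this
  have hb : bsite p Q n = qs (pdir p 0) ((n : ℤ) • p (0 : ℕ)) ⌊Q.tp * n⌋₊ := by
    unfold bsite qs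
    rw [Nat.cast_zero]
  rw [hb] at hω
  refine hA.flatD_zero hdd (⟨0, Nat.pos_of_ne_zero (NeZero.ne l)⟩ : Fin l) ha (Nat.zero_le _) e2
    hR0 hR (fun f _ hf => ?_) hω
  by_contra hL
  obtain ⟨z, hz⟩ := near_PF hp hQ hdn hL
  have k4 := hGe.farb z
  rw [← hb] at hf
  have k5 : (nm (hdv f - bsite p Q n) : ℝ) ≤ R + 1 := by exact_mod_cast hf
  have k6 := tri (hsite p Q n z) (hdv f) (bsite p Q n)
  rw [comm' (hsite p Q n z) (hdv f)] at k6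
  linarith

end

/-- Bound for the size of the polygon. -/
theorem exists_R {l : ℕ} [NeZero l] (p : ZMod l → ℤ × ℤ) (S₀ : Finset (ℤ × ℤ)) : ∃ R : ℝ, 1 ≤ R ∧
    (∀ s ∈ S₀, (nm s : ℝ) + 1 ≤ R) ∧ ∀ i : ZMod l, (nm (p i) : ℝ) + 2 ≤ R := by
  classical
  set I : Finset ℝ := (S₀.image fun s => (nm s : ℝ) + 1) ∪
    (univ.image fun i : ZMod l => (nm (p i) : ℝ) + 2) ∪ {1} with hI
  have hne : I.Nonempty := ⟨1, by rw [hI]; simp⟩
  have hmax : ∀ y ∈ I, y ≤ I.max' hne := fun y hy => I.le_max' y hy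
  refine ⟨I.max' hne, hmax 1 (by rw [hI]; simp), fun s hs => hmax _ ?_, fun i => hmax _ ?_⟩
  · rw [hI, mem_union, mem_union]
    exact Or.inl (Or.inl (mem_image_of_mem _ hs))
  · rw [hI, mem_union, mem_union]
    exact Or.inl (Or.inr (mem_image_of_mem _ (mem_univ i)))

/-- Numerical facts at the scale `n`. -/
structure Num (κ κ' κ1 κT κG κg δ ε : ℝ) (n d : ℕ) : Prop where
  b1 : 32 ≤ κ' * n
  b2 : 16 ≤ δ * n
  b3 : 16 ≤ κ1 * n
  b4 : 4 * (κ' * n) ≤ κT * n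
  b5 : 8 * (κ' * n) ≤ κG * n
  b6 : 8 * (κ' * n) ≤ κg * n
  b7 : 4 * (κ' * n) ≤ κ * n
  b8 : 4 * (κ' * n) ≤ n
  b9 : 8 * (κ1 * n) ≤ κ' * n
  b10 : 8 * (δ * n) ≤ κ' * n
  b11 : κ1 * n ≤ ε * n
  b12 : δ * n ≤ ε * n
  b13 : (d : ℝ) ≤ δ * n
  b14 : δ * n - 1 < d

section

variable {l : ℕ} [NeZero l] {p : ZMod l → ℤ × ℤ} {Q : Marks} {n d : ℕ} {c : Ed → ℝ}
  {κ κ' κ1 κT κG κg δ ε R B : ℝ} {S₀ : Finset (ℤ × ℤ)}

theorem Num.d9 (h : Num κ κ' κ1 κT κG κg δ ε n d) : 9 ≤ d := by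
  have := h.b2
  have := h.b14
  have : (9 : ℝ) < d + 1 := by linarith
  have : 9 < d + 1 := by exact_mod_cast this
  omega

theorem Num.n5 (h : Num κ κ' κ1 κT κG κg δ ε n d) : 5 ≤ n := by
  have := h.b1
  have := h.b8
  have : (5 : ℝ) ≤ n := by linarith
  exact_mod_cast this

theorem Num.dg (h : Num κ κ' κ1 κT κG κg δ ε n d) : (d : ℝ) ≤ κg / 8 * n := by
  have := h.b13
  have := h.b10
  have := h.b6
  have := h.b2
  linarith

theorem Num.g16 (h : Num κ κ' κ1 κT κG κg δ ε n d) : 16 ≤ κg * n := by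
  have := h.b1
  have := h.b6
  linarith

theorem Num.dd0 (h : Num κ κ' κ1 κT κG κg δ ε n d) : 0 ≤ κ' * n := by
  have := h.b1
  linarith

theorem Num.dd1 (h : Num κ κ' κ1 κT κG κg δ ε n d) : 2 * (κ' * n) + 1 ≤ κg / 2 * n := by
  have := h.b1
  have := h.b6
  linarith

theorem ceb (hRS : ∀ s ∈ S₀, (nm s : ℝ) + 1 ≤ R) (hκ : 0 ≤ κ) (hc : FlowIn (enl S₀ n) κ B n c)
    {e : Ed} (he : c e ≠ 0) : (nm (epos e) : ℝ) ≤ R * n := by
  have hnn : (0 : ℝ) ≤ n := Nat.cast_nonneg n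
  have h1 : epos e ∈ enl S₀ n := hc.sup e he _ (by rw [nm_self]; push_cast; positivity)
  obtain ⟨s, hs, h2⟩ := enl_bd h1
  have h3 : (nm (epos e) : ℝ) ≤ n * (nm s + 1) := by exact_mod_cast h2
  have h4 := mul_le_mul_of_nonneg_left (hRS s hs) hnn
  linarith

theorem posb (hRp : ∀ i : ZMod l, (nm (p i) : ℝ) + 2 ≤ R) (hn : 1 ≤ n) (i : ℕ) {t : ℕ}
    (ht : t ≤ n) : (nm (epos (sed (pdir p i) ((n : ℤ) • p i) t)) : ℝ) ≤ R * n := by
  have hn1 : (1 : ℝ) ≤ n := by exact_mod_cast hn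
  have h1 := pq_bd (p := p) (n := n) (i := i) (t := t) (by omega) (by exact_mod_cast ht)
  have h2 := epos_pq (p := p) (n := n) i t
  have h3 := Vale.Agent.P167.H45.nm_sub_le (epos (sed (pdir p i) ((n : ℤ) • p i) t))
    (pq p n i t) 0
  rw [sub_zero, sub_zero] at h3
  have h4 : (nm (epos (sed (pdir p i) ((n : ℤ) • p i) t)) : ℝ) ≤ 1 + n * (nm (p i) + 1) := by
    exact_mod_cast (by linarith : nm (epos (sed (pdir p i) ((n : ℤ) • p i) t)) ≤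
      1 + n * (nm (p i) + 1))
  have h5 := mul_le_mul_of_nonneg_left (hRp i) (by linarith : (0 : ℝ) ≤ n)
  linarith

theorem boxW (hQ : Q.Ok) (hRp : ∀ i : ZMod l, (nm (p i) : ℝ) + 2 ≤ R) (hn : 1 ≤ n) (hd : 1 ≤ d)
    (x : Fin l × Fin (Q.m + 1)) {k : ℕ} (hk : k < ((PW p Q n d c).w x).L) :
    (nm (((PW p Q n d c).w x).pos k) : ℝ) ≤ R * n := by
  have hx := x.2.isLt
  obtain ⟨t, h1, h2, h3⟩ := mem_PW.1 ((mem_S _).2 ⟨k, hk, rfl⟩)
  rw [pos_eq, h3]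
  obtain ⟨-, -, -, h4⟩ := wall_pt hQ (by omega) hd h1 h2
  exact posb hRp hn _ (by omega)

theorem boxF (hRp : ∀ i : ZMod l, (nm (p i) : ℝ) + 2 ≤ R) (hn : 1 ≤ n)
    (x : Fin l) {k : ℕ} (hk : k < ((PF p Q n c).w x).L) :
    (nm (((PF p Q n c).w x).pos k) : ℝ) ≤ R * n := by
  obtain ⟨t, h2, h3⟩ := mem_PF.1 ((mem_S _).2 ⟨k, hk, rfl⟩)
  rw [pos_eq, h3]
  exact posb hRp hn _ (by omega)

/-- An edge of a wall near a point of the side. -/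
theorem wall_near {w : Wall} {i : ℕ} {t : ℕ} {x : ℝ} (hx : 1 ≤ x)
    (hf : sed (pdir p i) ((n : ℤ) • p i) t ∈ w.S) :
    ∃ k < w.L, (nm (pq p n i t - w.pos k) : ℝ) ≤ x := by
  obtain ⟨k, hk, hk'⟩ := (mem_S _).1 hf
  refine ⟨k, hk, ?_⟩
  rw [pos_eq, hk', comm']
  have h1 : (nm (epos (sed (pdir p i) ((n : ℤ) • p i) t) - pq p n i t) : ℝ) ≤ 1 := by
    exact_mod_cast epos_pq (p := p) (n := n) i t
  linarith

theorem bsite_pq : bsite p Q n = pq p n 0 ⌊Q.tp * n⌋₊ := by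
  unfold bsite pq qs
  rw [Nat.cast_zero]

theorem wallW (hG : Gaps l Q κg) (hQ : Q.Ok) (h : Num κ κ' κ1 κT κG κg δ ε n d) {x : ℝ}
    (hx : 1 ≤ x) : ∃ i, ∃ k < ((PW p Q n d c).w i).L,
      (nm (bsite p Q n - ((PW p Q n d c).w i).pos k) : ℝ) ≤ x := by
  obtain ⟨j0, hj0, u1, u2⟩ := exists_base hQ
  obtain ⟨v1, v2⟩ := base_in (p := p) hG hQ hj0 u1 u2 h.dg h.g16
  have h16 := h.g16
  have w1 : ws p Q n d 0 j0 ≤ ⌊Q.tp * n⌋₊ := by
    have : (ws p Q n d 0 j0 : ℝ) ≤ ⌊Q.tp * n⌋₊ := by linarith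
    exact_mod_cast this
  have w2 : ⌊Q.tp * n⌋₊ < we p Q n d 0 j0 := by
    have : (⌊Q.tp * n⌋₊ : ℝ) < we p Q n d 0 j0 := by linarith
    exact_mod_cast this
  refine ⟨((⟨0, Nat.pos_of_ne_zero (NeZero.ne l)⟩ : Fin l), (⟨j0, by omega⟩ : Fin (Q.m + 1))), ?_⟩
  rw [bsite_pq]
  exact wall_near (i := 0) hx (mem_pwall.2 ⟨_, w1, w2, rfl⟩)

theorem wallF (hG : Gaps l Q κg) (hQ : Q.Ok) (h : Num κ κ' κ1 κT κG κg δ ε n d) {x : ℝ}
    (hx : 1 ≤ x) : ∃ i, ∃ k < ((PF p Q n c).w i).L,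
      (nm (bsite p Q n - ((PF p Q n c).w i).pos k) : ℝ) ≤ x := by
  obtain ⟨v1, v2⟩ := base_inF hG hQ h.g16
  have h16 := h.g16
  have w2 : ⌊Q.tp * n⌋₊ < n := by
    have : (⌊Q.tp * n⌋₊ : ℝ) < n := by linarith
    exact_mod_cast this
  refine ⟨(⟨0, Nat.pos_of_ne_zero (NeZero.ne l)⟩ : Fin l), ?_⟩
  rw [bsite_pq]
  exact wall_near (i := 0) hx (mem_fwall.2 ⟨_, w2, rfl⟩)

theorem wallT (hG : Gaps l Q κg) (hQ : Q.Ok) (h : Num κ κ' κ1 κT κG κg δ ε n d) {r : ℝ}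
    (hr : 1 ≤ r) (x : Fin l × Fin (Q.m + 1)) : ∃ i, ∃ k < ((PW p Q n d c).w i).L,
      (nm (tsite p Q n d x - ((PW p Q n d c).w i).pos k) : ℝ) ≤ r := by
  have hx := x.2.isLt
  have h16 := h.g16
  have k1 := ws_we (p := p) (n := n) (d := d) hG hQ x.1.isLt (j := x.2) (by omega) h.dg h.g16
  have k2 : ws p Q n d x.1 x.2 < we p Q n d x.1 x.2 := by
    have : (ws p Q n d x.1 x.2 : ℝ) < we p Q n d x.1 x.2 := by linarith
    exact_mod_cast this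
  refine ⟨x, ?_⟩
  rw [tsite_eq]
  exact wall_near hr (mem_pwall.2 ⟨_, le_rfl, k2, rfl⟩)

/-- The balls are disjoint. -/
theorem balls0 {D : Finset (ℤ × ℤ)} (hGe : GeoAt p D Q n d κG)
    (h : Num κ κ' κ1 κT κG κg δ ε n d) (x : Fin l × Fin (Q.m + 1)) :
    Disjoint (bxx (bsite p Q n) ⌊κ1 * (n : ℝ)⌋) (bxx (tsite p Q n d x) ⌊δ * (n : ℝ) / 4⌋) := by
  rw [Finset.disjoint_left]
  intro v hv hv'
  have h1 : (nm (v - bsite p Q n) : ℝ) ≤ ⌊κ1 * (n : ℝ)⌋ := by exact_mod_cast mem_bxx.1 hv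
  have h2 : (nm (v - tsite p Q n d x) : ℝ) ≤ ⌊δ * (n : ℝ) / 4⌋ := by
    exact_mod_cast mem_bxx.1 hv'
  have h3 := hGe.farb x
  have h4 : (nm (tsite p Q n d x - hsite p Q n x) : ℝ) ≤ d + 1 := by exact_mod_cast (hGe.tip x).1
  have h5 := tri (hsite p Q n x) (tsite p Q n d x) (bsite p Q n)
  have h6 := tri (tsite p Q n d x) v (bsite p Q n)
  rw [comm' (hsite p Q n x) (tsite p Q n d x)] at h5
  rw [comm' (tsite p Q n d x) v] at h6
  have f1 : (⌊κ1 * (n : ℝ)⌋ : ℝ) ≤ κ1 * n := Int.floor_le _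
  have g1 : (⌊δ * (n : ℝ) / 4⌋ : ℝ) ≤ δ * n / 4 := Int.floor_le _
  obtain ⟨a1, a2, a3, a4, a5, a6, a7, a8, a9, a10, a11, a12, a13, a14⟩ := h
  linarith

theorem balls1 {D : Finset (ℤ × ℤ)} (hGe : GeoAt p D Q n d κG)
    (h : Num κ κ' κ1 κT κG κg δ ε n d) {x y : Fin l × Fin (Q.m + 1)} (hxy : x ≠ y) :
    Disjoint (bxx (tsite p Q n d x) ⌊δ * (n : ℝ) / 4⌋)
      (bxx (tsite p Q n d y) ⌊δ * (n : ℝ) / 4⌋) := by
  rw [Finset.disjoint_left]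
  intro v hv hv'
  have h1 : (nm (v - tsite p Q n d x) : ℝ) ≤ ⌊δ * (n : ℝ) / 4⌋ := by exact_mod_cast mem_bxx.1 hv
  have h2 : (nm (v - tsite p Q n d y) : ℝ) ≤ ⌊δ * (n : ℝ) / 4⌋ := by
    exact_mod_cast mem_bxx.1 hv'
  have h3 := hGe.far x y hxy
  have h4 : (nm (tsite p Q n d x - hsite p Q n x) : ℝ) ≤ d + 1 := by exact_mod_cast (hGe.tip x).1
  have h4' : (nm (tsite p Q n d y - hsite p Q n y) : ℝ) ≤ d + 1 := by
    exact_mod_cast (hGe.tip y).1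
  have h5 := tri (hsite p Q n x) (tsite p Q n d x) (hsite p Q n y)
  have h6 := tri (tsite p Q n d x) v (hsite p Q n y)
  have h7 := tri v (tsite p Q n d y) (hsite p Q n y)
  rw [comm' (hsite p Q n x) (tsite p Q n d x)] at h5
  rw [comm' (tsite p Q n d x) v] at h6
  have g1 : (⌊δ * (n : ℝ) / 4⌋ : ℝ) ≤ δ * n / 4 := Int.floor_le _
  obtain ⟨a1, a2, a3, a4, a5, a6, a7, a8, a9, a10, a11, a12, a13, a14⟩ := h
  linarith

end

end Vale.Agent.P167.H945
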