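import Vale.Agent.P167.H945.PGeo
import Vale.Agent.P167.H945.Loc

/-!
# P167, block START [MB]: the walls of the polygon with holes and of the closed polygon
-/

namespace Vale.Agent.P167.H945

set_option linter.unusedSectionVars false

open Finset MeasureTheory ProbabilityTheory
open Vale.Agent.P167.A (plane)
open Vale.Agent.P167.H685
open Vale.Agent.P167.H199
open Vale.Agent.P167.H825
open Vale.Agent.P167.E6 (IsPolygon Encloses dir)

theorem nm_ht (e : Ed) : nm (hdv e - tlv e) ≤ 1 := by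
  rcases e with ⟨x, y⟩ | ⟨x, y⟩ <;> by_cases h1 : Even (x + y) <;> simp [hdv, tlv, h1, nm]

theorem tlv_epos (e : Ed) : nm (tlv e - epos e) ≤ 1 := by
  rcases e with ⟨x, y⟩ | ⟨x, y⟩ <;> by_cases h1 : Even (x + y) <;> simp [tlv, epos, h1, nm]

theorem tri (a b c : ℤ × ℤ) : (nm (a - c) : ℝ) ≤ nm (a - b) + nm (b - c) := by
  exact_mod_cast Vale.Agent.P167.H45.nm_sub_le a b c

theorem comm' (a b : ℤ × ℤ) : (nm (a - b) : ℝ) = nm (b - a) := by
  rw [Vale.Agent.P167.H45.nm_sub_comm]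

theorem nn (a : ℤ × ℤ) : (0 : ℝ) ≤ nm a := by
  exact_mod_cast Vale.Agent.P167.H45.nm_nonneg a

theorem jump_conv {w : Wall} {x : ℝ} (h : (w.j = 1 ∨ w.j = -1) ∧ x ≤ w.k0 ∧ w.k0 + x ≤ w.L) :
    (wj w = 1 ∨ wj w = -1) ∧ wlo w + x ≤ wp' w ∧ wp' w + x ≤ whi w := by
  obtain ⟨h1, h2, h3⟩ := h
  unfold wj wlo wp' whi
  cases ho : w.o
  · simp only [Bool.false_eq_true, if_false]
    refine ⟨by omega, ?_, ?_⟩ <;> push_cast <;> linarith
  · simp only [if_true]
    refine ⟨h1, ?_, ?_⟩ <;> push_cast <;> linarith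

theorem ctr_base {z : ℤ × ℤ} {r : Fin 4} {s e T : ℕ} {a : ℝ} (h1 : s ≤ T) (h2 : T ≤ e) :
    nm (ctr (sideWall z r s e a (some T)).o (wc (sideWall z r s e a (some T)))
      (wp' (sideWall z r s e a (some T))) - qs r z T) ≤ 1 := by
  obtain ⟨z1, z2⟩ := z
  have hr : r = 0 ∨ r = 1 ∨ r = 2 ∨ r = 3 := by omega
  rcases hr with rfl | rfl | rfl | rfl <;>
    simp only [sideWall, ctr, wc, wp', qs, dir, Option.elim_some, if_true, Bool.false_eq_true,
      if_false, nm, Prod.fst_sub, Prod.snd_sub, Prod.fst_add, Prod.snd_add, Prod.smul_fst,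
      Prod.smul_snd, smul_eq_mul, Matrix.cons_val_zero, Matrix.cons_val_one, Matrix.cons_val,
      mul_one, mul_zero, mul_neg, max_le_iff, abs_le] <;> omega

section W

variable {ι : Type} [Fintype ι] {W : WC ι} {dd : ℝ}

/-- The base point of a wall with a jump. -/
theorem LAdm.flatD_zero (hA : LAdm W dd) (hd0 : 0 ≤ dd) (i : ι) {z : ℤ × ℤ} {r : Fin 4}
    {s e T : ℕ} {a : ℝ} (hw : W.w i = sideWall z r s e a (some T)) (h1 : s ≤ T) (h2 : T ≤ e)
    {R : ℤ} (hR0 : 0 ≤ R) (hR : (2 * R : ℝ) < dd)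
    (hloc : ∀ f ∈ (W.w i).S, nm (hdv f - qs r z T) ≤ R + 1 → Lc W dd f) {ω : Cfg}
    (hω : ω ∉ H662.FlatD r (qs r z T) R) : Xc W.S W.ph ω = 0 := by
  have hO : H662.OvD r (qs r z T) (H662.bal (qs r z T) R) ω := by
    by_contra h
    exact hω h
  have hF := OvD_FLL (a := a) h1 h2 hO
  have hbc := ctr_base (z := z) (r := r) (a := a) h1 h2
  rw [← hw] at hF hbc
  have hwj : wj (W.w i) ≠ 0 := by
    rw [hw, (sideWall_line h1 h2).1]
    unfold H662.os
    split_ifs <;> norm_num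
  have hR' : (0 : ℝ) ≤ R := by exact_mod_cast hR0
  refine hA.flat_zero hd0 i hwj (fun u hu v hv => ?_) (fun t ht => ?_) hF
  · have k1 : (nm (u - qs r z T) : ℝ) ≤ R := by exact_mod_cast hu
    have k2 : (nm (v - qs r z T) : ℝ) ≤ R := by exact_mod_cast hv
    have k3 := tri u (qs r z T) v
    rw [comm' (qs r z T) v] at k3
    linarith
  · have k1 : |t - wp' (W.w i)| ≤ R + 1 := by
      have k2 := ctr_hdv (W.w i).o (wc (W.w i)) t (wp' (W.w i))
      have k3 := ctr_tlv (W.w i).o (wc (W.w i)) t (wp' (W.w i))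
      rcases ht with ht | ht
      · have k4 : nm (hdv (Ln (W.w i).o (wc (W.w i)) t) - qs r z T) ≤ R := ht
        have k5 := Vale.Agent.P167.H45.nm_sub_le (hdv (Ln (W.w i).o (wc (W.w i)) t)) (qs r z T)
          (ctr (W.w i).o (wc (W.w i)) (wp' (W.w i)))
        rw [Vale.Agent.P167.H45.nm_sub_comm (qs r z T)] at k5
        linarith
      · have k4 : nm (tlv (Ln (W.w i).o (wc (W.w i)) t) - qs r z T) ≤ R := ht
        have k5 := Vale.Agent.P167.H45.nm_sub_le (tlv (Ln (W.w i).o (wc (W.w i)) t)) (qs r z T)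
          (ctr (W.w i).o (wc (W.w i)) (wp' (W.w i)))
        rw [Vale.Agent.P167.H45.nm_sub_comm (qs r z T)] at k5
        linarith
    have k6 : nm (hdv (Ln (W.w i).o (wc (W.w i)) t) - qs r z T) ≤ R + 1 := by
      rcases ht with ht | ht
      · have k4 : nm (hdv (Ln (W.w i).o (wc (W.w i)) t) - qs r z T) ≤ R := ht
        linarith
      · have k4 : nm (tlv (Ln (W.w i).o (wc (W.w i)) t) - qs r z T) ≤ R := ht
        have k5 := Vale.Agent.P167.H45.nm_sub_le (hdv (Ln (W.w i).o (wc (W.w i)) t))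
          (tlv (Ln (W.w i).o (wc (W.w i)) t)) (qs r z T)
        have k7 := nm_ht (Ln (W.w i).o (wc (W.w i)) t)
        linarith
    rw [abs_le] at k1
    have c1 : (-(R : ℝ) - 1) ≤ (t : ℝ) - wp' (W.w i) := by exact_mod_cast (by linarith [k1.1])
    have c2 : (t : ℝ) - wp' (W.w i) ≤ R + 1 := by exact_mod_cast k1.2
    rcases hA.jump i with hj | ⟨-, hj1, hj2⟩
    · exact absurd hj hwj
    have d1 : wlo (W.w i) ≤ t := by
      have : (wlo (W.w i) : ℝ) ≤ t := by linarith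
      exact_mod_cast this
    have d2 : t < whi (W.w i) := by
      have : (t : ℝ) < whi (W.w i) := by linarith
      exact_mod_cast this
    exact ⟨d1, d2, hloc _ (mem_wall d1 d2) k6⟩

/-- If `e` is not locally isolated, there is an edge of another wall near `e`. -/
theorem not_Lc {e : Ed} (h : ¬ Lc W dd e) : ∃ i i', i ≠ i' ∧ e ∈ (W.w i).S ∧
    ∃ f ∈ (W.w i').S, (nm (hdv f - hdv e) : ℝ) < dd + 1 := by
  unfold Lc at h
  push Not at h
  obtain ⟨i, h1, f, h2, h3, h4⟩ := h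
  obtain ⟨i', k, hk, hf⟩ := mem_WS.1 h2
  have h5 : f ∈ (W.w i').S := (mem_S _).2 ⟨k, hk, hf⟩
  exact ⟨i, i', fun hii => h4 (hii ▸ h5), h1, f, h5, h3⟩

end W

/-! ### the flow -/

theorem flow_far {D : Finset (ℤ × ℤ)} {κ B : ℝ} {n : ℕ} {c : Ed → ℝ} (hc : FlowIn D κ B n c)
    {e f : Ed} (he : c e ≠ 0) (hf : H662.Bdy D f) : κ * n - 1 ≤ (nm (epos e - epos f) : ℝ) := by
  by_contra h
  push Not at h
  apply hf
  have h1 : hdv f ∈ D := by
    refine hc.sup e he _ ?_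
    have k1 : (nm (hdv f - epos f) : ℝ) ≤ 1 := by exact_mod_cast hdv_epos f
    have k2 := tri (hdv f) (epos f) (epos e)
    rw [comm' (epos f) (epos e)] at k2
    linarith
  have h2 : tlv f ∈ D := by
    refine hc.sup e he _ ?_
    have k1 : (nm (tlv f - epos f) : ℝ) ≤ 1 := by exact_mod_cast tlv_epos f
    have k2 := tri (tlv f) (epos f) (epos e)
    rw [comm' (epos f) (epos e)] at k2
    linarith
  simp [h1, h2]

theorem enl_bd {S₀ : Finset (ℤ × ℤ)} {n : ℕ} {v : ℤ × ℤ} (h : v ∈ enl S₀ n) :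
    ∃ s ∈ S₀, nm v ≤ n * (nm s + 1) := by
  unfold enl at h
  rw [mem_biUnion] at h
  obtain ⟨s, hs, h⟩ := h
  rw [mem_image] at h
  obtain ⟨⟨a, b⟩, h1, rfl⟩ := h
  rw [mem_product, mem_range, mem_range] at h1
  refine ⟨s, hs, ?_⟩
  obtain ⟨h1, h2⟩ := h1
  simp only at h1 h2
  have hn : (0 : ℤ) ≤ n := Int.natCast_nonneg n
  have e1 := abs_mul (n : ℤ) s.1
  have e2 := abs_mul (n : ℤ) s.2
  rw [abs_of_nonneg hn] at e1 e2
  have k1 : |s.1| ≤ nm s := le_max_left _ _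
  have k2 : |s.2| ≤ nm s := le_max_right _ _
  have m1 : (n : ℤ) * |s.1| ≤ n * nm s := mul_le_mul_of_nonneg_left k1 hn
  have m2 : (n : ℤ) * |s.2| ≤ n * nm s := mul_le_mul_of_nonneg_left k2 hn
  show max |_| |_| ≤ _
  rw [max_le_iff]
  have t1 := abs_add_le ((n : ℤ) * s.1) a
  have t2 := abs_add_le ((n : ℤ) * s.2) b
  have a1 : |(a : ℤ)| = a := abs_of_nonneg (by omega)
  have a2 : |(b : ℤ)| = b := abs_of_nonneg (by omega)
  rw [mul_add, mul_one]
  constructor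
  · show |(n : ℤ) * s.1 + a| ≤ _
    omega
  · show |(n : ℤ) * s.2 + b| ≤ _
    omega

theorem pq_bd {l : ℕ} {p : ZMod l → ℤ × ℤ} {n i : ℕ} {t : ℤ} (h0 : 0 ≤ t) (h1 : t ≤ n) :
    nm (pq p n i t) ≤ n * (nm (p i) + 1) := by
  have hn : (0 : ℤ) ≤ n := Int.natCast_nonneg n
  have k1 : |(p i).1| ≤ nm (p i) := le_max_left _ _
  have k2 : |(p i).2| ≤ nm (p i) := le_max_right _ _
  have e1 := abs_mul (n : ℤ) (p i).1
  have e2 := abs_mul (n : ℤ) (p i).2
  rw [abs_of_nonneg hn] at e1 e2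
  have m1 : (n : ℤ) * |(p i).1| ≤ n * nm (p i) := mul_le_mul_of_nonneg_left k1 hn
  have m2 : (n : ℤ) * |(p i).2| ≤ n * nm (p i) := mul_le_mul_of_nonneg_left k2 hn
  rw [mul_add, mul_one]
  unfold pq qs
  have t1 := abs_add_le ((n : ℤ) * (p i).1) (t * (dir (pdir p i)).1)
  have t2 := abs_add_le ((n : ℤ) * (p i).2) (t * (dir (pdir p i)).2)
  have a1 : |t * (dir (pdir p i)).1| ≤ n ∧ |t * (dir (pdir p i)).2| ≤ n := by
    rcases dir_cases (pdir p i) with h | h | h | h <;> rw [h] <;>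
      simp only [mul_one, mul_zero, mul_neg, abs_neg, abs_zero] <;> rw [abs_of_nonneg h0] <;>
      omega
  show max |_| |_| ≤ _
  rw [max_le_iff]
  constructor
  · show |(n : ℤ) * (p i).1 + t * (dir (pdir p i)).1| ≤ _
    omega
  · show |(n : ℤ) * (p i).2 + t * (dir (pdir p i)).2| ≤ _
    omega

end Vale.Agent.P167.H945
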