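import Vale.Agent.P167.H945.MbP

/-!
# P167, block START [MB]: the polygon with holes and the closed polygon are locally isolated
-/

namespace Vale.Agent.P167.H945

set_option linter.unusedSectionVars false

open Finset MeasureTheory ProbabilityTheory
open Vale.Agent.P167.A (plane)
open Vale.Agent.P167.H685
open Vale.Agent.P167.H199
open Vale.Agent.P167.H825
open Vale.Agent.P167.E6 (IsPolygon Encloses dir)

section PWs

variable {l : ℕ} [NeZero l] {p : ZMod l → ℤ × ℤ} {Q : Marks} {n d : ℕ} {c : Ed → ℝ}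

theorem mem_PW {x : Fin l × Fin (Q.m + 1)} {f : Ed} : f ∈ ((PW p Q n d c).w x).S ↔
    ∃ t : ℕ, ws p Q n d x.1 x.2 ≤ t ∧ t < we p Q n d x.1 x.2 ∧
      f = sed (pdir p x.1) ((n : ℤ) • p x.1) t := mem_pwall

theorem mem_PF {i : Fin l} {f : Ed} : f ∈ ((H662.PF p Q n c).w i).S ↔
    ∃ t : ℕ, t < n ∧ f = sed (pdir p i) ((n : ℤ) • p i) t := mem_fwall

theorem epos_pq (i : ℕ) (t : ℤ) : nm (epos (sed (pdir p i) ((n : ℤ) • p i) t) - pq p n i t) ≤ 1 :=
  epos_sed _ _ _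

theorem hdv_pq (i : ℕ) (t : ℤ) : nm (hdv (sed (pdir p i) ((n : ℤ) • p i) t) - pq p n i t) ≤ 2 := by
  have h1 := epos_pq (p := p) (n := n) i t
  have h2 := hdv_epos (sed (pdir p i) ((n : ℤ) • p i) t)
  have h3 := Vale.Agent.P167.H45.nm_sub_le (hdv (sed (pdir p i) ((n : ℤ) • p i) t))
    (epos (sed (pdir p i) ((n : ℤ) • p i) t)) (pq p n i t)
  linarith

theorem tri4 (a b c d : ℤ × ℤ) : nm (a - d) ≤ nm (b - a) + nm (b - c) + nm (c - d) := by
  have h1 := Vale.Agent.P167.H45.nm_sub_le a b d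
  have h2 := Vale.Agent.P167.H45.nm_sub_le b c d
  rw [Vale.Agent.P167.H45.nm_sub_comm a b] at h1
  linarith

/-- Two different walls of the polygon with holes are near each other only near a hole. -/
theorem pw_near (hp : IsPolygon p) (hQ : Q.Ok) (hd : 1 ≤ d) {x y : Fin l × Fin (Q.m + 1)}
    (hne : x ≠ y) {e f : Ed} (he : e ∈ ((PW p Q n d c).w x).S)
    (hf : f ∈ ((PW p Q n d c).w y).S) : (n : ℤ) ≤ nm (hdv f - hdv e) + 4 ∨
      ∃ z, nm (hdv e - H662.hsite p Q n z) ≤ nm (hdv f - hdv e) + 6 := by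
  obtain ⟨t, h1, h2, rfl⟩ := mem_PW.1 he
  obtain ⟨t', h1', h2', rfl⟩ := mem_PW.1 hf
  have hx := x.2.isLt
  have hy := y.2.isLt
  obtain ⟨a1, a2, -, -⟩ := wall_pt hQ (by omega) hd h1 h2
  obtain ⟨b1, b2, -, -⟩ := wall_pt hQ (by omega) hd h1' h2'
  have k1 := hdv_pq (p := p) (n := n) x.1 t
  have k2 := hdv_pq (p := p) (n := n) y.1 t'
  set E := hdv (sed (pdir p x.1) ((n : ℤ) • p x.1) t)
  set F := hdv (sed (pdir p y.1) ((n : ℤ) • p y.1) t')
  have k3 : nm (pq p n x.1 t - pq p n y.1 t') ≤ nm (F - E) + 4 := by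
    have m1 := tri4 (pq p n x.1 t) E F (pq p n y.1 t')
    rw [Vale.Agent.P167.H45.nm_sub_comm E F] at m1
    linarith
  rcases sep_walls hp hQ hne a1 a2 b1 b2 with h | ⟨z, hz⟩
  · left; linarith
  · right
    refine ⟨z, ?_⟩
    have m2 := Vale.Agent.P167.H45.nm_sub_le E (pq p n x.1 t) (H662.hsite p Q n z)
    linarith

/-- The walls are far from the centres of the holes. -/
theorem pw_hole (hp : IsPolygon p) (hQ : Q.Ok) (hd : 1 ≤ d) {x : Fin l × Fin (Q.m + 1)} {e : Ed}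
    (he : e ∈ ((PW p Q n d c).w x).S) (z : Fin l × Fin (Q.m + 1)) :
    (d : ℤ) ≤ nm (hdv e - H662.hsite p Q n z) + 2 := by
  obtain ⟨t, h1, h2, rfl⟩ := mem_PW.1 he
  have hx := x.2.isLt
  obtain ⟨a1, a2, -, -⟩ := wall_pt hQ (by omega) hd h1 h2
  have k1 := hdv_pq (p := p) (n := n) x.1 t
  have k2 := hole_dist hp hQ (d := d) x z a1 a2
  have k3 := tri4 (pq p n x.1 t) (hdv (sed (pdir p x.1) ((n : ℤ) • p x.1) t))
    (hdv (sed (pdir p x.1) ((n : ℤ) • p x.1) t)) (H662.hsite p Q n z)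
  rw [nm_self] at k3
  linarith

/-- Two different walls of the closed polygon are near each other only near a corner. -/
theorem pf_near (hp : IsPolygon p) (hQ : Q.Ok) {i i' : Fin l}
    (hne : i ≠ i') {e f : Ed} (he : e ∈ ((H662.PF p Q n c).w i).S)
    (hf : f ∈ ((H662.PF p Q n c).w i').S) : (n : ℤ) ≤ nm (hdv f - hdv e) + 4 ∨
      ∃ z, nm (hdv e - H662.hsite p Q n z) ≤ nm (hdv f - hdv e) + 6 := by
  obtain ⟨t, h2, rfl⟩ := mem_PF.1 he
  obtain ⟨t', h2', rfl⟩ := mem_PF.1 hf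
  have k1 := hdv_pq (p := p) (n := n) i t
  have k2 := hdv_pq (p := p) (n := n) i' t'
  set E := hdv (sed (pdir p i) ((n : ℤ) • p i) t)
  set F := hdv (sed (pdir p i') ((n : ℤ) • p i') t')
  have k3 : nm (pq p n i t - pq p n i' t') ≤ nm (F - E) + 4 := by
    have m1 := tri4 (pq p n i t) E F (pq p n i' t')
    rw [Vale.Agent.P167.H45.nm_sub_comm E F] at m1
    linarith
  rcases sep_sides hp hQ (n := n) i.isLt i'.isLt (fun h => hne (Fin.ext h)) (t := t) (t' := t')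
    (by omega) (by omega) (by omega) (by omega) with h | ⟨z, -, hz⟩
  · left; linarith
  · right
    refine ⟨z, ?_⟩
    have m2 := Vale.Agent.P167.H45.nm_sub_le E (pq p n i t) (H662.hsite p Q n z)
    linarith

/-! ### lengths -/

theorem fl_lower (x : ℝ) : x - 1 < (⌊x⌋₊ : ℝ) := Nat.sub_one_lt_floor x

theorem fl_upper {x : ℝ} (hx : 0 ≤ x) : (⌊x⌋₊ : ℝ) ≤ x := Nat.floor_le hx

theorem ws_up (hQ : Q.Ok) {i j : ℕ} (hj : j ≤ Q.m) :
    (ws p Q n d i j : ℝ) ≤ Q.θ i j * n + d + 1 := by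
  have h1 := (ws_ge (p := p) (Q := Q) n d i j).2
  have h2 : (ws p Q n d i j : ℝ) ≤ ⌊Q.θ i j * n⌋₊ + d + 1 := by exact_mod_cast h1
  have h3 := fl_upper (x := Q.θ i j * n) (mul_nonneg (θ_nonneg hQ i (by omega))
    (Nat.cast_nonneg _))
  linarith

theorem we_low (i j : ℕ) : Q.θ i (j + 1) * n - 1 - d ≤ (we p Q n d i j : ℝ) := by
  have h1 := (we_le (p := p) (Q := Q) n d i j).1
  have h2 : (⌊Q.θ i (j + 1) * n⌋₊ : ℝ) ≤ we p Q n d i j + d := by
    have : ⌊Q.θ i (j + 1) * n⌋₊ ≤ we p Q n d i j + d := by omega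
    exact_mod_cast this
  have h3 := fl_lower (Q.θ i (j + 1) * n)
  linarith

/-- Gaps of the marks. -/
structure Gaps (l : ℕ) (Q : Marks) (κg : ℝ) : Prop where
  pos : 0 < κg
  le1 : κg ≤ 1
  gap : ∀ i < l, ∀ j ≤ Q.m, Q.θ i j + κg ≤ Q.θ i (j + 1)
  t0 : κg ≤ Q.tp
  t1 : Q.tp + κg ≤ 1
  lo : ∀ j ≤ Q.m + 1, Q.θ 0 j < Q.tp → Q.θ 0 j + κg ≤ Q.tp
  hi : ∀ j ≤ Q.m + 1, Q.tp < Q.θ 0 j → Q.tp + κg ≤ Q.θ 0 j

theorem exists_gaps (l : ℕ) (hQ : Q.Ok) : ∃ κg, Gaps l Q κg := by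
  classical
  -- the finitely many positive numbers
  set I : Finset ℝ := ((range l ×ˢ range (Q.m + 1)).image fun x => Q.θ x.1 (x.2 + 1) - Q.θ x.1 x.2) ∪
    ((range (Q.m + 2)).image fun j => |Q.θ 0 j - Q.tp|) ∪ {1} with hI
  have hpos : ∀ y ∈ I, 0 < y := by
    intro y hy
    rw [hI, mem_union, mem_union, mem_image, mem_image, mem_singleton] at hy
    rcases hy with (⟨⟨a, b⟩, h1, rfl⟩ | ⟨j, h1, rfl⟩) | rfl
    · rw [mem_product, mem_range, mem_range] at h1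
      have h2 : b < Q.m + 1 := h1.2
      exact sub_pos.2 (hQ.lt a b (by omega))
    · exact abs_pos.2 (sub_ne_zero.2 (hQ.tpne j))
    · norm_num
  have hne : I.Nonempty := ⟨1, by rw [hI]; simp⟩
  have hmin : ∀ y ∈ I, I.min' hne ≤ y := fun y hy => I.min'_le y hy
  have h1 : ∀ j ≤ Q.m + 1, I.min' hne ≤ |Q.θ 0 j - Q.tp| := fun j hj => hmin _ (by
    rw [hI, mem_union, mem_union, mem_image, mem_image]
    exact Or.inl (Or.inr ⟨j, mem_range.2 (by omega), rfl⟩))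
  refine ⟨I.min' hne, hpos _ (I.min'_mem hne), hmin 1 (by rw [hI]; simp), fun i hi j hj => ?_,
    ?_, ?_, fun j hj h => ?_, fun j hj h => ?_⟩
  · have := hmin (Q.θ i (j + 1) - Q.θ i j) (by
      rw [hI, mem_union, mem_union, mem_image, mem_image]
      exact Or.inl (Or.inl ⟨(i, j), by rw [mem_product, mem_range, mem_range]; omega, rfl⟩))
    linarith
  · have := h1 0 (by omega)
    rw [hQ.zero, zero_sub, abs_neg, abs_of_pos hQ.tp0] at this
    exact this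
  · have := h1 (Q.m + 1) le_rfl
    rw [hQ.one, abs_of_pos (by linarith [hQ.tp1])] at this
    linarith
  · have := h1 j hj
    rw [abs_sub_comm, abs_of_pos (by linarith)] at this
    linarith
  · have := h1 j hj
    rw [abs_of_pos (by linarith)] at this
    linarith

theorem exists_base (hQ : Q.Ok) : ∃ j ≤ Q.m, Q.θ 0 j < Q.tp ∧ Q.tp < Q.θ 0 (j + 1) := by
  classical
  have hex : ∃ j, Q.tp < Q.θ 0 (j + 1) := ⟨Q.m, by rw [hQ.one]; exact hQ.tp1⟩
  have h1 := Nat.find_spec hex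
  have h2 : Nat.find hex ≤ Q.m := Nat.find_min' hex (by rw [hQ.one]; exact hQ.tp1)
  refine ⟨Nat.find hex, h2, ?_, h1⟩
  rcases Nat.eq_zero_or_pos (Nat.find hex) with h3 | h3
  · rw [h3, hQ.zero]; exact hQ.tp0
  · have h4 := Nat.find_min hex (m := Nat.find hex - 1) (by omega)
    rw [show Nat.find hex - 1 + 1 = Nat.find hex by omega] at h4
    exact lt_of_le_of_ne (not_lt.1 h4) (hQ.tpne _)

end PWs

end Vale.Agent.P167.H945
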