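import Vale.Agent.P167.H945.Nrm2

/-!
# P167, block NORM: the abstract bound of NO3 on a local event
-/

namespace Vale.Agent.P167.H945

open Finset MeasureTheory ProbabilityTheory
open Vale.Agent.P167.A (plane)
open Vale.Agent.P167.H685
open Vale.Agent.P167.H199

theorem int_abs_le_on {f : Cfg → ℝ} {G : Set Cfg} {r : ℝ} (hr : 0 ≤ r)
    (h : ∫⁻ ω in G, ENNReal.ofReal |f ω| ∂μ ≤ ENNReal.ofReal r) : ∫ ω in G, |f ω| ∂μ ≤ r := by
  by_cases hm : AEStronglyMeasurable (fun ω => |f ω|) (μ.restrict G)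
  · rw [integral_eq_lintegral_of_nonneg_ae (Filter.Eventually.of_forall fun ω => abs_nonneg _) hm]
    exact ENNReal.toReal_le_of_le_ofReal hr h
  · rw [integral_non_aestronglyMeasurable hm]
    exact hr

/-- Cauchy-Schwarz on an event. -/
theorem sq_on_event {g : Cfg → ENNReal} (hg : Measurable g) {G : Set Cfg} (hG : MeasurableSet G) :
    (∫⁻ ω, (G.indicator g ω) ^ (2 : ℝ) ∂μ) ^ (1 / 2 : ℝ) ≤
      (∫⁻ ω, g ω ^ (4 : ℝ) ∂μ) ^ (1 / 4 : ℝ) * μ G ^ (1 / 4 : ℝ) := by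
  have h1 : ∫⁻ ω, (G.indicator g ω) ^ (2 : ℝ) ∂μ = ∫⁻ ω, (fun ω => g ω ^ (2 : ℝ)) ω *
      (G.indicator (1 : Cfg → ENNReal)) ω ∂μ := by
    refine lintegral_congr fun ω => ?_
    by_cases h : ω ∈ G
    · rw [Set.indicator_of_mem h, Set.indicator_of_mem h]; simp
    · rw [Set.indicator_of_notMem h, Set.indicator_of_notMem h]; simp
  have h2 := ENNReal.lintegral_mul_le_Lp_mul_Lq (μ := μ) (p := 2) (q := 2)
    (Real.HolderConjugate.two_two) (f := fun ω => g ω ^ (2 : ℝ))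
    (g := G.indicator (1 : Cfg → ENNReal)) (hg.pow_const _).aemeasurable
    ((measurable_one.indicator hG).aemeasurable)
  have h3 : ∫⁻ ω, (G.indicator (1 : Cfg → ENNReal)) ω ^ (2 : ℝ) ∂μ = μ G := by
    rw [← lintegral_indicator_one hG]
    refine lintegral_congr fun ω => ?_
    by_cases h : ω ∈ G
    · rw [Set.indicator_of_mem h]; simp
    · rw [Set.indicator_of_notMem h]; simp
  have h4 : ∫⁻ ω, ((fun ω => g ω ^ (2 : ℝ)) ω) ^ (2 : ℝ) ∂μ = ∫⁻ ω, g ω ^ (4 : ℝ) ∂μ := by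
    refine lintegral_congr fun ω => ?_
    show (g ω ^ (2 : ℝ)) ^ (2 : ℝ) = _
    rw [← ENNReal.rpow_mul]; norm_num
  rw [h3, h4] at h2
  rw [h1]
  refine (ENNReal.rpow_le_rpow h2 (by norm_num)).trans (le_of_eq ?_)
  rw [ENNReal.mul_rpow_of_nonneg _ _ (by norm_num), ← ENNReal.rpow_mul, ← ENNReal.rpow_mul]
  norm_num

/-- **NO3, abstract form, on a local event `G`.** -/
theorem no3_G (κ R : ℝ) (m : ℕ) (hκ : 0 < κ) (hR : 0 ≤ R) : ∃ ε C ρ0 : ℝ, 0 < ε ∧ 0 < C ∧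
    0 < ρ0 ∧ ∀ ρ : ℝ, ρ0 ≤ ρ → ∀ (c : ℤ × ℤ) (J : Type) [Fintype J], Fintype.card J ≤ m →
      ∀ (x : J → ℤ × ℤ) (B : J → Finset (ℤ × ℤ)), (∀ i j, i ≠ j → Disjoint (B i) (B j)) →
        (∀ i, ∀ v ∈ B i, (nm (v - x i) : ℝ) ≤ ε * ρ) → ∀ A : J → Set Cfg,
        (∀ i, ∀ ω ω' : Cfg, (∀ v ∈ B i, ω v = ω' v) → ω ∈ A i → ω' ∈ A i) →
        ∀ (F : Finset (ℤ × ℤ)) (g : Cfg → ℝ), (∀ i, Disjoint F (B i)) →
        (∀ ω ω' : Cfg, (∀ v ∈ F, ω v = ω' v) → g ω = g ω') → (∀ ω, 0 ≤ g ω) →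
        ∀ M : ℝ, 0 ≤ M → ∫⁻ ω, ENNReal.ofReal (g ω) ^ (4 : ℝ) ∂μ ≤ ENNReal.ofReal M →
        ∀ (F' : Finset (ℤ × ℤ)) (G : Set Cfg), (∀ i, Disjoint F' (B i)) →
        (∀ ω ω' : Cfg, (∀ v ∈ F', ω v = ω' v) → ω ∈ G → ω' ∈ G) →
        ∀ (S E : Finset Ed) (a : Ed → Bool → ℝ), S ⊆ E → (∀ e ∉ E, ∀ b, a e b = 0) →
        (∀ e ∈ E, (nm (hdv e - c) : ℝ) ≤ R * ρ) →
        (∀ᵐ ω ∂μ, ω ∈ G → (∃ i, ω ∉ A i) → Xc S a ω = 0) →
        (∀ᵐ ω ∂μ, ω ∈ G → smP S E a (κ * ρ) ω ≤ √3 ^ S.card * g ω) →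
        ∫ ω in G, |Xc S a ω| ∂μ ≤ C * M ^ (1 / 4 : ℝ) * μ.real G ^ (1 / 4 : ℝ) *
          √3 ^ S.card * ∏ i, μ.real (A i) := by
  classical
  obtain ⟨ε, C, ρ0, hε, hC, hρ0, h⟩ := macro_dec κ R (Real.log 2) m hκ hR
  refine ⟨ε, √C, ρ0, hε, Real.sqrt_pos.2 hC, hρ0, fun ρ hρ c J _ hJ x B hB hBx A hA F g hF hg hg0
    M hM hgM F' G hF' hG S E a hSE ha hE h0 h1 => ?_⟩
  have hGm : MeasurableSet G := Vale.Agent.P167.H45.meas_loc F' hG
  have hgm : Measurable g := Vale.Agent.P167.H45.meas_locfun F hg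
  obtain ⟨f⟩ : Nonempty (J ↪ Fin m) := Function.Embedding.nonempty_of_card_le (by simpa using hJ)
  set x' : Fin m → ℤ × ℤ := Function.extend f x 0 with hx'
  set B' : Fin m → Finset (ℤ × ℤ) := Function.extend f B (fun _ => ∅) with hB'
  set A' : Fin m → Set Cfg := Function.extend f A (fun _ => Set.univ) with hA'
  have ex : ∀ i, x' (f i) = x i := fun i => f.injective.extend_apply _ _ _
  have eB : ∀ i, B' (f i) = B i := fun i => f.injective.extend_apply _ _ _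
  have eA : ∀ i, A' (f i) = A i := fun i => f.injective.extend_apply _ _ _
  set I : Finset (Fin m) := univ.map f with hI
  have mI : ∀ k ∈ I, ∃ i, f i = k := fun k hk => by
    obtain ⟨i, _, hi⟩ := mem_map.1 hk
    exact ⟨i, hi⟩
  obtain ⟨N, h2, h3⟩ := h ρ hρ c x'
  have h4 := h3 I B' ?_ ?_ A' ?_ (F ∪ F') (G.indicator fun ω => ENNReal.ofReal (g ω)) ?_ ?_
  · apply int_abs_le_on (by positivity)
    have h6 : ∫⁻ ω in G, ENNReal.ofReal |Xc S a ω| ∂μ ≤ ENNReal.ofReal (√3 ^ S.card) *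
        ((ENNReal.ofReal C) ^ (1 / 2 : ℝ) *
          (∫⁻ ω, (G.indicator (fun ω => ENNReal.ofReal (g ω)) ω) ^ (2 : ℝ) ∂μ) ^ (1 / 2 : ℝ) *
            ∏ i ∈ I, μ (A' i)) := by
      refine le_trans ?_ (mul_le_mul_right h4 _)
      rw [← lintegral_const_mul' _ _ ENNReal.ofReal_ne_top, ← lintegral_indicator hGm]
      refine lintegral_mono_ae ?_
      filter_upwards [h0, h1, s_fin] with ω h0 h1 hg'
      by_cases hGω : ω ∈ G
      swap
      · rw [Set.indicator_of_notMem hGω]; exact zero_le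
      rw [Set.indicator_of_mem hGω, Set.indicator_of_mem hGω]
      by_cases hA' : ∀ i ∈ I, ω ∈ A' i
      · have h5 : ∏ i ∈ I, (A' i).indicator (1 : Cfg → ENNReal) ω = 1 :=
          prod_eq_one fun i hi => by rw [Set.indicator_of_mem (hA' i hi)]; rfl
        rw [h5, mul_one, ← ENNReal.ofReal_mul (hg0 ω), ← ENNReal.ofReal_mul (by positivity)]
        refine ENNReal.ofReal_le_ofReal ?_
        have h6 := abs_Xc_le_big hg' hSE ha hE (h2 ω)
        have h7 : Real.exp (Real.log 2 * (N ω : ℝ)) = 2 ^ N ω := by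
          rw [mul_comm, Real.exp_nat_mul, Real.exp_log (by norm_num)]
        rw [h7]
        have h1' := h1 hGω
        calc |Xc S a ω| ≤ smP S E a (κ * ρ) ω * 2 ^ N ω := h6
          _ ≤ (√3 ^ S.card * g ω) * 2 ^ N ω := by gcongr
          _ = √3 ^ S.card * (g ω * 2 ^ N ω) := by ring
      · push Not at hA'
        obtain ⟨i, hi, hi'⟩ := hA'
        obtain ⟨i, rfl⟩ := mI i hi
        rw [eA] at hi'
        rw [h0 hGω ⟨i, hi'⟩]
        simp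
    refine h6.trans ?_
    have e0 : ∏ i ∈ I, μ (A' i) = ∏ i, μ (A i) := by
      rw [hI, prod_map]
      exact prod_congr rfl fun i _ => by rw [eA]
    have e2 : ENNReal.ofReal √C = ENNReal.ofReal C ^ (1 / 2 : ℝ) := by
      rw [ENNReal.ofReal_rpow_of_pos hC, Real.sqrt_eq_rpow]
    have e3 : ENNReal.ofReal (M ^ (1 / 4 : ℝ)) = ENNReal.ofReal M ^ (1 / 4 : ℝ) := by
      rw [ENNReal.ofReal_rpow_of_nonneg hM (by norm_num)]
    have e4 : ENNReal.ofReal (μ.real G ^ (1 / 4 : ℝ)) = μ G ^ (1 / 4 : ℝ) := by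
      rw [← ENNReal.ofReal_rpow_of_nonneg measureReal_nonneg (by norm_num), ofReal_measureReal]
    have e1 : ENNReal.ofReal (√C * M ^ (1 / 4 : ℝ) * μ.real G ^ (1 / 4 : ℝ) * √3 ^ S.card *
          ∏ i, μ.real (A i)) =
        ENNReal.ofReal (√3 ^ S.card) * (ENNReal.ofReal √C * (ENNReal.ofReal (M ^ (1 / 4 : ℝ)) *
          ENNReal.ofReal (μ.real G ^ (1 / 4 : ℝ))) * ∏ i, μ (A i)) := by
      rw [show √C * M ^ (1 / 4 : ℝ) * μ.real G ^ (1 / 4 : ℝ) * √3 ^ S.card * ∏ i, μ.real (A i) =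
        √3 ^ S.card * (√C * (M ^ (1 / 4 : ℝ) * μ.real G ^ (1 / 4 : ℝ)) * ∏ i, μ.real (A i)) by ring,
        ENNReal.ofReal_mul (by positivity), ENNReal.ofReal_mul (by positivity),
        ENNReal.ofReal_mul (by positivity), ENNReal.ofReal_mul (by positivity),
        ENNReal.ofReal_prod_of_nonneg (fun i _ => measureReal_nonneg)]
      congr 2
      refine prod_congr rfl fun i _ => ?_
      rw [ofReal_measureReal]
    rw [e0, e1, e2, e3, e4]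
    have h7 := sq_on_event (ENNReal.measurable_ofReal.comp hgm) hGm
    have h8 : (∫⁻ ω, (G.indicator (fun ω => ENNReal.ofReal (g ω)) ω) ^ (2 : ℝ) ∂μ) ^ (1 / 2 : ℝ) ≤
        ENNReal.ofReal M ^ (1 / 4 : ℝ) * μ G ^ (1 / 4 : ℝ) := by
      refine h7.trans ?_
      gcongr
      exact hgM
    gcongr
  · intro i hi j hj hne
    obtain ⟨i, rfl⟩ := mI i hi
    obtain ⟨j, rfl⟩ := mI j hj
    rw [eB, eB]
    exact hB i j fun h => hne (by rw [h])
  · intro i hi v hv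
    obtain ⟨i, rfl⟩ := mI i hi
    rw [eB] at hv
    rw [ex]
    exact hBx i v hv
  · intro i hi ω ω' hw
    obtain ⟨i, rfl⟩ := mI i hi
    rw [eB] at hw
    rw [eA]
    exact hA i ω ω' hw
  · intro i hi
    obtain ⟨i, rfl⟩ := mI i hi
    rw [eB]
    exact disjoint_union_left.2 ⟨hF i, hF' i⟩
  · intro ω ω' hw
    have hw1 : ∀ v ∈ F, ω v = ω' v := fun v hv => hw v (mem_union_left _ hv)
    have hw2 : ∀ v ∈ F', ω v = ω' v := fun v hv => hw v (mem_union_right _ hv)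
    by_cases h : ω ∈ G
    · rw [Set.indicator_of_mem h, Set.indicator_of_mem (hG ω ω' hw2 h), hg ω ω' hw1]
    · rw [Set.indicator_of_notMem h, Set.indicator_of_notMem fun h' =>
        h (hG ω' ω (fun v hv => (hw2 v hv).symm) h')]

end Vale.Agent.P167.H945
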