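import Vale.Agent.P167.H945.Loc
import Vale.Agent.P167.H945.NrmG
import Vale.Agent.P167.H945.Flow4

/-!
# P167, block START [MB]: the upper bound for locally isolated walls, on a local event
-/

namespace Vale.Agent.P167.H945

set_option linter.unusedSectionVars false

open Finset MeasureTheory ProbabilityTheory
open Vale.Agent.P167.A (plane)
open Vale.Agent.P167.H685
open Vale.Agent.P167.H199
open Vale.Agent.P167.H825

/-- Upper bound of `∫ |X|` on a local event. -/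
theorem mbX (κ R B : ℝ) (m : ℕ) (hκ : 0 < κ) (hR : 0 ≤ R) : ∃ κ0 : ℝ, 0 < κ0 ∧
    ∀ κ1 : ℝ, 0 < κ1 → κ1 ≤ κ0 → ∃ ε C N0 : ℝ, 0 < ε ∧ 0 < C ∧ ∀ n : ℕ, N0 ≤ n →
    ∀ (ι : Type) [Fintype ι] (W : WC ι), LAdm W (κ1 * n) →
      (∀ i, ∀ k < (W.w i).L, (nm ((W.w i).pos k) : ℝ) ≤ R * n) →
      (∀ e, W.c e ≠ 0 → (nm (epos e) : ℝ) ≤ R * n ∧
        ∀ i, ∀ k < (W.w i).L, κ * n ≤ (nm (epos e - (W.w i).pos k) : ℝ)) →
      (∀ z, |H825.dv W.c z| ≤ B / n ^ 2) →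
      (∀ ω e, e ∈ W.S → ¬ Lc W (κ1 * n) e → Returns (nx ω) W.S e →
        Small (κ1 * n) (strand (nx ω) W.S e) →
        |2 * Real.cos (cang plane (Real.pi / 3) W.ph ω (strand (nx ω) W.S e))| ≤ √3) →
      ∀ (J : Type) [Fintype J], Fintype.card J ≤ m →
      ∀ (x : J → ℤ × ℤ) (Bf : J → Finset (ℤ × ℤ)), (∀ i j, i ≠ j → Disjoint (Bf i) (Bf j)) →
        (∀ i, ∀ v ∈ Bf i, (nm (v - x i) : ℝ) ≤ ε * n) → ∀ A : J → Set Cfg,
        (∀ i, ∀ ω ω' : Cfg, (∀ v ∈ Bf i, ω v = ω' v) → ω ∈ A i → ω' ∈ A i) →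
        (∀ j, ∃ i, ∃ k < (W.w i).L, (nm (x j - (W.w i).pos k) : ℝ) ≤ κ / 8 * n) →
        (∀ ω j, ω ∉ A j → Xc W.S W.ph ω = 0) →
        ∀ (F : Finset (ℤ × ℤ)) (G : Set Cfg), (∀ j, Disjoint F (Bf j)) →
          (∀ ω ω' : Cfg, (∀ v ∈ F, ω v = ω' v) → ω ∈ G → ω' ∈ G) →
          ∫ ω in G, |W.X ω| ∂μ ≤ C * μ.real G ^ (1 / 4 : ℝ) * ∏ j, μ.real (A j) := by
  classical
  obtain ⟨κ0, hκ0, hsf⟩ := small_flow4 κ R B hκ
  refine ⟨κ0, hκ0, fun κ1 h1p h1 => ?_⟩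
  obtain ⟨Mg, N0, hMg, hsf⟩ := hsf κ1 h1p h1
  obtain ⟨ε, C, ρ0, hε, hC, hρ0, hno⟩ := no3_G κ1 (R + 1) m h1p (by linarith)
  refine ⟨min ε (κ / 8), C * Mg ^ (1 / 4 : ℝ) + 1, max (max N0 ρ0) (max 1 (8 / κ)),
    lt_min hε (by positivity), by positivity, ?_⟩
  intro n hn ι _ W hA hbox hcs hdiv hht J _ hJ x Bf hBd hBx A hAl hxw hz F' G hF' hG
  have hnN : N0 ≤ n := (le_max_left _ _).trans ((le_max_left _ _).trans hn)
  have hnρ : ρ0 ≤ n := (le_max_right _ _).trans ((le_max_left _ _).trans hn)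
  have hn1 : (1 : ℝ) ≤ n := (le_max_left _ _).trans ((le_max_right _ _).trans hn)
  have hnκ : 8 / κ ≤ n := (le_max_right _ _).trans ((le_max_right _ _).trans hn)
  have hn0 : (0 : ℝ) < n := by linarith
  have hκn : 8 ≤ κ * n := by
    rwa [div_le_iff₀ hκ, mul_comm] at hnκ
  have hd0 : 0 ≤ κ1 * n := by positivity
  -- the flow
  obtain ⟨F, g, hF1, hF2, hF3, hF4, hF5⟩ := hsf n hnN W.c
    {p | ∃ i, ∃ k < (W.w i).L, (W.w i).pos k = p}
    (fun e he => ⟨(hcs e he).1, by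
      rintro p ⟨i, k, hk, rfl⟩
      exact (hcs e he).2 i k hk⟩) hdiv
  -- the edges
  obtain ⟨F0, hF0⟩ := Vale.Agent.P167.H45.box_fin 0 ⌊R * n⌋
  set E : Finset Ed := F0.image Sum.inl ∪ F0.image Sum.inr with hE
  have memE : ∀ e : Ed, e ∈ E ↔ (nm (epos e) : ℝ) ≤ R * n := by
    intro e
    rw [← Int.le_floor]
    have : nm (epos e) = nm (epos e - 0) := by rw [sub_zero]
    rw [this, ← hF0]
    rcases e with v | v <;> simp [hE, epos]
  have hSE : W.S ⊆ E := by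
    intro e he
    obtain ⟨i, k, hk, rfl⟩ := mem_WS.1 he
    rw [memE, ← pos_eq]
    exact hbox i k hk
  have hcE : ∀ e, W.c e ≠ 0 → e ∈ E := fun e he => (memE e).2 (hcs e he).1
  have key := hno n hnρ (0, 0) J hJ x Bf hBd
    (fun j v hv => (hBx j v hv).trans (mul_le_mul_of_nonneg_right (min_le_left _ _) hn0.le)) A hAl
    F g ?_ hF2 (fun ω => (hF3 ω).le) Mg hMg hF4 F' G hF' hG W.S E W.ph hSE ?_ ?_ ?_ ?_
  · -- conclusion
    have h1 : ∫ ω in G, |W.X ω| ∂μ = (√3)⁻¹ ^ W.S.card * ∫ ω in G, |Xc W.S W.ph ω| ∂μ := by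
      rw [← integral_const_mul]
      refine integral_congr_ae (Filter.Eventually.of_forall fun ω => ?_)
      show |W.X ω| = _
      unfold WC.X
      rw [abs_mul, abs_of_nonneg (by positivity)]
    have h3 : (√3)⁻¹ ^ W.S.card * √3 ^ W.S.card = 1 := by
      rw [← mul_pow, inv_mul_cancel₀ (by positivity), one_pow]
    have hp : 0 ≤ ∏ j, μ.real (A j) := prod_nonneg fun j _ => measureReal_nonneg
    have hGr : 0 ≤ μ.real G ^ (1 / 4 : ℝ) := Real.rpow_nonneg measureReal_nonneg _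
    rw [h1]
    calc (√3)⁻¹ ^ W.S.card * ∫ ω in G, |Xc W.S W.ph ω| ∂μ
        ≤ (√3)⁻¹ ^ W.S.card * (C * Mg ^ (1 / 4 : ℝ) * μ.real G ^ (1 / 4 : ℝ) * √3 ^ W.S.card *
            ∏ j, μ.real (A j)) := mul_le_mul_of_nonneg_left key (by positivity)
      _ = ((√3)⁻¹ ^ W.S.card * √3 ^ W.S.card) * (C * Mg ^ (1 / 4 : ℝ) *
            (μ.real G ^ (1 / 4 : ℝ) * ∏ j, μ.real (A j))) := by ring
      _ = C * Mg ^ (1 / 4 : ℝ) * (μ.real G ^ (1 / 4 : ℝ) * ∏ j, μ.real (A j)) := by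
          rw [h3, one_mul]
      _ ≤ (C * Mg ^ (1 / 4 : ℝ) + 1) * (μ.real G ^ (1 / 4 : ℝ) * ∏ j, μ.real (A j)) :=
          mul_le_mul_of_nonneg_right (by linarith) (mul_nonneg hGr hp)
      _ = _ := by ring
  · -- the flow is away from the balls
    intro j
    rw [Finset.disjoint_left]
    intro v hv hv'
    have h1 : (nm (v - x j) : ℝ) ≤ κ / 8 * n :=
      (hBx j v hv').trans (mul_le_mul_of_nonneg_right (min_le_right _ _) hn0.le)
    obtain ⟨i, k, hk, h2⟩ := hxw j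
    have h3 := hF1 v hv _ ⟨i, k, hk, rfl⟩
    have h4 := Vale.Agent.P167.H45.nm_sub_le v (x j) ((W.w i).pos k)
    have h5 : (nm (v - (W.w i).pos k) : ℝ) ≤ nm (v - x j) + nm (x j - (W.w i).pos k) := by
      exact_mod_cast h4
    nlinarith
  · -- the phases vanish off `E`
    intro e he b
    rw [ph_woff (fun h => he (hSE h))]
    have : W.c e = 0 := by
      by_contra hc
      exact he (hcE e hc)
    rw [this, zero_div]
  · intro e he
    have h1 := (memE e).1 he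
    have h2 := hdv_epos e
    have h3 := Vale.Agent.P167.H45.nm_sub_le (hdv e) (epos e) 0
    rw [sub_zero, sub_zero] at h3
    have h4 : (nm (hdv e - (0, 0)) : ℝ) ≤ nm (epos e) + 1 := by
      have h5 : hdv e - (0, 0) = hdv e := by
        rw [show ((0 : ℤ), (0 : ℤ)) = 0 from rfl, sub_zero]
      rw [h5]
      have : nm (hdv e) ≤ nm (epos e) + 1 := by linarith
      exact_mod_cast this
    refine h4.trans ?_
    linarith
  · exact Filter.Eventually.of_forall fun ω _ => fun ⟨j, hj⟩ => hz ω j hj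
  · filter_upwards [s_fin] with ω hω _
    refine hA.smP_le hd0 hω E ?_ (hht ω)
    have h1 := hF5 ω W.S E W.ph ?_ ?_ hcE
    · convert h1
    · intro e he
      obtain ⟨i, k, hk, rfl⟩ := mem_WS.1 he
      exact ⟨i, k, hk, pos_eq _ _⟩
    · intro e he
      rw [ph_woff he, ph_woff he]
      ring

end Vale.Agent.P167.H945
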