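import Vale.Agent.P167.H945.Nrm

/-!
# P167, block NORM: the abstract bound of NO3 for arbitrary index types
-/

namespace Vale.Agent.P167.H945

open Finset MeasureTheory ProbabilityTheory
open Vale.Agent.P167.A (plane)
open Vale.Agent.P167.H685
open Vale.Agent.P167.H199

theorem int_abs_le {f : Cfg → ℝ} {r : ℝ} (hr : 0 ≤ r)
    (h : ∫⁻ ω, ENNReal.ofReal |f ω| ∂μ ≤ ENNReal.ofReal r) : ∫ ω, |f ω| ∂μ ≤ r := by
  by_cases hm : AEStronglyMeasurable (fun ω => |f ω|) μ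
  · rw [integral_eq_lintegral_of_nonneg_ae (Filter.Eventually.of_forall fun ω => abs_nonneg _) hm]
    exact ENNReal.toReal_le_of_le_ofReal hr h
  · rw [integral_non_aestronglyMeasurable hm]
    exact hr

/-- **NO3, abstract form.** -/
theorem no3_abs (κ R : ℝ) (m : ℕ) (hκ : 0 < κ) (hR : 0 ≤ R) : ∃ ε C ρ0 : ℝ, 0 < ε ∧ 0 < C ∧
    0 < ρ0 ∧ ∀ ρ : ℝ, ρ0 ≤ ρ → ∀ (c : ℤ × ℤ) (J : Type) [Fintype J], Fintype.card J ≤ m →
      ∀ (x : J → ℤ × ℤ) (B : J → Finset (ℤ × ℤ)), (∀ i j, i ≠ j → Disjoint (B i) (B j)) →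
        (∀ i, ∀ v ∈ B i, (nm (v - x i) : ℝ) ≤ ε * ρ) → ∀ A : J → Set Cfg,
        (∀ i, ∀ ω ω' : Cfg, (∀ v ∈ B i, ω v = ω' v) → ω ∈ A i → ω' ∈ A i) →
        ∀ (F : Finset (ℤ × ℤ)) (g : Cfg → ℝ), (∀ i, Disjoint F (B i)) →
        (∀ ω ω' : Cfg, (∀ v ∈ F, ω v = ω' v) → g ω = g ω') → (∀ ω, 0 ≤ g ω) →
        ∀ M : ℝ, 0 ≤ M → ∫⁻ ω, ENNReal.ofReal (g ω) ^ (2 : ℝ) ∂μ ≤ ENNReal.ofReal M →
        ∀ (S E : Finset Ed) (a : Ed → Bool → ℝ), S ⊆ E → (∀ e ∉ E, ∀ b, a e b = 0) →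
        (∀ e ∈ E, (nm (hdv e - c) : ℝ) ≤ R * ρ) →
        (∀ᵐ ω ∂μ, (∃ i, ω ∉ A i) → Xc S a ω = 0) →
        (∀ᵐ ω ∂μ, smP S E a (κ * ρ) ω ≤ √3 ^ S.card * g ω) →
        ∫ ω, |Xc S a ω| ∂μ ≤ C * √M * √3 ^ S.card * ∏ i, μ.real (A i) := by
  classical
  obtain ⟨ε, C, ρ0, hε, hC, hρ0, h⟩ := no3 κ R m hκ hR
  refine ⟨ε, √C, ρ0, hε, Real.sqrt_pos.2 hC, hρ0, fun ρ hρ c J _ hJ x B hB hBx A hA F g hF hg hg0
    M hM hgM S E a hSE ha hE h0 h1 => ?_⟩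
  obtain ⟨f⟩ : Nonempty (J ↪ Fin m) := Function.Embedding.nonempty_of_card_le (by simpa using hJ)
  set x' : Fin m → ℤ × ℤ := Function.extend f x 0 with hx'
  set B' : Fin m → Finset (ℤ × ℤ) := Function.extend f B (fun _ => ∅) with hB'
  set A' : Fin m → Set Cfg := Function.extend f A (fun _ => Set.univ) with hA'
  have ex : ∀ i, x' (f i) = x i := fun i => f.injective.extend_apply _ _ _
  have eB : ∀ i, B' (f i) = B i := fun i => f.injective.extend_apply _ _ _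
  have eA : ∀ i, A' (f i) = A i := fun i => f.injective.extend_apply _ _ _
  set I : Finset (Fin m) := univ.map f with hI
  have mI : ∀ k ∈ I, ∃ i, f i = k := fun k hk => by
    obtain ⟨i, _, hi⟩ := mem_map.1 hk
    exact ⟨i, hi⟩
  have h2 := h ρ hρ c x' I B' ?_ ?_ A' ?_ F g ?_ hg hg0 S E a hSE ha hE ?_ h1
  · apply int_abs_le (by positivity)
    have h3 : ENNReal.ofReal (√3 ^ S.card) * ((ENNReal.ofReal C) ^ (1 / 2 : ℝ) *
        (∫⁻ ω, ENNReal.ofReal (g ω) ^ (2 : ℝ) ∂μ) ^ (1 / 2 : ℝ) * ∏ i ∈ I, μ (A' i)) ≤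
        ENNReal.ofReal (√C * √M * √3 ^ S.card * ∏ i, μ.real (A i)) := by
      have e0 : ∏ i ∈ I, μ (A' i) = ∏ i, μ (A i) := by
        rw [hI, prod_map]
        exact prod_congr rfl fun i _ => by rw [eA]
      have e1 : ENNReal.ofReal (√C * √M * √3 ^ S.card * ∏ i, μ.real (A i)) =
          ENNReal.ofReal (√3 ^ S.card) * (ENNReal.ofReal √C * ENNReal.ofReal √M *
            ∏ i, μ (A i)) := by
        rw [show √C * √M * √3 ^ S.card * ∏ i, μ.real (A i) =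
          √3 ^ S.card * (√C * √M * ∏ i, μ.real (A i)) by ring,
          ENNReal.ofReal_mul (by positivity), ENNReal.ofReal_mul (by positivity),
          ENNReal.ofReal_mul (by positivity), ENNReal.ofReal_prod_of_nonneg
            (fun i _ => measureReal_nonneg)]
        congr 2
        refine prod_congr rfl fun i _ => ?_
        rw [ofReal_measureReal]
      rw [e0, e1]
      have e2 : ENNReal.ofReal √C = ENNReal.ofReal C ^ (1 / 2 : ℝ) := by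
        rw [ENNReal.ofReal_rpow_of_pos hC, Real.sqrt_eq_rpow]
      have e3 : ENNReal.ofReal √M = ENNReal.ofReal M ^ (1 / 2 : ℝ) := by
        rw [ENNReal.ofReal_rpow_of_nonneg hM (by norm_num), Real.sqrt_eq_rpow]
      rw [e2, e3]
      gcongr
    exact h2.trans h3
  · intro i hi j hj hne
    obtain ⟨i, rfl⟩ := mI i hi
    obtain ⟨j, rfl⟩ := mI j hj
    rw [eB, eB]
    exact hB i j fun h => hne (by rw [h])
  · intro i hi v hv
    obtain ⟨i, rfl⟩ := mI i hi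
    rw [eB] at hv
    rw [ex]
    exact hBx i v hv
  · intro i hi ω ω' hw
    obtain ⟨i, rfl⟩ := mI i hi
    rw [eB] at hw
    rw [eA]
    exact hA i ω ω' hw
  · intro i hi
    obtain ⟨i, rfl⟩ := mI i hi
    rw [eB]
    exact hF i
  · filter_upwards [h0] with ω h0
    rintro ⟨i, hi, hi'⟩
    obtain ⟨i, rfl⟩ := mI i hi
    rw [eA] at hi'
    exact h0 ⟨i, hi'⟩

end Vale.Agent.P167.H945
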