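import Vale.Agent.P167.H662.GeoDefs
import Vale.Agent.P167.H945.Hos

/-!
# P167, block START [MB]: elementary geometry of the walls of a polygon with holes
-/

namespace Vale.Agent.P167.H945

open Finset
open Vale.Agent.P167.H825
open Vale.Agent.P167.E6 (IsPolygon Encloses dir)

/-- The medial edge of the `t`-th step of the line which starts at `z` in the direction `r`. -/
def sed (r : Fin 4) (z : ℤ × ℤ) (t : ℤ) : Ed :=
  match r with
  | 0 => Sum.inr (z.1 + t, z.2 - 1)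
  | 1 => Sum.inl (z.1 - 1, z.2 + t)
  | 2 => Sum.inr (z.1 - t - 1, z.2 - 1)
  | 3 => Sum.inl (z.1 - 1, z.2 - t - 1)

theorem sed_inj {r : Fin 4} {z : ℤ × ℤ} {t t' : ℤ} (h : sed r z t = sed r z t') : t = t' := by
  fin_cases r <;> simp [sed] at h <;> omega

theorem sideWall_L (z : ℤ × ℤ) (r : Fin 4) (s e : ℕ) (a : ℝ) (t0 : Option ℕ) :
    (sideWall z r s e a t0).L = e - s := by
  fin_cases r <;> rfl

theorem mem_sideWall {z : ℤ × ℤ} {r : Fin 4} {s e : ℕ} {a : ℝ} {t0 : Option ℕ} {f : Ed} :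
    f ∈ (sideWall z r s e a t0).S ↔ ∃ t : ℕ, s ≤ t ∧ t < e ∧ f = sed r z t := by
  unfold Wall.S
  rw [mem_image]
  constructor
  · rintro ⟨k, hk, rfl⟩
    rw [mem_range, sideWall_L] at hk
    fin_cases r
    · exact ⟨s + k, by omega, by omega, by simp [sideWall, Wall.e, sed]; omega⟩
    · exact ⟨s + k, by omega, by omega, by simp [sideWall, Wall.e, sed]; omega⟩
    · exact ⟨e - 1 - k, by omega, by omega, by simp [sideWall, Wall.e, sed]; omega⟩
    · exact ⟨e - 1 - k, by omega, by omega, by simp [sideWall, Wall.e, sed]; omega⟩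
  · rintro ⟨t, h1, h2, rfl⟩
    fin_cases r
    · exact ⟨t - s, by rw [mem_range, sideWall_L]; omega, by simp [sideWall, Wall.e, sed]; omega⟩
    · exact ⟨t - s, by rw [mem_range, sideWall_L]; omega, by simp [sideWall, Wall.e, sed]; omega⟩
    · exact ⟨e - 1 - t, by rw [mem_range, sideWall_L]; omega,
        by simp [sideWall, Wall.e, sed]; omega⟩
    · exact ⟨e - 1 - t, by rw [mem_range, sideWall_L]; omega,
        by simp [sideWall, Wall.e, sed]; omega⟩

/-- The site of the step. -/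
def qs (r : Fin 4) (z : ℤ × ℤ) (t : ℤ) : ℤ × ℤ := z + t • dir r

theorem epos_sed (r : Fin 4) (z : ℤ × ℤ) (t : ℤ) : nm (epos (sed r z t) - qs r z t) ≤ 1 := by
  have h1 : z.1 - t - 1 - (z.1 + -t) = -1 := by ring
  have h2 : z.2 - t - 1 - (z.2 + -t) = -1 := by ring
  fin_cases r <;> simp [sed, epos, qs, dir, nm, h1, h2]

theorem rnd_le (z b : ℤ × ℤ) (t : ℕ) : t ≤ rnd z b t ∧ rnd z b t ≤ t + 1 := by
  unfold rnd
  constructor
  · omega
  · have := Int.emod_lt_of_pos (z.1 + z.2 + t + b.1 + b.2) (show (0 : ℤ) < 2 by norm_num)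
    omega

/-! ### distances between points of the enlarged polygon -/

theorem abs_small {n A u : ℤ} (h1 : |n * A + u| < n) (h2 : |u| ≤ 2 * n) :
    A = -2 ∨ A = -1 ∨ A = 0 ∨ A = 1 ∨ A = 2 := by
  rw [abs_lt] at h1
  rw [abs_le] at h2
  have hn : 0 < n := by omega
  have h3 : A < 3 := by
    by_contra h
    push Not at h
    nlinarith
  have h4 : -3 < A := by
    by_contra h
    push Not at h
    nlinarith
  omega

/-- Coordinates of the directions. -/
theorem dir_cases (r : Fin 4) : dir r = (1, 0) ∨ dir r = (0, 1) ∨ dir r = (-1, 0) ∨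
    dir r = (0, -1) := by
  fin_cases r <;> simp [dir]

/-- The possible values of a coordinate. -/
theorem coord {n A u : ℤ} (h1 : |n * A + u| < n) (h2 : |u| ≤ 2 * n) :
    (A = -2 ∧ n < u) ∨ (A = -1 ∧ 0 < u) ∨ (A = 0 ∧ |u| < n) ∨ (A = 1 ∧ u < 0) ∨
      (A = 2 ∧ u < -n) := by
  rcases abs_small h1 h2 with rfl | rfl | rfl | rfl | rfl <;> rw [abs_lt] at h1 ⊢ <;> omega

theorem far_sides {P P' D D' : ℤ × ℤ}
    (hD : D = (1, 0) ∨ D = (0, 1) ∨ D = (-1, 0) ∨ D = (0, -1))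
    (hD' : D' = (1, 0) ∨ D' = (0, 1) ∨ D' = (-1, 0) ∨ D' = (0, -1))
    (h1 : P ≠ P') (h2 : P ≠ P' + D')
    (h3 : P + D ≠ P') (h4 : P + D ≠ P' + D') {n t t' : ℤ} (ht : 0 ≤ t) (htn : t ≤ n)
    (ht' : 0 ≤ t') (htn' : t' ≤ n) :
    n ≤ nm ((n • P + t • D) - (n • P' + t' • D')) := by
  obtain ⟨a, b⟩ := P
  obtain ⟨a', b'⟩ := P'
  by_contra h
  push Not at h
  rw [nm, max_lt_iff] at h
  obtain ⟨h5, h6⟩ := h
  obtain ⟨A, hA⟩ : ∃ A, A = a - a' := ⟨_, rfl⟩
  obtain ⟨B, hB⟩ : ∃ B, B = b - b' := ⟨_, rfl⟩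
  obtain rfl : a = a' + A := by omega
  obtain rfl : b = b' + B := by omega
  clear hA hB
  have h5' : |n * A + (t * D.1 - t' * D'.1)| < n := by
    have e : n * A + (t * D.1 - t' * D'.1) =
        (n • (a' + A, b' + B) + t • D - (n • (a', b') + t' • D')).1 := by
      simp; ring
    rw [e]; exact h5
  have h6' : |n * B + (t * D.2 - t' * D'.2)| < n := by
    have e : n * B + (t * D.2 - t' * D'.2) =
        (n • (a' + A, b' + B) + t • D - (n • (a', b') + t' • D')).2 := by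
      simp; ring
    rw [e]; exact h6
  clear h5 h6
  have u1 : |t * D.1 - t' * D'.1| ≤ 2 * n := by
    rcases hD with rfl | rfl | rfl | rfl <;> rcases hD' with rfl | rfl | rfl | rfl <;>
      simp only [mul_one, mul_zero, mul_neg] <;> rw [abs_le] <;> omega
  have u2 : |t * D.2 - t' * D'.2| ≤ 2 * n := by
    rcases hD with rfl | rfl | rfl | rfl <;> rcases hD' with rfl | rfl | rfl | rfl <;>
      simp only [mul_one, mul_zero, mul_neg] <;> rw [abs_le] <;> omega
  have k1 := coord h5' u1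
  have k2 := coord h6' u2
  clear h5' h6' u1 u2
  rw [abs_lt] at k1 k2
  rcases hD with rfl | rfl | rfl | rfl <;> rcases hD' with rfl | rfl | rfl | rfl <;>
    simp only [mul_one, mul_zero, mul_neg, ne_eq, Prod.mk.injEq, Prod.mk_add_mk,
      sub_neg_eq_add, zero_sub, sub_zero, add_zero] at h1 h2 h3 h4 k1 k2 <;> omega

theorem adj_sides {P D D' : ℤ × ℤ}
    (hD : D = (1, 0) ∨ D = (0, 1) ∨ D = (-1, 0) ∨ D = (0, -1))
    (hD' : D' = (1, 0) ∨ D' = (0, 1) ∨ D' = (-1, 0) ∨ D' = (0, -1))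
    (h : D + D' ≠ 0) {n t t' : ℤ} (htn : t ≤ n) (ht' : 0 ≤ t') :
    n - t ≤ nm ((n • P + t • D) - (n • (P + D) + t' • D')) ∧
      t' ≤ nm ((n • P + t • D) - (n • (P + D) + t' • D')) := by
  have e : (n • P + t • D) - (n • (P + D) + t' • D') = -((n - t) • D + t' • D') := by
    rw [smul_add, sub_smul]; abel
  rw [e]
  unfold nm
  have h' : D.1 + D'.1 ≠ 0 ∨ D.2 + D'.2 ≠ 0 := by
    by_contra hc
    push Not at hc
    exact h (Prod.ext hc.1 hc.2)
  clear h e
  rcases hD with rfl | rfl | rfl | rfl <;> rcases hD' with rfl | rfl | rfl | rfl <;>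
    first
    | (exfalso; revert h'; norm_num; done)
    | (simp only [Prod.smul_mk, smul_eq_mul, mul_one, mul_zero, mul_neg, Prod.mk_add_mk,
        Prod.neg_mk, add_zero, zero_add, le_max_iff, le_abs]
       omega)

section poly

variable {l : ℕ} {p : ZMod l → ℤ × ℤ}

theorem dirOf_dir (r : Fin 4) : dirOf (dir r) = r := by
  fin_cases r <;> simp [dir, dirOf]

theorem next_eq (hp : IsPolygon p) (i : ℕ) : p ((i : ZMod l) + 1) = p i + dir (pdir p i) := by
  obtain ⟨r, hr⟩ := hp.2.2 (i : ZMod l)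
  unfold pdir
  rw [hr, add_sub_cancel_left, dirOf_dir]

theorem no_back (hp : IsPolygon p) {i i' : ℕ} (h : (i' : ZMod l) = i + 1) :
    dir (pdir p i) + dir (pdir p i') ≠ 0 := by
  intro h0
  have h1 := next_eq hp i
  have h2 := next_eq hp i'
  rw [h, h1, add_assoc (p i), h0, add_zero] at h2
  have h3 := hp.2.1 h2
  have h4 : ((2 : ℕ) : ZMod l) = 0 := by
    have : (i : ZMod l) + 1 + 1 - i = 0 := by rw [h3, sub_self]
    push_cast
    rw [← this]; ring
  rw [ZMod.natCast_eq_zero_iff] at h4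
  have := Nat.le_of_dvd (by norm_num) h4
  have := hp.1
  omega

/-- The point at distance `t` on the side `i`. -/
def pq (p : ZMod l → ℤ × ℤ) (n : ℤ) (i : ℕ) (t : ℤ) : ℤ × ℤ := qs (pdir p i) (n • p i) t

theorem two_pts (hp : IsPolygon p) {i i' : ℕ} (hne : (i : ZMod l) ≠ i') {n t t' : ℤ} (ht : 0 ≤ t)
    (htn : t ≤ n) (ht' : 0 ≤ t') (htn' : t' ≤ n) :
    n ≤ nm (pq p n i t - pq p n i' t') ∨
    ((i' : ZMod l) = i + 1 ∧ n - t ≤ nm (pq p n i t - pq p n i' t') ∧
      t' ≤ nm (pq p n i t - pq p n i' t')) ∨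
    ((i : ZMod l) = i' + 1 ∧ n - t' ≤ nm (pq p n i t - pq p n i' t') ∧
      t ≤ nm (pq p n i t - pq p n i' t')) := by
  by_cases h1 : (i' : ZMod l) = i + 1
  · right; left
    refine ⟨h1, ?_⟩
    unfold pq qs
    rw [h1, next_eq hp i]
    exact adj_sides (dir_cases _) (dir_cases _) (no_back hp h1) htn ht'
  by_cases h2 : (i : ZMod l) = i' + 1
  · right; right
    refine ⟨h2, ?_⟩
    rw [Vale.Agent.P167.H45.nm_sub_comm]
    unfold pq qs
    rw [h2, next_eq hp i']
    exact adj_sides (dir_cases _) (dir_cases _) (no_back hp h2) htn' ht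
  · left
    refine far_sides (dir_cases _) (dir_cases _) ?_ ?_ ?_ ?_ ht htn ht' htn'
    · exact fun h => hne (hp.2.1 h)
    · rw [← next_eq hp i']
      exact fun h => h2 (hp.2.1 h)
    · rw [← next_eq hp i]
      exact fun h => h1 (hp.2.1 h).symm
    · rw [← next_eq hp i, ← next_eq hp i']
      exact fun h => hne (add_right_cancel (hp.2.1 h))

theorem same_side (n : ℤ) (i : ℕ) (t t' : ℤ) : nm (pq p n i t - pq p n i t') = |t - t'| := by
  unfold pq qs
  rw [add_sub_add_left_eq_sub, ← sub_smul]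
  rcases dir_cases (pdir p i) with h | h | h | h <;> rw [h] <;> simp [nm, abs_sub_comm]

theorem pq_next (hp : IsPolygon p) {i i' : ℕ} (h : (i' : ZMod l) = i + 1) (n : ℤ) :
    pq p n i' 0 = pq p n i n := by
  unfold pq qs
  rw [h, next_eq hp i, zero_smul, add_zero, smul_add]

theorem cast_ne (_hp : IsPolygon p) {i i' : ℕ} (hi : i < l) (hi' : i' < l) (h : i ≠ i') :
    (i : ZMod l) ≠ i' := by
  intro h'
  rw [ZMod.natCast_eq_natCast_iff', Nat.mod_eq_of_lt hi, Nat.mod_eq_of_lt hi'] at h'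
  exact h h'

variable {Q : Marks}

theorem θ_mono (hQ : Q.Ok) (i : ℕ) {j j' : ℕ} (h : j ≤ j') (hj : j' ≤ Q.m + 1) :
    Q.θ i j ≤ Q.θ i j' := by
  induction j' with
  | zero => obtain rfl : j = 0 := by omega
            exact le_rfl
  | succ k ih =>
    rcases Nat.lt_or_ge j (k + 1) with h1 | h1
    · exact (ih (by omega) (by omega)).trans (hQ.lt i k (by omega)).le
    · obtain rfl : j = k + 1 := by omega
      exact le_rfl

theorem θ_nonneg (hQ : Q.Ok) (i : ℕ) {j : ℕ} (hj : j ≤ Q.m + 1) : 0 ≤ Q.θ i j := by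
  rw [← hQ.zero i]; exact θ_mono hQ i (Nat.zero_le _) hj

theorem θ_le_one (hQ : Q.Ok) (i : ℕ) {j : ℕ} (hj : j ≤ Q.m + 1) : Q.θ i j ≤ 1 := by
  rw [← hQ.one i]; exact θ_mono hQ i hj le_rfl

theorem fl_mono (hQ : Q.Ok) (n i : ℕ) {j j' : ℕ} (h : j ≤ j') (hj : j' ≤ Q.m + 1) :
    ⌊Q.θ i j * n⌋₊ ≤ ⌊Q.θ i j' * n⌋₊ :=
  Nat.floor_mono (mul_le_mul_of_nonneg_right (θ_mono hQ i h hj) (Nat.cast_nonneg _))

theorem fl_le (hQ : Q.Ok) (n i : ℕ) {j : ℕ} (hj : j ≤ Q.m + 1) : ⌊Q.θ i j * n⌋₊ ≤ n := by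
  have : Q.θ i j * n ≤ n := by
    have := mul_le_mul_of_nonneg_right (θ_le_one hQ i hj) (Nat.cast_nonneg (α := ℝ) n)
    rwa [one_mul] at this
  exact Nat.floor_le_of_le this

/-- Start of the wall. -/
noncomputable def ws (p : ZMod l → ℤ × ℤ) (Q : Marks) (n d i j : ℕ) : ℕ :=
  rnd ((n : ℤ) • p i) (bsite p Q n) (⌊Q.θ i j * n⌋₊ + d)

/-- End of the wall. -/
noncomputable def we (p : ZMod l → ℤ × ℤ) (Q : Marks) (n d i j : ℕ) : ℕ :=
  rnd ((n : ℤ) • p i) (bsite p Q n) (⌊Q.θ i (j + 1) * n⌋₊ - d)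

theorem mem_pwall {n d i j : ℕ} {f : Ed} : f ∈ (pwall p Q n d i j).S ↔
    ∃ t : ℕ, ws p Q n d i j ≤ t ∧ t < we p Q n d i j ∧ f = sed (pdir p i) ((n : ℤ) • p i) t :=
  mem_sideWall

theorem mem_fwall {n i : ℕ} {f : Ed} : f ∈ (H662.fwall p Q n i).S ↔
    ∃ t : ℕ, t < n ∧ f = sed (pdir p i) ((n : ℤ) • p i) t := by
  unfold H662.fwall
  rw [mem_sideWall]
  simp

theorem ws_ge (n d i j : ℕ) : ⌊Q.θ i j * n⌋₊ + d ≤ ws p Q n d i j ∧
    ws p Q n d i j ≤ ⌊Q.θ i j * n⌋₊ + d + 1 := rnd_le _ _ _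

theorem we_le (n d i j : ℕ) : ⌊Q.θ i (j + 1) * n⌋₊ - d ≤ we p Q n d i j ∧
    we p Q n d i j ≤ ⌊Q.θ i (j + 1) * n⌋₊ - d + 1 := rnd_le _ _ _

theorem hsite_eq (n : ℕ) (x : Fin l × Fin (Q.m + 1)) :
    H662.hsite p Q n x = pq p n x.1 ⌊Q.θ x.1 x.2 * n⌋₊ := rfl

theorem tsite_eq (n d : ℕ) (x : Fin l × Fin (Q.m + 1)) :
    H662.tsite p Q n d x = pq p n x.1 (ws p Q n d x.1 x.2) := rfl

/-- Points on different sides are far from each other or near a corner. -/
theorem sep_sides (hp : IsPolygon p) (hQ : Q.Ok) {n i i' : ℕ} (hi : i < l) (hi' : i' < l)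
    (hne : i ≠ i') {t t' : ℤ} (ht : 0 ≤ t) (htn : t ≤ n) (ht' : 0 ≤ t') (htn' : t' ≤ n) :
    (n : ℤ) ≤ nm (pq p n i t - pq p n i' t') ∨ ∃ z : Fin l × Fin (Q.m + 1), (z.2 : ℕ) = 0 ∧
      nm (pq p n i t - H662.hsite p Q n z) ≤ nm (pq p n i t - pq p n i' t') := by
  rcases two_pts hp (cast_ne hp hi hi' hne) ht htn ht' htn' with h | ⟨h1, h2, -⟩ | ⟨h1, -, h2⟩
  · exact Or.inl h
  · refine Or.inr ⟨(⟨i', hi'⟩, 0), rfl, ?_⟩
    rw [hsite_eq]
    have e : pq p n ((⟨i', hi'⟩, 0) : Fin l × Fin (Q.m + 1)).1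
        ⌊Q.θ ((⟨i', hi'⟩, 0) : Fin l × Fin (Q.m + 1)).1
          ((⟨i', hi'⟩, 0) : Fin l × Fin (Q.m + 1)).2 * n⌋₊ = pq p n i n := by
      simp only [Fin.val_zero, hQ.zero, zero_mul, Nat.floor_zero, Nat.cast_zero]
      exact pq_next hp h1 n
    rw [e, same_side, abs_sub_comm, abs_of_nonneg (by omega)]
    exact h2
  · refine Or.inr ⟨(⟨i, hi⟩, 0), rfl, ?_⟩
    rw [hsite_eq]
    simp only [Fin.val_zero, hQ.zero, zero_mul, Nat.floor_zero, Nat.cast_zero]
    rw [same_side, sub_zero, abs_of_nonneg ht]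
    exact h2

/-- The points of a wall. -/
theorem wall_pt (hQ : Q.Ok) {n d i j : ℕ} (hj : j ≤ Q.m) (hd : 1 ≤ d) {t : ℕ}
    (h1 : ws p Q n d i j ≤ t) (h2 : t < we p Q n d i j) :
    ⌊Q.θ i j * n⌋₊ + d ≤ t ∧ t + d ≤ ⌊Q.θ i (j + 1) * n⌋₊ ∧ d ≤ t ∧ t + d ≤ n := by
  have k1 := (ws_ge (p := p) (Q := Q) n d i j).1
  have k2 := (we_le (p := p) (Q := Q) n d i j).2
  have k3 := fl_le hQ n i (j := j + 1) (by omega)
  omega

/-- The points of the walls are far from the centres of the holes. -/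
theorem hole_dist (hp : IsPolygon p) (hQ : Q.Ok) {n d : ℕ} (x z : Fin l × Fin (Q.m + 1)) {t : ℕ}
    (h1 : ⌊Q.θ x.1 x.2 * n⌋₊ + d ≤ t) (h2 : t + d ≤ ⌊Q.θ x.1 (x.2 + 1) * n⌋₊) :
    (d : ℤ) ≤ nm (pq p n x.1 t - H662.hsite p Q n z) := by
  have hx := x.2.isLt
  have hz := z.2.isLt
  have k3 := fl_le hQ n x.1 (j := x.2 + 1) (by omega)
  rw [hsite_eq]
  by_cases h : (x.1 : ℕ) = z.1
  · rw [← h, same_side]
    rcases Nat.lt_or_ge x.2 z.2 with h3 | h3
    · have := fl_mono hQ n x.1 (j := x.2 + 1) (j' := z.2) (by omega) (by omega)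
      rw [abs_sub_comm, abs_of_nonneg (by omega)]
      omega
    · have := fl_mono hQ n x.1 (j := z.2) (j' := x.2) h3 (by omega)
      rw [abs_of_nonneg (by omega)]
      omega
  · rcases two_pts hp (cast_ne hp x.1.isLt z.1.isLt h) (n := n) (t := t)
      (t' := ⌊Q.θ z.1 z.2 * n⌋₊) (by omega) (by omega) (by omega)
      (by exact_mod_cast fl_le hQ n z.1 (by omega)) with h | ⟨-, h, -⟩ | ⟨-, -, h⟩
    · omega
    · omega
    · omega

/-- Two walls are far from each other, or near a common hole. -/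
theorem sep_walls (hp : IsPolygon p) (hQ : Q.Ok) {n d : ℕ} {x y : Fin l × Fin (Q.m + 1)}
    (hne : x ≠ y) {t t' : ℕ} (h1 : ⌊Q.θ x.1 x.2 * n⌋₊ + d ≤ t)
    (h2 : t + d ≤ ⌊Q.θ x.1 (x.2 + 1) * n⌋₊) (h1' : ⌊Q.θ y.1 y.2 * n⌋₊ + d ≤ t')
    (h2' : t' + d ≤ ⌊Q.θ y.1 (y.2 + 1) * n⌋₊) :
    (n : ℤ) ≤ nm (pq p n x.1 t - pq p n y.1 t') ∨ ∃ z : Fin l × Fin (Q.m + 1),
      nm (pq p n x.1 t - H662.hsite p Q n z) ≤ nm (pq p n x.1 t - pq p n y.1 t') := by
  have hx := x.2.isLt
  have hy := y.2.isLt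
  have k3 := fl_le hQ n x.1 (j := x.2 + 1) (by omega)
  have k4 := fl_le hQ n y.1 (j := y.2 + 1) (by omega)
  by_cases h : (x.1 : ℕ) = y.1
  · right
    have hne' : (x.2 : ℕ) ≠ y.2 := fun h' => hne (Prod.ext (Fin.ext h) (Fin.ext h'))
    rcases Nat.lt_or_gt_of_ne hne' with h3 | h3
    · refine ⟨(x.1, ⟨x.2 + 1, by omega⟩), ?_⟩
      have k5 := fl_mono hQ n x.1 (j := x.2 + 1) (j' := y.2) (by omega) (by omega)
      rw [hsite_eq, ← h, same_side, same_side]
      rw [← h] at h1'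
      show |(t : ℤ) - ⌊Q.θ x.1 (x.2 + 1) * n⌋₊| ≤ _
      rw [abs_sub_comm, abs_of_nonneg (by omega), abs_sub_comm, abs_of_nonneg (by omega)]
      omega
    · refine ⟨x, ?_⟩
      have k5 := fl_mono hQ n x.1 (j := y.2 + 1) (j' := x.2) (by omega) (by omega)
      rw [hsite_eq, ← h, same_side, same_side]
      rw [← h] at h2'
      rw [abs_of_nonneg (by omega), abs_of_nonneg (by omega)]
      omega
  · rcases sep_sides hp hQ (n := n) x.1.isLt y.1.isLt h (t := t) (t' := t') (by omega) (by omega)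
      (by omega) (by omega) with h | ⟨z, -, hz⟩
    · exact Or.inl h
    · exact Or.inr ⟨z, hz⟩

/-! ### the walls as sets of edges -/

theorem sed_kind (r : Fin 4) (z : ℤ × ℤ) (t : ℤ) :
    (sed r z t).isLeft = decide (r = 1 ∨ r = 3) := by
  fin_cases r <;> simp [sed]

theorem nm3 (a b c d : ℤ × ℤ) : nm (b - c) ≤ nm (a - b) + nm (a - d) + nm (d - c) := by
  have h1 := Vale.Agent.P167.H45.nm_sub_le b a c
  have h2 := Vale.Agent.P167.H45.nm_sub_le a d c
  rw [Vale.Agent.P167.H45.nm_sub_comm b a] at h1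
  linarith

/-- Positions of the edges and points of the polygon. -/
theorem nm_edge {r r' : Fin 4} {z z' : ℤ × ℤ} {t t' : ℤ} :
    nm (qs r z t - qs r' z' t') ≤ nm (epos (sed r z t) - epos (sed r' z' t')) + 2 := by
  have h1 := epos_sed r z t
  have h2 := epos_sed r' z' t'
  have h3 := nm3 (epos (sed r z t)) (qs r z t) (qs r' z' t') (epos (sed r' z' t'))
  linarith

/-- The edges of different full walls are different. -/
theorem fwall_disj (hp : IsPolygon p) {n i i' : ℕ} (hn : 3 ≤ n) (hi : i < l) (hi' : i' < l)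
    (hne : i ≠ i') {f : Ed} (h1 : f ∈ (H662.fwall p Q n i).S) (h2 : f ∈ (H662.fwall p Q n i').S) :
    False := by
  obtain ⟨t, ht, e1⟩ := mem_fwall.1 h1
  obtain ⟨t', ht', e2⟩ := mem_fwall.1 h2
  have h3 : nm (pq p n i t - pq p n i' t') ≤ 2 := by
    have := nm_edge (r := pdir p i) (r' := pdir p i') (z := (n : ℤ) • p i) (z' := (n : ℤ) • p i')
      (t := t) (t' := t')
    rw [← e1, ← e2, sub_self] at this
    exact this
  have key : ∀ {i i' t t' : ℕ}, t < n → t' < n → (i' : ZMod l) = i + 1 →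
      sed (pdir p i) ((n : ℤ) • p i) t ≠ sed (pdir p i') ((n : ℤ) • p i') t' := by
    intro i i' t t' ht ht' hii he
    have hk := congrArg Sum.isLeft he
    rw [sed_kind, sed_kind] at hk
    have hb := no_back hp hii
    rw [hii, next_eq hp i] at he
    generalize pdir p i = r at *
    generalize pdir p i' = r' at *
    fin_cases r <;> fin_cases r' <;>
      first
      | (exfalso; revert hk; simp; done)
      | (exfalso; revert hb; simp [dir]; done)
      | (simp [sed, dir] at he; omega)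
  rcases two_pts hp (cast_ne hp hi hi' hne) (n := n) (t := t) (t' := t') (by omega) (by omega)
    (by omega) (by omega) with h | ⟨h, -, -⟩ | ⟨h, -, -⟩
  · omega
  · exact key ht ht' h (e1.symm.trans e2)
  · exact key ht' ht h (e2.symm.trans e1)

end poly

/-! ### length and jump of a side wall -/

theorem sideWall_jump {z : ℤ × ℤ} {r : Fin 4} {s e T : ℕ} {a : ℝ} {x : ℝ} (hx : 0 ≤ x)
    (h1 : s + x ≤ T) (h2 : T + x ≤ e) :
    ((sideWall z r s e a (some T)).j = 1 ∨ (sideWall z r s e a (some T)).j = -1) ∧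
      x ≤ (sideWall z r s e a (some T)).k0 ∧
      (sideWall z r s e a (some T)).k0 + x ≤ (sideWall z r s e a (some T)).L := by
  have h3 : s ≤ T := by
    have : (s : ℝ) ≤ T := by linarith
    exact_mod_cast this
  have h4 : T ≤ e := by
    have : (T : ℝ) ≤ e := by linarith
    exact_mod_cast this
  fin_cases r <;> simp only [sideWall, Option.elim] <;>
    refine ⟨by simp, ?_, ?_⟩ <;>
    rw [Nat.cast_sub (by omega)] <;> try rw [Nat.cast_sub (by omega)]
  all_goals linarith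

theorem sideWall_j0 (z : ℤ × ℤ) (r : Fin 4) (s e : ℕ) (a : ℝ) :
    (sideWall z r s e a none).j = 0 := by
  fin_cases r <;> rfl

/-- The line of a wall with a jump and the rays from the jump. -/
theorem sideWall_line {z : ℤ × ℤ} {r : Fin 4} {s e T : ℕ} {a : ℝ} (h1 : s ≤ T) (h2 : T ≤ e) :
    wj (sideWall z r s e a (some T)) = H662.os r ∧
    (∀ f, f ∈ H662.Ray r (qs r z T) ∪ H662.Ray (r + 2) (qs r z T) ↔
      ∃ t, f = Ln (sideWall z r s e a (some T)).o (wc (sideWall z r s e a (some T))) t) ∧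
    (∀ t, Ln (sideWall z r s e a (some T)).o (wc (sideWall z r s e a (some T))) t ∈
      H662.Ray r (qs r z T) ↔ if r = 0 ∨ r = 3 then wp' (sideWall z r s e a (some T)) ≤ t else
        t < wp' (sideWall z r s e a (some T))) := by
  obtain ⟨z1, z2⟩ := z
  have hr : r = 0 ∨ r = 1 ∨ r = 2 ∨ r = 3 := by omega
  rcases hr with rfl | rfl | rfl | rfl
  · refine ⟨by simp [sideWall, wj, H662.os], fun f => ?_, fun t => ?_⟩
    · simp only [show (0 : Fin 4) + 2 = 2 from rfl, H662.Ray, qs, dir, sideWall, Ln, wc,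
        Set.mem_union, Set.mem_ofPred_eq, if_true]
      constructor
      · rintro (⟨x, hx, rfl⟩ | ⟨x, hx, rfl⟩)
        · exact ⟨x, by simp⟩
        · exact ⟨x, by simp⟩
      · rintro ⟨t, rfl⟩
        rcases le_or_gt (z1 + T) t with h | h
        · exact Or.inl ⟨t, by simpa using h, by simp⟩
        · exact Or.inr ⟨t, by simpa using h, by simp⟩
    · simp only [H662.Ray, qs, dir, sideWall, Ln, wc, wp', Option.elim_some, Set.mem_ofPred_eq, if_true, true_or]
      constructor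
      · rintro ⟨x, hx, he⟩
        simp at hx he
        omega
      · intro h
        refine ⟨t, ?_, by simp⟩
        simp
        omega
  · refine ⟨by simp [sideWall, wj, H662.os], fun f => ?_, fun t => ?_⟩
    · simp only [show (1 : Fin 4) + 2 = 3 from rfl, H662.Ray, qs, dir, sideWall, Ln, wc,
        Set.mem_union, Set.mem_ofPred_eq, Bool.false_eq_true, if_false]
      constructor
      · rintro (⟨x, hx, rfl⟩ | ⟨x, hx, rfl⟩)
        · exact ⟨-x - 1, by simp⟩
        · exact ⟨-x - 1, by simp⟩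
      · rintro ⟨t, rfl⟩
        rcases le_or_gt (z2 + T) (-t - 1) with h | h
        · exact Or.inl ⟨-t - 1, by simpa using h, by simp⟩
        · exact Or.inr ⟨-t - 1, by simpa using h, by simp⟩
    · simp only [H662.Ray, qs, dir, sideWall, Ln, wc, wp', Option.elim_some, Set.mem_ofPred_eq, Bool.false_eq_true,
        if_false, show ¬ ((1 : Fin 4) = 0 ∨ (1 : Fin 4) = 3) by decide]
      constructor
      · rintro ⟨x, hx, he⟩
        simp at hx he
        omega
      · intro h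
        refine ⟨-t - 1, ?_, by simp⟩
        simp
        omega
  · refine ⟨by simp [sideWall, wj, H662.os], fun f => ?_, fun t => ?_⟩
    · simp only [show (2 : Fin 4) + 2 = 0 from rfl, H662.Ray, qs, dir, sideWall, Ln, wc,
        Set.mem_union, Set.mem_ofPred_eq, if_true]
      constructor
      · rintro (⟨x, hx, rfl⟩ | ⟨x, hx, rfl⟩)
        · exact ⟨x, by simp⟩
        · exact ⟨x, by simp⟩
      · rintro ⟨t, rfl⟩
        rcases le_or_gt (z1 - T) t with h | h
        · exact Or.inr ⟨t, by simp; omega, by simp⟩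
        · exact Or.inl ⟨t, by simp; omega, by simp⟩
    · simp only [H662.Ray, qs, dir, sideWall, Ln, wc, wp', Option.elim_some, Set.mem_ofPred_eq, if_true, if_false,
        show ¬ ((2 : Fin 4) = 0 ∨ (2 : Fin 4) = 3) by decide]
      constructor
      · rintro ⟨x, hx, he⟩
        simp at hx he
        omega
      · intro h
        refine ⟨t, ?_, by simp⟩
        simp
        omega
  · refine ⟨by simp [sideWall, wj, H662.os], fun f => ?_, fun t => ?_⟩
    · simp only [show (3 : Fin 4) + 2 = 1 from rfl, H662.Ray, qs, dir, sideWall, Ln, wc,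
        Set.mem_union, Set.mem_ofPred_eq, Bool.false_eq_true, if_false]
      constructor
      · rintro (⟨x, hx, rfl⟩ | ⟨x, hx, rfl⟩)
        · exact ⟨-x - 1, by simp⟩
        · exact ⟨-x - 1, by simp⟩
      · rintro ⟨t, rfl⟩
        rcases le_or_gt (z2 - T) (-t - 1) with h | h
        · exact Or.inr ⟨-t - 1, by simp; omega, by simp⟩
        · exact Or.inl ⟨-t - 1, by simp; omega, by simp⟩
    · simp only [H662.Ray, qs, dir, sideWall, Ln, wc, wp', Option.elim_some, Set.mem_ofPred_eq, Bool.false_eq_true,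
        if_false, if_true, or_true]
      constructor
      · rintro ⟨x, hx, he⟩
        simp at hx he
        omega
      · intro h
        refine ⟨-t - 1, ?_, by simp⟩
        simp
        omega

/-- A strand over the base point, in the coordinates of the wall. -/
theorem OvD_FLL {z : ℤ × ℤ} {r : Fin 4} {s e T : ℕ} {a : ℝ} (h1 : s ≤ T) (h2 : T ≤ e)
    {B : Set (ℤ × ℤ)} {ω : Cfg} (h : H662.OvD r (qs r z T) B ω) :
    FLL (sideWall z r s e a (some T)).o (wc (sideWall z r s e a (some T)))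
      (wp' (sideWall z r s e a (some T))) (wj (sideWall z r s e a (some T))) B ω := by
  obtain ⟨k1, k2, k3⟩ := sideWall_line (z := z) (r := r) (a := a) h1 h2
  obtain ⟨f, n, g1, g2, g3, g4, g5, g6, g7, g8⟩ := h
  obtain ⟨t₀, rfl⟩ := (k2 f).1 g2
  obtain ⟨t₁, ht₁⟩ := (k2 _).1 g3
  rw [ht₁] at g7 g8
  rw [k3, k3] at g8
  refine ⟨t₀, t₁, n, g1, ht₁, fun i hi hin t h => g4 i hi hin ((k2 _).2 ⟨t, h⟩), g5, ?_, ?_, ?_⟩
  · rw [k1]; exact g6
  · rw [k1]; exact g7
  · by_cases hr : r = 0 ∨ r = 3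
    · simp only [hr, if_true] at g8
      omega
    · simp only [hr, if_false] at g8
      omega

end Vale.Agent.P167.H945
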