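import Vale.Agent.P167.H945.Gauge
import Vale.Agent.P167.H945.Nrm2
import Vale.Agent.P167.H825.Defs2A

/-!
# P167, block NORM: the walls of `H825.Defs2A` in the coordinates of a line, tip and flat events
-/

namespace Vale.Agent.P167.H945

set_option linter.unusedSectionVars false

open Finset MeasureTheory ProbabilityTheory
open Vale.Agent.P167.A (plane)
open Vale.Agent.P167.H685
open Vale.Agent.P167.H199
open Vale.Agent.P167.H825

/-! ### events -/

/-- The half line of the line `c` with the end `T`: the positions `< T` if `up`, the positions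
`≥ T` otherwise. -/
def HL (h : Bool) (c T : ℤ) (up : Bool) : Set Ed :=
  {e | ∃ t, (if up then t < T else T ≤ t) ∧ e = Ln h c t}

/-- Reference point at the position `T` of the line `c`. -/
def ctr (h : Bool) (c T : ℤ) : ℤ × ℤ := if h then (T, c) else (c, -T - 1)

/-- The squares at distance at most `r` from `z`. -/
def bl (z : ℤ × ℤ) (r : ℤ) : Set (ℤ × ℤ) := {v | nm (v - z) ≤ r}

/-- A strand of `L` in `B` whose two ends are on different faces. -/
def FFL (L : Set Ed) (B : Set (ℤ × ℤ)) (ω : Cfg) : Prop :=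
  ∃ e n, 1 ≤ n ∧ e ∈ L ∧ (nx ω)^[n] e ∈ L ∧ (∀ i, 0 < i → i < n → (nx ω)^[i] e ∉ L) ∧
    (∀ i < n, hdv ((nx ω)^[i] e) ∈ B) ∧ sg ((nx ω)^[n] e) = sg e

/-- A strand of the line `c` in `B` with both ends on the face `σ`, over the point `p`. -/
def FLL (h : Bool) (c p σ : ℤ) (B : Set (ℤ × ℤ)) (ω : Cfg) : Prop :=
  ∃ t₀ t₁ n, 1 ≤ n ∧ (nx ω)^[n] (Ln h c t₀) = Ln h c t₁ ∧
    (∀ i, 0 < i → i < n → ∀ t, (nx ω)^[i] (Ln h c t₀) ≠ Ln h c t) ∧
    (∀ i < n, hdv ((nx ω)^[i] (Ln h c t₀)) ∈ B) ∧ sg (Ln h c t₀) = σ ∧ sg (Ln h c t₁) = -σ ∧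
    (t₁ < p ∧ p ≤ t₀ ∨ t₀ < p ∧ p ≤ t₁)

theorem iter_loc {ω ω' : Cfg} {B : Set (ℤ × ℤ)} (h : ∀ v ∈ B, ω v = ω' v) {e : Ed} {n : ℕ}
    (hB : ∀ i < n, hdv ((nx ω)^[i] e) ∈ B) : ∀ i ≤ n, (nx ω')^[i] e = (nx ω)^[i] e := by
  intro i
  induction i with
  | zero => intro _; rfl
  | succ i ih =>
    intro hi
    rw [Function.iterate_succ_apply', Function.iterate_succ_apply', ih (by omega)]
    exact (nx_loc (h _ (hB i (by omega)))).symm

theorem FFL.congr {ω ω' : Cfg} {L : Set Ed} {B : Set (ℤ × ℤ)} (h : ∀ v ∈ B, ω v = ω' v)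
    (hf : FFL L B ω) : FFL L B ω' := by
  obtain ⟨e, n, h1, h2, h3, h4, h5, h6⟩ := hf
  have key := iter_loc h h5
  refine ⟨e, n, h1, h2, by rw [key n le_rfl]; exact h3, fun i hi hin => ?_, fun i hi => ?_, ?_⟩
  · rw [key i hin.le]; exact h4 i hi hin
  · rw [key i hi.le]; exact h5 i hi
  · rw [key n le_rfl]; exact h6

theorem FLL.congr {ω ω' : Cfg} {h : Bool} {c p σ : ℤ} {B : Set (ℤ × ℤ)}
    (hw : ∀ v ∈ B, ω v = ω' v) (hf : FLL h c p σ B ω) : FLL h c p σ B ω' := by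
  obtain ⟨t₀, t₁, n, h1, h2, h3, h4, h5⟩ := hf
  have key := iter_loc hw h4
  refine ⟨t₀, t₁, n, h1, by rw [key n le_rfl]; exact h2, fun i hi hin t => ?_, fun i hi => ?_, h5⟩
  · rw [key i hin.le]; exact h3 i hi hin t
  · rw [key i hi.le]; exact h4 i hi

theorem ret_of {ω : Cfg} {S : Finset Ed} {e : Ed} {n : ℕ} (hn : 1 ≤ n) (h1 : (nx ω)^[n] e ∈ S)
    (h2 : ∀ i, 0 < i → i < n → (nx ω)^[i] e ∉ S) :
    Returns (nx ω) S e ∧ ret (nx ω) S e = n := by
  have hr : Returns (nx ω) S e := ⟨n, hn, h1⟩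
  refine ⟨hr, le_antisymm (ret_le hn h1) ?_⟩
  by_contra hc
  push Not at hc
  exact h2 _ hr.spec.1 hc hr.spec.2

theorem ctr_hdv (h : Bool) (c t T : ℤ) : |t - T| ≤ nm (hdv (Ln h c t) - ctr h c T) := by
  cases h
  · by_cases h1 : Even (c + (-t - 1)) <;>
      simp only [Ln, Bool.false_eq_true, if_false, hdv, h1, if_true, nm, Prod.fst_sub,
        Prod.snd_sub, ctr] <;> refine le_trans (le_of_eq ?_) (le_max_right _ _) <;>
      rw [abs_sub_comm] <;> congr 1 <;> ring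
  · by_cases h1 : Even (t + c) <;>
      simp only [Ln, hdv, h1, if_true, if_false, nm, Prod.fst_sub, Prod.snd_sub, ctr] <;>
      exact le_max_left _ _

theorem ctr_tlv (h : Bool) (c t T : ℤ) : |t - T| ≤ nm (tlv (Ln h c t) - ctr h c T) := by
  cases h
  · by_cases h1 : Even (c + (-t - 1)) <;>
      simp only [Ln, Bool.false_eq_true, if_false, tlv, h1, if_true, nm, Prod.fst_sub,
        Prod.snd_sub, ctr] <;> refine le_trans (le_of_eq ?_) (le_max_right _ _) <;>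
      rw [abs_sub_comm] <;> congr 1 <;> ring
  · by_cases h1 : Even (t + c) <;>
      simp only [Ln, tlv, h1, if_true, if_false, nm, Prod.fst_sub, Prod.snd_sub, ctr] <;>
      exact le_max_left _ _

theorem epos_Ln (h : Bool) (c t : ℤ) : epos (Ln h c t) = ctr h c t := by
  cases h <;> simp [Ln, epos, ctr]

theorem ctr_sub (h : Bool) (c s t : ℤ) : nm (ctr h c s - ctr h c t) = |s - t| := by
  cases h
  · simp only [ctr, Bool.false_eq_true, if_false, nm, Prod.fst_sub, Prod.snd_sub, sub_self,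
      abs_zero]
    rw [show -s - 1 - (-t - 1) = t - s by ring, abs_sub_comm]
    exact max_eq_right (abs_nonneg _)
  · simp only [ctr, if_true, nm, Prod.fst_sub, Prod.snd_sub, sub_self, abs_zero]
    exact max_eq_left (abs_nonneg _)

theorem hdv_epos (e : Ed) : nm (hdv e - epos e) ≤ 1 := by
  rcases e with ⟨x, y⟩ | ⟨x, y⟩ <;> by_cases h1 : Even (x + y) <;> simp [hdv, epos, h1, nm]

/-! ### walls -/

section wall

variable (w : Wall)

/-- The line of the wall. -/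
def wc : ℤ := if w.o then w.q.2 else w.q.1
/-- Lower end. -/
def wlo : ℤ := if w.o then w.q.1 else -w.q.2 - w.L
/-- Upper end. -/
def whi : ℤ := if w.o then w.q.1 + w.L else -w.q.2
/-- Position of the jump. -/
def wp' : ℤ := if w.o then w.q.1 + w.k0 else -w.q.2 - w.k0
/-- Size of the jump. -/
def wj : ℤ := if w.o then w.j else -w.j
/-- Phase of the face `false` below the jump. -/
noncomputable def wu : ℝ := if w.o then w.c else w.c + w.j * (Real.pi / 3)

/-- Coordinate of the `k`-th edge. -/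
def wt (k : ℕ) : ℤ := if w.o then w.q.1 + k else -w.q.2 - 1 - k

theorem e_eq (k : ℕ) : w.e k = Ln w.o (wc w) (wt w k) := by
  unfold Wall.e wc wt Ln
  cases w.o
  · simp only [Bool.false_eq_true, if_false]
    congr 2
    ring
  · simp

theorem pos_eq (k : ℕ) : w.pos k = epos (w.e k) := by
  unfold Wall.pos Wall.e epos
  cases w.o <;> simp

theorem wt_mem {k : ℕ} (hk : k < w.L) : wlo w ≤ wt w k ∧ wt w k < whi w := by
  unfold wlo wt whi
  cases w.o <;> simp <;> omega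

theorem wt_surj {t : ℤ} (h1 : wlo w ≤ t) (h2 : t < whi w) : ∃ k < w.L, wt w k = t := by
  unfold wlo at h1
  unfold whi at h2
  unfold wt
  cases ho : w.o
  · simp only [ho, Bool.false_eq_true, if_false] at h1 h2 ⊢
    exact ⟨(-w.q.2 - 1 - t).toNat, by omega, by omega⟩
  · simp only [ho, if_true] at h1 h2 ⊢
    exact ⟨(t - w.q.1).toNat, by omega, by omega⟩

theorem wt_inj {k k' : ℕ} (h : wt w k = wt w k') : k = k' := by
  unfold wt at h
  cases ho : w.o <;> simp only [ho, Bool.false_eq_true, if_false, if_true] at h <;> omega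

theorem e_inj {k k' : ℕ} (h : w.e k = w.e k') : k = k' := by
  rw [e_eq, e_eq] at h
  exact wt_inj w (Ln_inj h)

theorem mem_S {e : Ed} : e ∈ w.S ↔ ∃ k < w.L, w.e k = e := by
  unfold Wall.S
  simp

theorem whi_sub : whi w - wlo w = w.L := by
  unfold whi wlo
  cases w.o <;> simp

theorem ph_e {k : ℕ} (hk : k < w.L) (b : Bool) :
    w.ph (w.e k) b = if b then w.u k + w.J else - w.u k := by
  unfold Wall.ph
  rw [sum_eq_single k]
  · rw [if_pos rfl]
  · intro k' _ hne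
    rw [if_neg]
    intro h
    exact hne (e_inj w h).symm
  · intro h
    exact absurd (mem_range.2 hk) h

theorem ph_off {e : Ed} (he : e ∉ w.S) (b : Bool) : w.ph e b = 0 := by
  unfold Wall.ph
  refine sum_eq_zero fun k hk => ?_
  rw [if_neg]
  intro h
  exact he ((mem_S w).2 ⟨k, mem_range.1 hk, h.symm⟩)

theorem u_eq (k : ℕ) : w.u k = ΦW (wu w) w.J (wj w) (wp' w) (wt w k) false := by
  unfold Wall.u ΦW wu wj wp' wt
  cases ho : w.o
  · simp only [Bool.false_eq_true, if_false, add_zero]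
    by_cases h : w.k0 ≤ k
    · rw [if_pos h, if_neg (by omega)]
      ring
    · rw [if_neg h, if_pos (by omega)]
      push_cast
      ring
  · simp only [if_true, Bool.false_eq_true, if_false, add_zero]
    by_cases h : w.k0 ≤ k
    · rw [if_pos h, if_pos (by omega)]
    · rw [if_neg h, if_neg (by omega)]

theorem ΦW_true (u J : ℝ) (j p t : ℤ) : ΦW u J j p t true = ΦW u J j p t false + J := by
  unfold ΦW; simp

theorem J_cases : w.J = Real.pi / 6 ∨ w.J = -(Real.pi / 6) := by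
  unfold Wall.J
  cases w.t <;> simp

end wall

/-! ### configurations of walls -/

section WCs

variable {ι : Type} [Fintype ι] {W : WC ι} {κ R B : ℝ} {n : ℕ}

theorem mem_WS {e : Ed} : e ∈ W.S ↔ ∃ i, ∃ k < (W.w i).L, (W.w i).e k = e := by
  unfold WC.S
  simp only [mem_biUnion, mem_univ, true_and, mem_S]

theorem Adm.same (hA : W.Adm κ R B n) {i i' : ι} {k k' : ℕ} (hk : k < (W.w i).L)
    (hk' : k' < (W.w i').L)
    (h : (nm ((W.w i).pos k - (W.w i').pos k') : ℝ) < κ * n) : i = i' := by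
  by_contra hne
  exact absurd (hA.sep i i' hne k hk k' hk') (not_le.2 h)

theorem nm_self (v : ℤ × ℤ) : nm (v - v) = 0 := by simp [nm]

theorem c_e (hA : W.Adm κ R B n) (hκn : 0 < κ * n) {i : ι} {k : ℕ} (hk : k < (W.w i).L) :
    W.c ((W.w i).e k) = 0 := by
  by_contra hc
  have := (hA.csup _ hc).2 i k hk
  rw [pos_eq, nm_self] at this
  push_cast at this
  linarith

theorem ph_we (hA : W.Adm κ R B n) (hκn : 0 < κ * n) {i : ι} {k : ℕ} (hk : k < (W.w i).L)
    (b : Bool) : W.ph ((W.w i).e k) b = if b then (W.w i).u k + (W.w i).J else - (W.w i).u k := by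
  classical
  unfold WC.ph
  rw [c_e hA hκn hk, zero_div, add_zero, sum_eq_single i]
  · exact ph_e _ hk b
  · intro i' _ hne
    refine ph_off _ (fun h => hne ?_) b
    obtain ⟨k', hk', he⟩ := (mem_S _).1 h
    refine Adm.same hA hk' hk ?_
    rw [pos_eq, pos_eq, he, nm_self]
    push_cast
    exact hκn
  · intro h
    exact absurd (mem_univ _) h

theorem ph_woff {e : Ed} (he : e ∉ W.S) (b : Bool) : W.ph e b = W.c e / 2 := by
  unfold WC.ph
  rw [sum_eq_zero, zero_add]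
  intro i _
  refine ph_off _ (fun h => he ?_) b
  obtain ⟨k, hk, hke⟩ := (mem_S _).1 h
  exact mem_WS.2 ⟨i, k, hk, hke⟩

theorem phF_w (hA : W.Adm κ R B n) (hκn : 0 < κ * n) (i : ι) {t : ℤ} (h1 : wlo (W.w i) ≤ t)
    (h2 : t < whi (W.w i)) :
    PhF W.ph (W.w i).o (wc (W.w i)) (ΦW (wu (W.w i)) (W.w i).J (wj (W.w i)) (wp' (W.w i))) t := by
  obtain ⟨k, hk, rfl⟩ := wt_surj _ h1 h2
  unfold PhF
  rw [← e_eq, ph_we hA hκn hk, ph_we hA hκn hk, ΦW_true, ← u_eq]
  simp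

theorem nr_w (hA : W.Adm κ R B n) {d : ℝ} (hd : 2 * d + 6 ≤ κ * n) (hd0 : 0 ≤ d) (i : ι) {t : ℤ}
    (h1 : wlo (W.w i) ≤ t) (h2 : t < whi (W.w i)) :
    Nr W.S (W.w i).o (wc (W.w i)) (wlo (W.w i)) (whi (W.w i)) (Ln (W.w i).o (wc (W.w i)) t) d := by
  obtain ⟨k, hk, rfl⟩ := wt_surj _ h1 h2
  rw [← e_eq]
  refine ⟨fun s h3 h4 => ?_, fun f hf hfd => ?_, ?_⟩
  · obtain ⟨l, hl, rfl⟩ := wt_surj _ h3 h4
    rw [← e_eq]
    exact mem_WS.2 ⟨i, l, hl, rfl⟩
  · obtain ⟨i', k', hk', rfl⟩ := mem_WS.1 hf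
    have h5 : nm ((W.w i').pos k' - (W.w i).pos k) ≤
        nm (hdv ((W.w i').e k') - hdv ((W.w i).e k)) + 2 := by
      rw [pos_eq, pos_eq]
      have a1 := hdv_epos ((W.w i').e k')
      have a2 := hdv_epos ((W.w i).e k)
      have b1 := Vale.Agent.P167.H45.nm_sub_le (epos ((W.w i').e k')) (hdv ((W.w i').e k'))
        (epos ((W.w i).e k))
      have b2 := Vale.Agent.P167.H45.nm_sub_le (hdv ((W.w i').e k')) (hdv ((W.w i).e k))
        (epos ((W.w i).e k))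
      rw [Vale.Agent.P167.H45.nm_sub_comm (epos ((W.w i').e k')) (hdv ((W.w i').e k'))] at b1
      linarith
    have h6 : (nm ((W.w i').pos k' - (W.w i).pos k) : ℝ) < κ * n := by
      have : (nm ((W.w i').pos k' - (W.w i).pos k) : ℝ) ≤
          nm (hdv ((W.w i').e k') - hdv ((W.w i).e k)) + 2 := by exact_mod_cast h5
      linarith
    obtain rfl := Adm.same hA hk' hk h6
    have h7 := wt_mem (W.w i') hk'
    exact ⟨wt (W.w i') k', h7.1, h7.2, e_eq _ _⟩
  · have h5 := whi_sub (W.w i)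
    have h6 : ((whi (W.w i) : ℝ) - wlo (W.w i)) = (W.w i).L := by
      have : ((whi (W.w i) - wlo (W.w i) : ℤ) : ℝ) = (((W.w i).L : ℤ) : ℝ) := by rw [h5]
      push_cast at this
      exact this
    rw [h6]
    have := hA.len i
    linarith

theorem jump_w (hA : W.Adm κ R B n) {d : ℝ} (hd : 2 * d + 6 ≤ κ * n) (i : ι) :
    wj (W.w i) = 0 ∨ ((wj (W.w i) = 1 ∨ wj (W.w i) = -1) ∧
      wlo (W.w i) + 2 * d + 1 ≤ wp' (W.w i) ∧ wp' (W.w i) + 2 * d + 1 ≤ whi (W.w i)) := by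
  unfold wj wlo wp' whi
  rcases hA.jump i with h | ⟨h, h1, h2⟩
  · left; rw [h]; simp
  · right
    cases ho : (W.w i).o
    · simp only [Bool.false_eq_true, if_false]
      refine ⟨by omega, ?_, ?_⟩ <;> push_cast <;> linarith
    · simp only [if_true]
      refine ⟨h, ?_, ?_⟩ <;> push_cast <;> linarith

theorem off_strand (hA : W.Adm κ R B n) {d : ℝ} (hd : 2 * d + 6 ≤ κ * n) {ω : Cfg} {i : ι}
    {t : ℤ} (h1 : wlo (W.w i) ≤ t) (h2 : t < whi (W.w i))
    (hs : Small d (strand (nx ω) W.S (Ln (W.w i).o (wc (W.w i)) t)))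
    (hr : Returns (nx ω) W.S (Ln (W.w i).o (wc (W.w i)) t)) :
    ∀ x ∈ strand (nx ω) W.S (Ln (W.w i).o (wc (W.w i)) t),
      x ≠ Ln (W.w i).o (wc (W.w i)) t → ∀ b, W.ph x b = 0 := by
  intro x hx hne b
  have hxS : x ∉ W.S := fun h => hne (strand_inter hx h)
  rw [ph_woff hxS]
  have hc : W.c x = 0 := by
    by_contra hc
    obtain ⟨k, hk, hk'⟩ := wt_surj _ h1 h2
    have h3 := (hA.csup x hc).2 i k hk
    have h4 := hs _ (mem_image_of_mem _ hx) _ (mem_image_of_mem _ (self_mem_strand hr))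
    rw [pos_eq, e_eq, hk'] at h3
    set e := Ln (W.w i).o (wc (W.w i)) t
    have a1 := hdv_epos x
    have a2 := hdv_epos e
    have b1 := Vale.Agent.P167.H45.nm_sub_le (epos x) (hdv x) (epos e)
    have b2 := Vale.Agent.P167.H45.nm_sub_le (hdv x) (hdv e) (epos e)
    rw [Vale.Agent.P167.H45.nm_sub_comm (epos x) (hdv x)] at b1
    have h5 : (nm (epos x - epos e) : ℝ) ≤ nm (hdv x - hdv e) + 2 := by
      have : nm (epos x - epos e) ≤ nm (hdv x - hdv e) + 2 := by linarith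
      exact_mod_cast this
    have h6 : (0 : ℝ) ≤ nm (hdv x - hdv e) := by
      exact_mod_cast Vale.Agent.P167.H45.nm_nonneg _
    linarith
  rw [hc, zero_div]

/-- A piece of the interface between two edges of the wall `i`, near the wall, is a strand. -/
theorem strand_of (hA : W.Adm κ R B n) {d : ℝ} (hd : 2 * d + 6 ≤ κ * n) (hd0 : 0 ≤ d) {ω : Cfg}
    {i : ι} {t₀ t₁ : ℤ} {m : ℕ} (h1 : wlo (W.w i) ≤ t₀) (h2 : t₀ < whi (W.w i))
    (h3 : wlo (W.w i) ≤ t₁) (h4 : t₁ < whi (W.w i)) (hm : 1 ≤ m)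
    (h5 : (nx ω)^[m] (Ln (W.w i).o (wc (W.w i)) t₀) = Ln (W.w i).o (wc (W.w i)) t₁)
    (h6 : ∀ l, 0 < l → l < m → ∀ t, wlo (W.w i) ≤ t → t < whi (W.w i) →
      (nx ω)^[l] (Ln (W.w i).o (wc (W.w i)) t₀) ≠ Ln (W.w i).o (wc (W.w i)) t)
    (h7 : ∀ l < m, ∀ l' < m, (nm (hdv ((nx ω)^[l] (Ln (W.w i).o (wc (W.w i)) t₀)) -
      hdv ((nx ω)^[l'] (Ln (W.w i).o (wc (W.w i)) t₀))) : ℝ) < d) :
    Returns (nx ω) W.S (Ln (W.w i).o (wc (W.w i)) t₀) ∧
      ret (nx ω) W.S (Ln (W.w i).o (wc (W.w i)) t₀) = m ∧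
      Small d (strand (nx ω) W.S (Ln (W.w i).o (wc (W.w i)) t₀)) := by
  have hN := nr_w hA hd hd0 i h1 h2
  have hR := ret_of (S := W.S) hm (by rw [h5]; exact hN.sub t₁ h3 h4) (fun l hl hlm hS => by
    obtain ⟨t, ht1, ht2, ht3⟩ := hN.near _ hS (by
      have := h7 l hlm 0 (by omega)
      simp only [Function.iterate_zero, id] at this
      linarith)
    exact h6 l hl hlm t ht1 ht2 ht3)
  refine ⟨hR.1, hR.2, ?_⟩
  intro u hu v hv
  obtain ⟨x, hx, rfl⟩ := mem_image.1 hu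
  obtain ⟨y, hy, rfl⟩ := mem_image.1 hv
  obtain ⟨a, ha, rfl⟩ := mem_strand.1 hx
  obtain ⟨b, hb, rfl⟩ := mem_strand.1 hy
  rw [hR.2] at ha hb
  exact h7 a ha b hb

theorem Xc_zero {S : Finset Ed} {a : Ed → Bool → ℝ} {ω : Cfg} {e : Ed} (he : e ∈ S)
    (h : 2 * Real.cos (cang plane (Real.pi / 3) a ω (strand (nx ω) S e)) = 0) :
    Xc S a ω = 0 := by
  unfold Xc
  rw [prod_eq_zero he h, mul_zero]

theorem bl_close {z u v : ℤ × ℤ} {r : ℤ} {d : ℝ} (h : (2 * r : ℝ) < d) (hu : u ∈ bl z r)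
    (hv : v ∈ bl z r) : (nm (u - v) : ℝ) < d := by
  have h1 : nm (u - z) ≤ r := hu
  have h2 : nm (v - z) ≤ r := hv
  have h3 := Vale.Agent.P167.H45.nm_sub_le u z v
  rw [Vale.Agent.P167.H45.nm_sub_comm z v] at h3
  have : (nm (u - v) : ℝ) ≤ 2 * r := by
    have : nm (u - v) ≤ 2 * r := by linarith
    exact_mod_cast this
  linarith

theorem len_ge (hA : W.Adm κ R B n) (i : ι) : κ * n ≤ (whi (W.w i) : ℝ) - wlo (W.w i) := by
  have h5 := whi_sub (W.w i)
  have h6 : ((whi (W.w i) : ℝ) - wlo (W.w i)) = (W.w i).L := by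
    have : ((whi (W.w i) - wlo (W.w i) : ℤ) : ℝ) = (((W.w i).L : ℤ) : ℝ) := by rw [h5]
    push_cast at this
    exact this
  rw [h6]
  exact hA.len i

/-- The zero tip. -/
theorem tip_zero (hA : W.Adm κ R B n) {d : ℝ} (hd : 2 * d + 6 ≤ κ * n) {r : ℤ}
    (hr : (2 * r : ℝ) < d) (hr0 : 0 ≤ r) {ω : Cfg} (i : ι)
    (hf : FFL (HL (W.w i).o (wc (W.w i)) (if (W.w i).t then wlo (W.w i) else whi (W.w i))
      (!(W.w i).t)) (bl (ctr (W.w i).o (wc (W.w i))
        (if (W.w i).t then wlo (W.w i) else whi (W.w i))) r) ω) :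
    Xc W.S W.ph ω = 0 := by
  have hd0 : 0 ≤ d := by
    have : (0 : ℝ) ≤ r := by exact_mod_cast hr0
    linarith
  have hr0' : (0 : ℝ) ≤ r := by exact_mod_cast hr0
  have hlen := len_ge hA i
  obtain ⟨e, m, hm, ⟨t₀, ht₀, rfl⟩, ⟨t₁, ht₁, he1⟩, hint, hbox, hsg⟩ := hf
  set T := (if (W.w i).t then wlo (W.w i) else whi (W.w i)) with hT
  have d0 : |t₀ - T| ≤ r := by
    have h1 := hbox 0 (by omega)
    exact (ctr_hdv _ _ _ _).trans h1
  have d1 : |t₁ - T| ≤ r := by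
    obtain ⟨l, rfl⟩ : ∃ l, m = l + 1 := ⟨m - 1, by omega⟩
    have h1 := hbox l (by omega)
    rw [Function.iterate_succ_apply'] at he1
    have h2 : tlv (Ln (W.w i).o (wc (W.w i)) t₁) =
        hdv ((nx ω)^[l] (Ln (W.w i).o (wc (W.w i)) t₀)) := by
      rw [← he1, tlv_nx]
    refine (ctr_tlv (W.w i).o (wc (W.w i)) t₁ T).trans ?_
    rw [h2]
    exact h1
  rw [abs_le] at d0 d1
  have hrlen : 2 * r + 1 < whi (W.w i) - wlo (W.w i) := by
    have : (2 * r + 1 : ℝ) < (whi (W.w i) : ℝ) - wlo (W.w i) := by linarith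
    exact_mod_cast this
  have hin : wlo (W.w i) ≤ t₀ ∧ t₀ < whi (W.w i) ∧ wlo (W.w i) ≤ t₁ ∧ t₁ < whi (W.w i) := by
    cases ht : (W.w i).t
    · simp only [ht, Bool.not_false, if_true, Bool.false_eq_true, if_false] at ht₀ ht₁ hT
      rw [hT] at d0 d1
      rw [hT] at ht₀ ht₁
      omega
    · simp only [ht, Bool.not_true, Bool.false_eq_true, if_false, if_true] at ht₀ ht₁ hT
      rw [hT] at d0 d1
      rw [hT] at ht₀ ht₁
      omega
  obtain ⟨i1, i2, i3, i4⟩ := hin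
  have hHL : ∀ t, wlo (W.w i) ≤ t → t < whi (W.w i) →
      Ln (W.w i).o (wc (W.w i)) t ∈ HL (W.w i).o (wc (W.w i)) T (!(W.w i).t) := by
    intro t h1 h2
    refine ⟨t, ?_, rfl⟩
    cases ht : (W.w i).t
    · simp only [ht, Bool.false_eq_true, if_false] at hT
      simp only [Bool.not_false, if_true]
      rw [hT]; exact h2
    · simp only [ht, if_true] at hT
      simp only [Bool.not_true, Bool.false_eq_true, if_false]
      rw [hT]; exact h1
  obtain ⟨q1, q2, q3⟩ := strand_of hA hd hd0 i1 i2 i3 i4 hm he1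
    (fun l hl hlm t h1 h2 h3 => hint l hl hlm (by rw [h3]; exact hHL t h1 h2))
    (fun l hl l' hl' => bl_close hr (hbox l hl) (hbox l' hl'))
  have hN := nr_w hA hd hd0 i i1 i2
  obtain ⟨t₁', -, -, h5, -, h7, h8, -⟩ := wall_tab hN i1 i2 q1 q3
    (off_strand hA hd i1 i2 q3 q1) (J_cases _) (fun t => phF_w hA (by linarith) i)
    (jump_w hA hd i)
  rw [q2, he1] at h5
  have h9 : t₁ = t₁' := Ln_inj h5
  subst h9
  rw [he1] at hsg
  have c0 : -(r : ℝ) ≤ (t₀ : ℝ) - T ∧ (t₀ : ℝ) - T ≤ r := by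
    constructor
    · exact_mod_cast d0.1
    · exact_mod_cast d0.2
  refine Xc_zero (hN.sub t₀ i1 i2) ?_
  cases ht : (W.w i).t
  · simp only [ht, Bool.false_eq_true, if_false] at hT
    refine h7 hsg ?_ (by unfold Wall.J; simp [ht])
    rw [hT] at c0
    linarith
  · simp only [ht, if_true] at hT
    refine h8 hsg ?_ (by unfold Wall.J; simp [ht])
    rw [hT] at c0
    linarith

/-- The zero flat point. -/
theorem flat_zero (hA : W.Adm κ R B n) {d : ℝ} (hd : 2 * d + 6 ≤ κ * n) {r : ℤ}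
    (hr : (2 * r : ℝ) < d) (hr0 : 0 ≤ r) {ω : Cfg} (i : ι) (hj : wj (W.w i) ≠ 0)
    (hf : FLL (W.w i).o (wc (W.w i)) (wp' (W.w i)) (wj (W.w i))
      (bl (ctr (W.w i).o (wc (W.w i)) (wp' (W.w i))) r) ω) :
    Xc W.S W.ph ω = 0 := by
  have hr0' : (0 : ℝ) ≤ r := by exact_mod_cast hr0
  have hd0 : 0 ≤ d := by linarith
  obtain ⟨t₀, t₁, m, hm, he1, hint, hbox, hs0, hs1, hsep⟩ := hf
  have hjw := jump_w hA hd i
  set T := wp' (W.w i) with hT
  have d0 : |t₀ - T| ≤ r := by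
    have h1 := hbox 0 (by omega)
    exact (ctr_hdv _ _ _ _).trans h1
  have d1 : |t₁ - T| ≤ r := by
    obtain ⟨l, rfl⟩ : ∃ l, m = l + 1 := ⟨m - 1, by omega⟩
    have h1 := hbox l (by omega)
    rw [Function.iterate_succ_apply'] at he1
    have h2 : tlv (Ln (W.w i).o (wc (W.w i)) t₁) =
        hdv ((nx ω)^[l] (Ln (W.w i).o (wc (W.w i)) t₀)) := by
      rw [← he1, tlv_nx]
    refine (ctr_tlv (W.w i).o (wc (W.w i)) t₁ T).trans ?_
    rw [h2]
    exact h1
  rw [abs_le] at d0 d1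
  obtain ⟨hjj, hlo, hhi⟩ : (wj (W.w i) = 1 ∨ wj (W.w i) = -1) ∧
      (wlo (W.w i) : ℝ) + 2 * d + 1 ≤ T ∧ (T : ℝ) + 2 * d + 1 ≤ whi (W.w i) := by
    rcases hjw with h | h
    · exact absurd h hj
    · exact h
  have e1 : wlo (W.w i) + r < T := by
    have : ((wlo (W.w i) + r : ℤ) : ℝ) < T := by push_cast; linarith
    exact_mod_cast this
  have e2 : T + r < whi (W.w i) := by
    have : ((T + r : ℤ) : ℝ) < whi (W.w i) := by push_cast; linarith
    exact_mod_cast this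
  obtain ⟨i1, i2, i3, i4⟩ : wlo (W.w i) ≤ t₀ ∧ t₀ < whi (W.w i) ∧ wlo (W.w i) ≤ t₁ ∧
    t₁ < whi (W.w i) := by omega
  obtain ⟨q1, q2, q3⟩ := strand_of hA hd hd0 i1 i2 i3 i4 hm he1
    (fun l hl hlm t _ _ => hint l hl hlm t)
    (fun l hl l' hl' => bl_close hr (hbox l hl) (hbox l' hl'))
  have hN := nr_w hA hd hd0 i i1 i2
  obtain ⟨t₁', -, -, h5, -, -, -, h8⟩ := wall_tab hN i1 i2 q1 q3
    (off_strand hA hd i1 i2 q3 q1) (J_cases _) (fun t => phF_w hA (by linarith) i)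
    (jump_w hA hd i)
  rw [q2, he1] at h5
  have h9 : t₁ = t₁' := Ln_inj h5
  subst h9
  refine Xc_zero (hN.sub t₀ i1 i2) (h8 (by rw [hs0, hs1]) hsep hs0.symm)

open Classical in
/-- The product over the small loops and strands is at most `√3 ^ |S|` times the product over the
small loops. -/
theorem smP_le (hA : W.Adm κ R B n) {d : ℝ} (hd : 2 * d + 6 ≤ κ * n) (hd0 : 0 ≤ d) {ω : Cfg}
    (hg : ∀ e : Ed, ∃ ℓ, IsLoop ω ℓ ∧ e ∈ ℓ) (E : Finset Ed) {g : ℝ}
    (hl : (∏ ℓ ∈ (LE ω E).filter (fun ℓ => Disjoint ℓ W.S ∧ Small d ℓ),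
      |2 * Real.cos (cang plane (Real.pi / 3) W.ph ω ℓ)|) ≤ g) :
    smP W.S E W.ph d ω ≤ √3 ^ W.S.card * g := by
  have h3 : (1 : ℝ) ≤ √3 := by
    rw [Real.one_le_sqrt]; norm_num
  have hg0 : 0 ≤ g := le_trans (prod_nonneg fun _ _ => abs_nonneg _) hl
  have hst : ∏ e ∈ W.S.filter (fun e => Small d (strand (nx ω) W.S e)),
      |2 * Real.cos (cang plane (Real.pi / 3) W.ph ω (strand (nx ω) W.S e))| ≤ √3 ^ W.S.card := by
    calc ∏ e ∈ W.S.filter (fun e => Small d (strand (nx ω) W.S e)),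
          |2 * Real.cos (cang plane (Real.pi / 3) W.ph ω (strand (nx ω) W.S e))|
        ≤ ∏ _e ∈ W.S.filter (fun e => Small d (strand (nx ω) W.S e)), √3 := by
          refine prod_le_prod (fun _ _ => abs_nonneg _) fun e he => ?_
          rw [mem_filter] at he
          obtain ⟨heS, hs⟩ := he
          obtain ⟨i, k, hk, hke⟩ := mem_WS.1 heS
          rw [e_eq] at hke
          have hr : Returns (nx ω) W.S e := by
            obtain ⟨ℓ, h1, h2⟩ := hg e
            exact returns_of_loop h1 h2 heS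
          have hm := wt_mem (W.w i) hk
          subst hke
          obtain ⟨t₁, -, -, -, h6, -⟩ := wall_tab (nr_w hA hd hd0 i hm.1 hm.2) hm.1 hm.2 hr hs
            (off_strand hA hd hm.1 hm.2 hs hr) (J_cases _)
            (fun t => phF_w hA (by linarith) i) (jump_w hA hd i)
          exact h6
      _ = √3 ^ (W.S.filter (fun e => Small d (strand (nx ω) W.S e))).card := by rw [prod_const]
      _ ≤ √3 ^ W.S.card := pow_le_pow_right₀ h3 (card_filter_le _ _)
  unfold smP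
  rw [mul_comm]
  have h4 : 0 ≤ ∏ ℓ ∈ (LE ω E).filter (fun ℓ => Disjoint ℓ W.S ∧ Small d ℓ),
      |2 * Real.cos (cang plane (Real.pi / 3) W.ph ω ℓ)| := prod_nonneg fun _ _ => abs_nonneg _
  exact mul_le_mul hst hl h4 (by positivity)

end WCs

end Vale.Agent.P167.H945
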